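import Mathlib

/-! Basic facts on the character `x ↦ exp (2 π i x)`. -/

namespace Vale.Agent.P110

open Complex Real Finset MeasureTheory intervalIntegral

/-- The character `exp (2 π i x)`. -/
noncomputable def ee (x : ℝ) : ℂ := Complex.exp (Complex.I * ((2 * π * x : ℝ) : ℂ))

lemma ee_add (x y : ℝ) : ee (x + y) = ee x * ee y := by
  unfold ee; rw [← Complex.exp_add]; congr 1; push_cast; ring

@[simp] lemma ee_zero : ee 0 = 1 := by simp [ee]

@[simp] lemma norm_ee (x : ℝ) : ‖ee x‖ = 1 := by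
  unfold ee; rw [mul_comm]; exact Complex.norm_exp_ofReal_mul_I _

lemma ee_ne_zero (x : ℝ) : ee x ≠ 0 := Complex.exp_ne_zero _

lemma ee_int (n : ℤ) : ee n = 1 := by
  unfold ee
  have := Complex.exp_int_mul_two_pi_mul_I n
  rw [← this]; congr 1; push_cast; ring

lemma ee_nat (n : ℕ) : ee n = 1 := by
  have := ee_int n; simpa using this

lemma ee_add_int (x : ℝ) (n : ℤ) : ee (x + n) = ee x := by rw [ee_add, ee_int, mul_one]

lemma ee_eq_of_sub_int {x y : ℝ} (n : ℤ) (h : x = y + n) : ee x = ee y := by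
  rw [h, ee_add_int]

lemma ee_neg (x : ℝ) : ee (-x) = (starRingEnd ℂ) (ee x) := by
  unfold ee; rw [← Complex.exp_conj]; congr 1
  simp only [map_mul, Complex.conj_I, Complex.conj_ofReal]; push_cast; ring

lemma ee_mul_neg (x : ℝ) : ee x * ee (-x) = 1 := by rw [← ee_add]; simp

lemma ee_re (x : ℝ) : (ee x).re = Real.cos (2 * π * x) := by
  unfold ee; rw [mul_comm, Complex.exp_ofReal_mul_I_re]

lemma ee_sum {ι : Type*} (s : Finset ι) (f : ι → ℝ) : ee (∑ i ∈ s, f i) = ∏ i ∈ s, ee (f i) := by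
  classical
  induction s using Finset.induction_on with
  | empty => simp
  | insert a s ha ih => rw [Finset.sum_insert ha, Finset.prod_insert ha, ee_add, ih]

lemma ee_nat_mul (n : ℕ) (x : ℝ) : ee (n * x) = ee x ^ n := by
  induction n with
  | zero => simp
  | succ n ih => push_cast; rw [add_mul, one_mul, ee_add, ih, pow_succ]

lemma hasDerivAt_ee (x : ℝ) : HasDerivAt ee (Complex.I * (2 * π) * ee x) x := by
  unfold ee
  have h1 : HasDerivAt (fun x : ℝ => ((2 * π * x : ℝ) : ℂ)) ((2 * π : ℝ) : ℂ) x := by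
    have := ((hasDerivAt_id x).const_mul (2 * π)).ofReal_comp
    simpa using this
  have h2 := (h1.const_mul Complex.I).cexp
  refine h2.congr_deriv ?_
  push_cast; ring

lemma HasDerivAt.ee' {f : ℝ → ℝ} {f' x : ℝ} (h : HasDerivAt f f' x) :
    HasDerivAt (fun y => ee (f y)) (Complex.I * (2 * π) * ee (f x) * f') x := by
  have := (hasDerivAt_ee (f x)).scomp x h
  refine this.congr_deriv ?_
  rw [Complex.real_smul]; ring

@[continuity, fun_prop] lemma continuous_ee : Continuous ee :=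
  continuous_iff_continuousAt.2 fun x => (hasDerivAt_ee x).continuousAt

lemma norm_ee_sub_one (x : ℝ) : ‖ee x - 1‖ ≤ 2 * π * |x| := by
  unfold ee
  refine (Real.norm_exp_I_mul_ofReal_sub_one_le).trans ?_
  rw [Real.norm_eq_abs, abs_mul, abs_of_pos (by positivity : (0:ℝ) < 2 * π)]

lemma norm_ee_sub (x y : ℝ) : ‖ee x - ee y‖ ≤ 2 * π * |x - y| := by
  have : ee x - ee y = ee y * (ee (x - y) - 1) := by
    rw [mul_sub, ← ee_add]; simp
  rw [this, norm_mul, norm_ee, one_mul]; exact norm_ee_sub_one _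

lemma norm_ee_sub_one_ge {x : ℝ} (hx : |x| ≤ 1 / 2) : 4 * |x| ≤ ‖ee x - 1‖ := by
  unfold ee
  rw [Complex.norm_exp_I_mul_ofReal_sub_one, Real.norm_eq_abs, abs_mul]
  have h1 : |2 * π * x / 2| ≤ π / 2 := by
    have : 2 * π * x / 2 = π * x := by ring
    rw [this, abs_mul, abs_of_pos Real.pi_pos]
    nlinarith [Real.pi_pos]
  have h2 := Real.mul_abs_le_abs_sin h1
  have h3 : 2 / π * |2 * π * x / 2| = 2 * |x| := by
    have : 2 * π * x / 2 = π * x := by ring
    rw [this, abs_mul, abs_of_pos Real.pi_pos]; field_simp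
  rw [h3] at h2
  rw [abs_of_pos (by norm_num : (0:ℝ) < 2)]
  linarith

lemma exists_ee (z : ℂ) : ∃ t : ℝ, z = (‖z‖ : ℂ) * ee t := by
  refine ⟨z.arg / (2 * π), ?_⟩
  unfold ee
  have : (2 * π * (z.arg / (2 * π)) : ℝ) = z.arg := by field_simp
  rw [this, mul_comm Complex.I]
  exact (Complex.norm_mul_exp_arg_mul_I z).symm

/-- Orthogonality on a period. -/
lemma integral_ee (k : ℤ) (a : ℝ) :
    ∫ t in a..a + 1, ee (k * t) = if k = 0 then 1 else 0 := by
  split_ifs with hk
  · subst hk; simp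
  · have hk' : (k : ℂ) ≠ 0 := by exact_mod_cast hk
    have hpi : (π : ℂ) ≠ 0 := by exact_mod_cast Real.pi_ne_zero
    have hd : ∀ t ∈ Set.uIcc a (a + 1), HasDerivAt (fun t : ℝ => ee (k * t) / (Complex.I * (2 * π) * k))
        (ee (k * t)) t := by
      intro t _
      have h := (HasDerivAt.ee' ((hasDerivAt_id t).const_mul (k : ℝ))).div_const
        (Complex.I * (2 * π) * k)
      refine h.congr_deriv ?_
      simp only [id, mul_one]; push_cast
      field_simp
    rw [integral_eq_sub_of_hasDerivAt hd (by apply Continuous.intervalIntegrable; fun_prop)]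
    have : ee (k * (a + 1)) = ee (k * a) := ee_eq_of_sub_int k (by ring)
    rw [this, sub_self]

/-- Discrete orthogonality. -/
lemma sum_ee (L : ℕ) (k : ℤ) (hk : |k| < L) :
    ∑ j ∈ range L, ee (k * (j / L)) = if k = 0 then (L : ℂ) else 0 := by
  split_ifs with h0
  · subst h0; simp
  · have hL : (0 : ℝ) < L := by
      have : (0 : ℤ) < L := lt_of_le_of_lt (abs_nonneg k) hk
      exact_mod_cast this
    have h1 : ∀ j : ℕ, ee (k * (j / L)) = ee (k / L) ^ j := by
      intro j; rw [← ee_nat_mul]; congr 1; ring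
    simp_rw [h1]
    have hne : ee (k / L) ≠ 1 := by
      intro h
      unfold ee at h
      rw [Complex.exp_eq_one_iff] at h
      obtain ⟨n, hn⟩ := h
      have hpi : (π : ℂ) ≠ 0 := by exact_mod_cast Real.pi_ne_zero
      have hLc : (L : ℂ) ≠ 0 := by exact_mod_cast hL.ne'
      have h2 : (k : ℂ) = n * L := by
        push_cast at hn
        have hI := Complex.I_ne_zero
        field_simp at hn
        linear_combination hn
      have h3 : k = n * L := by exact_mod_cast h2
      rw [h3, abs_mul, Nat.abs_cast] at hk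
      have hn0 : n ≠ 0 := by rintro rfl; simp at h3; exact h0 h3
      have : 1 ≤ |n| := Int.one_le_abs hn0
      have hL' : (0 : ℤ) < L := by exact_mod_cast hL
      nlinarith
    rw [geom_sum_eq hne, ← ee_nat_mul]
    have : ee (L * (k / L)) = 1 := by
      rw [← ee_int k]; congr 1; field_simp
    rw [this]; simp

lemma normSq_sum_ee {ι : Type*} (s : Finset ι) (c : ι → ℝ) (n : ι → ℤ) (t : ℝ) :
    ((‖∑ i ∈ s, (c i : ℂ) * ee (n i * t)‖ ^ 2 : ℝ) : ℂ) =
      ∑ i ∈ s, ∑ j ∈ s, (c i * c j : ℂ) * ee ((n i - n j : ℤ) * t) := by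
  rw [← Complex.normSq_eq_norm_sq, ← Complex.mul_conj, map_sum, Finset.sum_mul_sum]
  refine Finset.sum_congr rfl fun i _ => Finset.sum_congr rfl fun j _ => ?_
  rw [map_mul, ← ee_neg, Complex.conj_ofReal]
  have : (((n i - n j : ℤ) : ℝ) * t) = n i * t + -(n j * t) := by push_cast; ring
  rw [this, ee_add]; ring

/-- Parseval on a period. -/
lemma integral_normSq (N : ℕ) (c : ℕ → ℝ) (a : ℝ) :
    ∫ t in a..a + 1, ‖∑ k ∈ range N, (c k : ℂ) * ee (k * t)‖ ^ 2 = ∑ k ∈ range N, c k ^ 2 := by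
  have h := fun t => normSq_sum_ee (range N) c (fun k => (k : ℤ)) t
  simp only [Int.cast_natCast] at h
  apply Complex.ofReal_injective
  rw [← intervalIntegral.integral_ofReal]
  simp_rw [h]
  rw [intervalIntegral.integral_finsetSum (fun i _ => by
    apply Continuous.intervalIntegrable; fun_prop)]
  push_cast
  refine Finset.sum_congr rfl fun i hi => ?_
  rw [intervalIntegral.integral_finsetSum (fun i _ => by
    apply Continuous.intervalIntegrable; fun_prop)]
  have h2 : ∀ j ∈ range N, ∫ t in a..a + 1, (c i * c j : ℂ) * ee (((i : ℝ) - (j : ℝ)) * t) =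
      if i = j then (c i * c j : ℂ) else 0 := by
    intro j _
    rw [intervalIntegral.integral_const_mul]
    have := integral_ee ((i : ℤ) - j) a
    push_cast at this
    rw [this]
    by_cases hij : i = j
    · simp [hij]
    · have : (i : ℤ) - j ≠ 0 := by omega
      simp [hij, this]
  rw [Finset.sum_congr rfl h2, Finset.sum_ite_eq, if_pos hi]; ring

/-- Discrete Parseval. -/
lemma sum_normSq (N L : ℕ) (hNL : N ≤ L) (c : ℕ → ℝ) (θ : ℝ) :
    ∑ j ∈ range L, ‖∑ k ∈ range N, (c k : ℂ) * ee (k * (θ - j / L))‖ ^ 2 =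
      L * ∑ k ∈ range N, c k ^ 2 := by
  have h := fun t => normSq_sum_ee (range N) c (fun k => (k : ℤ)) t
  simp only [Int.cast_natCast] at h
  apply Complex.ofReal_injective
  rw [Complex.ofReal_sum]
  simp_rw [h]
  rw [Finset.sum_comm]
  push_cast
  rw [Finset.mul_sum]
  refine Finset.sum_congr rfl fun i hi => ?_
  rw [Finset.sum_comm]
  have h2 : ∀ j ∈ range N, ∑ l ∈ range L, (c i * c j : ℂ) * ee (((i : ℝ) - (j : ℝ)) * (θ - l / L)) =
      if i = j then (L * (c i * c j) : ℂ) else 0 := by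
    intro j hj
    have hi' := Finset.mem_range.1 hi
    have hj' := Finset.mem_range.1 hj
    have h3 : ∀ l : ℕ, ee (((i : ℝ) - (j : ℝ)) * (θ - l / L)) =
        ee (((i : ℝ) - j) * θ) * ee ((((j : ℤ) - i : ℤ) : ℝ) * (l / L)) := by
      intro l; rw [← ee_add]; congr 1; push_cast; ring
    simp_rw [h3, ← mul_assoc]
    rw [← Finset.mul_sum, sum_ee L ((j : ℤ) - i) (by rw [abs_lt]; constructor <;> omega)]
    by_cases hij : i = j
    · simp [hij]; ring
    · have : (j : ℤ) - i ≠ 0 := by omega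
      simp [hij, this]
  rw [Finset.sum_congr rfl h2, Finset.sum_ite_eq, if_pos hi]; ring

/-- The Dirichlet sum. -/
noncomputable def dir (n : ℕ) (t : ℝ) : ℂ := ∑ k ∈ range n, ee (k * t)

@[continuity, fun_prop] lemma continuous_dir (n : ℕ) : Continuous (dir n) := by
  unfold dir; fun_prop

lemma norm_dir_le (n : ℕ) {t : ℝ} (ht : |t| ≤ 1 / 2) : ‖dir n t‖ * |t| ≤ 1 / 2 := by
  have h1 : dir n t * (ee t - 1) = ee t ^ n - 1 := by
    unfold dir; simp_rw [ee_nat_mul]; exact geom_sum_mul _ _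
  have h2 : ‖dir n t‖ * ‖ee t - 1‖ ≤ 2 := by
    rw [← norm_mul, h1]
    refine (norm_sub_le _ _).trans ?_
    rw [norm_pow, norm_ee]; norm_num
  have h3 := norm_ee_sub_one_ge ht
  nlinarith [norm_nonneg (dir n t)]

lemma integral_normSq_dir (n : ℕ) (a : ℝ) : ∫ t in a..a + 1, ‖dir n t‖ ^ 2 = n := by
  have := integral_normSq n (fun _ => 1) a
  simpa [dir] using this

lemma sum_normSq_dir (n L : ℕ) (h : n ≤ L) (θ : ℝ) :
    ∑ j ∈ range L, ‖dir n (θ - j / L)‖ ^ 2 = L * n := by
  have := sum_normSq n L h (fun _ => 1) θ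
  simpa [dir] using this

end Vale.Agent.P110
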