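import Vale.Agent.P110.Label

/-! The design of segments obtained from the random labelling. -/

namespace Vale.Agent.P110

open Finset Matrix

lemma fiber_eq {A Y : Type*} [Fintype Y] [DecidableEq Y] (s : Finset A) (f : A → Y)
    (h : ∀ y y', (s.filter fun a => f a = y).card ≤ (s.filter fun a => f a = y').card) (y : Y) :
    (s.filter fun a => f a = y).card * Fintype.card Y = s.card := by
  rw [Finset.card_eq_sum_card_fiberwise (s := s) (f := f) (t := univ) fun _ _ => Finset.mem_univ _,
    Finset.sum_congr rfl (g := fun _ => (s.filter fun a => f a = y).card)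
      fun y' _ => le_antisymm (h _ _) (h _ _)]
  simp [mul_comm]

/-- Pairing modulo `n`. -/
def dz {r n : ℕ} (u : Fin r → ℤ) (ω : Fin r → ZMod n) : ZMod n := ∑ l, (u l : ZMod n) * ω l

lemma dz_shift {r n : ℕ} (u g : Fin r → ℤ) (ω : Fin r → ZMod n) (t : ZMod n) :
    dz u (fun l => ω l + t * (g l : ZMod n)) = dz u ω + t * ((u ⬝ᵥ g : ℤ) : ZMod n) := by
  unfold dz dotProduct
  push_cast
  rw [Finset.mul_sum, ← Finset.sum_add_distrib]
  exact Finset.sum_congr rfl fun _ _ => by ring

lemma shift_inj {r n R : ℕ} (g : Fin r → ℤ) (t : ZMod n) : Function.Injective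
    fun a : (Fin r → ZMod n) × Fin R => ((fun l => a.1 l + t * (g l : ZMod n), a.2) : (Fin r → ZMod n) × Fin R) := by
  intro a b h
  have h1 := congrArg Prod.fst h
  have h2 := congrArg Prod.snd h
  ext l
  · simpa using congrFun h1 l
  · exact congrArg Fin.val h2

lemma unif1 {r n R : ℕ} [NeZero n] (u e : Fin r → ℤ) (he : u ⬝ᵥ e = 1) (y : ZMod n) :
    (univ.filter fun a : (Fin r → ZMod n) × Fin R => dz u a.1 = y).card * n = n ^ r * R := by
  have := fiber_eq (univ : Finset ((Fin r → ZMod n) × Fin R)) (fun a => dz u a.1) (fun y y' => by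
    refine Finset.card_le_card_of_injOn _ (fun a ha => ?_) (shift_inj e (y' - y)).injOn
    simp only [Finset.coe_filter, Finset.mem_univ, true_and, Set.mem_ofPred_eq] at ha ⊢
    rw [dz_shift, ha, he]; simp) y
  simpa [ZMod.card] using this

lemma unif2 {r n R : ℕ} [NeZero n] (u u' h : Fin r → ℤ) (hh : u ⬝ᵥ h = 0)
    (hu : IsUnit ((u' ⬝ᵥ h : ℤ) : ZMod n)) (y y' : ZMod n) :
    (univ.filter fun a : (Fin r → ZMod n) × Fin R => dz u a.1 = y ∧ dz u' a.1 = y').card * n =
      (univ.filter fun a : (Fin r → ZMod n) × Fin R => dz u a.1 = y).card := by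
  obtain ⟨d, hd⟩ := hu.exists_left_inv
  have := fiber_eq (univ.filter fun a : (Fin r → ZMod n) × Fin R => dz u a.1 = y)
    (fun a => dz u' a.1) (fun z z' => by
    refine Finset.card_le_card_of_injOn _ (fun a ha => ?_) (shift_inj h ((z' - z) * d)).injOn
    simp only [Finset.coe_filter, Finset.mem_filter, Finset.mem_univ, true_and,
      Set.mem_ofPred_eq] at ha ⊢
    rw [dz_shift, dz_shift, ha.1, ha.2, hh, mul_assoc (z' - z) d (u' ⬝ᵥ h : ℤ), hd]; simp) y'
  rw [Finset.filter_filter, ZMod.card] at this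
  exact this

theorem design {r : ℕ} {ι : Type} [Fintype ι] [DecidableEq ι] (v e h : ι → Fin r → ℤ) (w : ι → ℝ)
    (L : ι → ℕ) (he : ∀ i, v i ⬝ᵥ e i = 1) (hh : ∀ i, v i ⬝ᵥ h i = 0)
    (hh' : ∀ i j, j ≠ i → v j ⬝ᵥ h i ≠ 0) (hw0 : ∀ i, 0 < w i) (hw : 2 * ∑ i, w i = 1)
    {ε : ℝ} (hε : 0 < ε) : ∃ n : ℕ, 0 < n ∧ ∀ (R : ℕ) (D : ι → ℕ) (T : ℝ),
      T = ((n * n : ℕ) : ℝ) ^ r * R * ∏ i, w i → 1 / ε ≤ T → (∀ i, T / ((n * n : ℕ) * w i) ≤ D i) →
      ∃ (Ω : Type) (_ : Fintype Ω) (om : Ω → Fin r → ℤ) (blk off idx : Ω → ι → ℕ),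
        (∀ s i, ((n * n : ℕ) : ℤ) ∣ v i ⬝ᵥ om s - (n * blk s i + off s i : ℕ)) ∧
        (∀ s i, blk s i < n) ∧ (∀ s i, off s i + L i ≤ n) ∧ (∀ s i, idx s i < D i) ∧
        (∀ s s' i i', blk s i = blk s' i' → i = i') ∧ (∀ s s' i i', blk s i + blk s' i' + 1 ≠ n) ∧
        (∀ s s' i, blk s i = blk s' i → off s i = off s' i → idx s i = idx s' i → s = s') ∧
        (1 - ε) * T ≤ Fintype.card Ω ∧ Fintype.card Ω ≤ T := by
  classical
  set m : ℝ := (Fintype.card ι : ℝ) with hm
  have hm0 : 0 ≤ m := by positivity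
  set Pw := ∏ i, w i with hPw
  have hPw0 : 0 < Pw := Finset.prod_pos fun i _ => hw0 i
  set δ : ℝ := ε * Pw / (m + 1) with hδ
  have hδ0 : 0 < δ := by positivity
  set C' : ℝ := m ^ 2 * 2 + ∑ i, ((L i : ℝ) + 1) with hC'
  have hC'0 : 0 ≤ C' := by positivity
  set C : ℝ := Pw * C' + m * ((m ^ 2 * 2 + 2 * C') / (2 * δ)) with hC
  obtain ⟨k, hk⟩ := exists_nat_ge (C / (ε * Pw / 2))
  set X0 : ℕ := ∏ p : ι × ι, if p.2 ≠ p.1 then (v p.2 ⬝ᵥ h p.1).natAbs else 1 with hX0
  have hX0pos : 0 < X0 := Finset.prod_pos fun p _ => by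
    split_ifs with hp
    · exact Int.natAbs_pos.2 (hh' _ _ hp)
    · exact one_pos
  obtain ⟨n, hn⟩ : ∃ n, n = X0 * k + 1 := ⟨_, rfl⟩
  have hn0 : 0 < n := hn ▸ Nat.succ_pos _
  have hn' : (0:ℝ) < n := by exact_mod_cast hn0
  have hkn : (k:ℝ) ≤ n := by exact_mod_cast (by nlinarith : k ≤ n)
  have : NeZero (n * n) := ⟨by positivity⟩
  have hunit : ∀ i j, j ≠ i → IsUnit ((v j ⬝ᵥ h i : ℤ) : ZMod (n * n)) := by
    intro i j hij
    rw [ZMod.coe_int_isUnit_iff_isCoprime]
    have h1 : (v j ⬝ᵥ h i).natAbs ∣ X0 := by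
      have := Finset.dvd_prod_of_mem (fun p : ι × ι =>
        if p.2 ≠ p.1 then (v p.2 ⬝ᵥ h p.1).natAbs else 1) (Finset.mem_univ (i, j))
      rwa [if_pos hij] at this
    obtain ⟨c, hc⟩ := Int.natAbs_dvd.1 (Int.natCast_dvd_natCast.2 h1)
    have h2 : IsCoprime (n : ℤ) (v j ⬝ᵥ h i) := ⟨1, -(c * k), by rw [hn]; push_cast; rw [hc]; ring⟩
    push_cast; exact h2.mul_left h2
  refine ⟨n, hn0, fun R D T hT hT1 hD => ?_⟩
  have hT0 : 0 < T := lt_of_lt_of_le (by positivity) hT1
  set Q := n * n with hQ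
  have hQ' : (Q:ℝ) = n * n := by rw [hQ]; push_cast; ring
  have hQ0 : (0:ℝ) < Q := by rw [hQ']; positivity
  set A := (Fin r → ZMod Q) × Fin R
  set y : ι → A → ZMod Q := fun i a => dz (v i) a.1 with hy
  have hblk : ∀ z : ZMod Q, z.val / n < n := fun z => Nat.div_lt_of_lt_mul (ZMod.val_lt z)
  set pr : ZMod Q → Fin n := fun z => ⟨min (z.val / n) (n - 1 - z.val / n),
    lt_of_le_of_lt (min_le_left _ _) (hblk z)⟩ with hpr
  set sd : ZMod Q → Bool := fun z => decide (2 * (z.val / n) + 1 < n) with hsd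
  set ok : ι → ZMod Q → Prop := fun i z => z.val % n + L i ≤ n ∧ 2 * (z.val / n) + 1 ≠ n with hok
  set good : Finset A := univ.filter fun a =>
    Function.Injective (fun i => pr (y i a)) ∧ ∀ i, ok i (y i a) with hgood
  set μ : ℝ := (Q:ℝ) ^ r * R / Q with hμ
  have hAc : (Fintype.card A : ℝ) = (Q:ℝ) ^ r * R := by simp [A, ZMod.card]
  have hA0 : 0 < (Q:ℝ) ^ r * R := by
    rw [hT] at hT0; exact (mul_pos_iff_of_pos_right hPw0).1 hT0
  have hμ0 : 0 < μ := by positivity
  have hAμ : (Fintype.card A : ℝ) = Q * μ := by rw [hAc, hμ]; field_simp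
  have U1 : ∀ i y0, ((univ.filter fun a : A => y i a = y0).card : ℝ) = μ := by
    intro i y0
    have := unif1 (R := R) (v i) (e i) (he i) y0
    rw [hμ, eq_div_iff hQ0.ne']; exact_mod_cast this
  have hext : ∀ z z' : ZMod Q, z.val / n = z'.val / n → z.val % n = z'.val % n → z = z' := by
    intro z z' h1 h2
    apply ZMod.val_injective
    rw [← Nat.div_add_mod z.val n, ← Nat.div_add_mod z'.val n, h1, h2]
  have hprc : ∀ p, ((univ.filter fun z => pr z = p).card : ℝ) ≤ 2 * n := by
    intro p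
    have : (univ.filter fun z => pr z = p).card ≤ ((univ : Finset Bool) ×ˢ range n).card := by
      refine Finset.card_le_card_of_injOn (fun z => (sd z, z.val % n)) (fun z _ => ?_)
        fun z hz z' hz' hzz => ?_
      · simp [Nat.mod_lt _ hn0]
      · have h1 := congrArg Fin.val ((Finset.mem_filter.1 hz).2.trans (Finset.mem_filter.1 hz').2.symm)
        simp only [Prod.mk.injEq, hsd, decide_eq_decide] at hzz
        simp only [hpr] at h1
        have := hblk z; have := hblk z'
        exact hext z z' (by omega) hzz.2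
    simp only [Finset.card_product, Finset.card_univ, Fintype.card_bool, Finset.card_range] at this
    exact_mod_cast this
  have U2 : ∀ i j, j ≠ i → ∀ y0 p,
      ((univ.filter fun a : A => y i a = y0 ∧ pr (y j a) = p).card : ℝ) ≤ 2 / n * μ := by
    intro i j hij y0 p
    rw [Finset.card_eq_sum_card_fiberwise (f := y j) (t := univ.filter fun z => pr z = p)
      fun a ha => by simpa using (Finset.mem_filter.1 ha).2.2]
    push_cast
    have h1 : ∀ z ∈ univ.filter fun z => pr z = p,
        (((univ.filter fun a : A => y i a = y0 ∧ pr (y j a) = p).filter fun a => y j a = z).card : ℝ)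
          ≤ μ / Q := by
      intro z _
      have h2 := unif2 (R := R) (v i) (v j) (h i) (hh i) (hunit i j hij) y0 z
      rw [le_div_iff₀ hQ0, ← U1 i y0, ← h2]
      push_cast
      refine mul_le_mul_of_nonneg_right (Nat.cast_le.2 (Finset.card_le_card fun a ha => ?_)) hQ0.le
      simp only [Finset.mem_filter, Finset.mem_univ, true_and] at ha ⊢
      exact ⟨ha.1.1, ha.2⟩
    refine (Finset.sum_le_sum h1).trans ?_
    rw [Finset.sum_const, nsmul_eq_mul]
    calc _ ≤ 2 * n * (μ / Q) := mul_le_mul_of_nonneg_right (hprc p) (by positivity)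
      _ = _ := by rw [hQ']; field_simp
  have hokc : ∀ i, ((univ.filter fun z => ¬ ok i z).card : ℝ) ≤ (L i + 1) * n := by
    intro i
    have : (univ.filter fun z => ¬ ok i z).card ≤ (range (L i + 1) ×ˢ range n).card := by
      refine Finset.card_le_card_of_injOn (fun z => if z.val % n + L i ≤ n then (L i, z.val % n)
        else (n - 1 - z.val % n, z.val / n)) (fun z _ => ?_) fun z hz z' hz' hzz => ?_
      · have := Nat.mod_lt z.val hn0
        have := hblk z
        simp only [Finset.coe_product, Finset.coe_range, Set.mem_prod, Set.mem_Iio]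
        split_ifs <;> constructor <;> omega
      · have h1 := (Finset.mem_filter.1 hz).2
        have h2 := (Finset.mem_filter.1 hz').2
        have := Nat.mod_lt z.val hn0
        have := Nat.mod_lt z'.val hn0
        simp only [hok] at h1 h2
        dsimp only at hzz
        split_ifs at hzz <;> simp only [Prod.mk.injEq] at hzz <;> exact hext z z' (by omega) (by omega)
    simp only [Finset.card_product, Finset.card_range] at this
    exact_mod_cast this
  have hg : (1 - C' / n) * Fintype.card A ≤ good.card := by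
    have h1 : (univ : Finset A) ⊆ good ∪ ((univ.biUnion fun p : ι × ι => univ.filter fun a : A =>
        p.2 ≠ p.1 ∧ pr (y p.2 a) = pr (y p.1 a)) ∪
        univ.biUnion fun i => univ.filter fun a : A => ¬ ok i (y i a)) := by
      intro a _
      simp only [hgood, Finset.mem_union, Finset.mem_filter, Finset.mem_univ, true_and,
        Finset.mem_biUnion, Prod.exists]
      by_cases h1 : Function.Injective (fun i => pr (y i a))
      · by_cases h2 : ∀ i, ok i (y i a)
        · exact Or.inl ⟨h1, h2⟩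
        · exact Or.inr (Or.inr (not_forall.1 h2))
      · obtain ⟨i, j, h3, h4⟩ := Function.not_injective_iff.1 h1
        exact Or.inr (Or.inl ⟨j, i, h4, h3⟩)
    have h2 := (Finset.card_le_card h1).trans ((Finset.card_union_le _ _).trans (Nat.add_le_add_left
      ((Finset.card_union_le _ _).trans (Nat.add_le_add Finset.card_biUnion_le Finset.card_biUnion_le)) _))
    have h3 : ∀ p : ι × ι, ((univ.filter fun a : A =>
        p.2 ≠ p.1 ∧ pr (y p.2 a) = pr (y p.1 a)).card : ℝ) ≤ 2 / n * Fintype.card A := by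
      rintro ⟨i, j⟩
      by_cases hij : j = i
      · simp [hij]; positivity
      rw [Finset.card_eq_sum_card_fiberwise (f := y i) (t := univ) fun _ _ => Finset.mem_univ _]
      push_cast
      have h4 : ∀ z ∈ (univ : Finset (ZMod Q)), (((univ.filter fun a : A =>
          j ≠ i ∧ pr (y j a) = pr (y i a)).filter fun a => y i a = z).card : ℝ) ≤ 2 / n * μ := by
        intro z _
        refine le_trans (Nat.cast_le.2 (Finset.card_le_card fun a ha => ?_)) (U2 i j hij z (pr z))
        simp only [Finset.mem_filter, Finset.mem_univ, true_and] at ha ⊢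
        exact ⟨ha.2, ha.2 ▸ ha.1.2⟩
      refine (Finset.sum_le_sum h4).trans (le_of_eq ?_)
      rw [Finset.sum_const, nsmul_eq_mul, Finset.card_univ, ZMod.card, hAμ]; ring
    have h4 : ∀ i, ((univ.filter fun a : A => ¬ ok i (y i a)).card : ℝ) ≤
        (L i + 1) / n * Fintype.card A := by
      intro i
      rw [Finset.card_eq_sum_card_fiberwise (f := y i) (t := univ.filter fun z => ¬ ok i z)
        fun a ha => by simpa using ha]
      push_cast
      have h5 : ∀ z ∈ univ.filter fun z => ¬ ok i z, (((univ.filter fun a : A =>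
          ¬ ok i (y i a)).filter fun a => y i a = z).card : ℝ) ≤ μ := by
        intro z _
        rw [← U1 i z]
        exact Nat.cast_le.2 (Finset.card_le_card
          (Finset.filter_subset_filter _ (Finset.filter_subset _ _)))
      refine (Finset.sum_le_sum h5).trans ?_
      rw [Finset.sum_const, nsmul_eq_mul]
      calc _ ≤ (L i + 1) * n * μ := mul_le_mul_of_nonneg_right (hokc i) hμ0.le
        _ = _ := by rw [hAμ, hQ']; field_simp
    have h5 : (Fintype.card A : ℝ) ≤ good.card + (∑ p : ι × ι, 2 / n * (Fintype.card A : ℝ) +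
        ∑ i, ((L i : ℝ) + 1) / n * Fintype.card A) := by
      refine le_trans (Nat.cast_le.2 h2) ?_
      rw [Nat.cast_add, Nat.cast_add, Nat.cast_sum, Nat.cast_sum]
      exact add_le_add le_rfl (add_le_add (Finset.sum_le_sum fun p _ => h3 p)
        (Finset.sum_le_sum fun i _ => h4 i))
    rw [Finset.sum_const, Finset.card_univ, Fintype.card_prod ι ι, nsmul_eq_mul, ← Finset.sum_mul,
      ← Finset.sum_div] at h5
    rw [Nat.cast_mul, ← hm] at h5
    have e1 : C' / n = m * m * (2 / n) + (∑ i, ((L i : ℝ) + 1)) / n := by rw [hC']; ring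
    rw [e1]; linarith
  obtain ⟨lab, Ω, idx, h1, h2, h3, h4, h5⟩ := label y pr sd w hw0 hw good
    (fun a ha => (Finset.mem_filter.1 ha).2.1) μ (2 / n) (C' / n) δ hμ0 (by positivity)
    (div_nonneg hC'0 hn'.le) hδ0 (by rw [ZMod.card]; exact hAμ) hg (fun i y0 => (U1 i y0).le) U2 D (by
      intro i
      refine le_trans (le_of_eq ?_) (hD i)
      have := (hw0 i).ne'
      rw [hT, hμ, hPw, ← Finset.mul_prod_erase univ w (Finset.mem_univ i)]
      generalize ∏ j ∈ univ.erase i, w j = x
      generalize (Q:ℝ) ^ r = z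
      field_simp)
  have hΩ : (1 - ε) * T ≤ Ω.card := by
    refine le_trans ?_ h5
    rw [hT, hAc, ← hm, ← hPw]
    have e1 : Pw * (1 - C' / n) - m * ((m ^ 2 * (2 / n) + 2 * (C' / n)) / (2 * δ) + δ / 2) =
        Pw - C / n - m * δ / 2 := by rw [hC]; field_simp; ring
    have e2 : C / n ≤ ε * Pw / 2 := by
      rw [div_le_iff₀ (by positivity)] at hk
      rw [div_le_iff₀ hn']
      have := mul_le_mul_of_nonneg_right hkn (by positivity : 0 ≤ ε * Pw / 2)
      linarith
    have e3 : m * δ ≤ ε * Pw := by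
      have : (m + 1) * δ = ε * Pw := by rw [hδ]; field_simp
      linarith
    rw [e1]
    have := mul_le_mul_of_nonneg_right (by linarith : (1 - ε) * Pw ≤ Pw - C / n - m * δ / 2) hA0.le
    linarith
  obtain ⟨Ω', hΩ'1, hΩ'2⟩ := Finset.exists_subset_card_eq (min_le_left Ω.card ⌊T⌋₊)
  have hk' : ∀ s : Ω', ∀ i, ok i (y i s) := fun s =>
    (Finset.mem_filter.1 (h1 (hΩ'1 s.2))).2.2
  refine ⟨Ω', inferInstance, fun s l => (s.1.1 l).val, fun s i => (y i s).val / n,
    fun s i => (y i s).val % n, fun s i => idx i s, fun s i => ?_, fun s i => hblk _,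
    fun s i => (hk' s i).1, fun s i => h3 s (hΩ'1 s.2) i, fun s s' i i' hb => ?_,
    fun s s' i i' hb => ?_, fun s s' i h6 h7 h8 => ?_, ?_, ?_⟩
  · rw [Nat.div_add_mod, ← ZMod.intCast_zmod_eq_zero_iff_dvd]
    simp [hy, dz, dotProduct]
  · have h6 := h2 s (hΩ'1 s.2) i
    have h7 := h2 s' (hΩ'1 s'.2) i'
    have h8 : pr (y i s) = pr (y i' s') := by
      simp only [hpr]; ext; dsimp only at hb ⊢; rw [hb]
    rw [h8, h7] at h6
    exact (congrArg Prod.fst h6).symm
  · have h6 := h2 s (hΩ'1 s.2) i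
    have h7 := h2 s' (hΩ'1 s'.2) i'
    dsimp only at hb
    have h8 : pr (y i s) = pr (y i' s') := by
      simp only [hpr]; ext; dsimp only
      generalize (y i s).val / n = b1 at hb
      generalize (y i' s').val / n = b2 at hb
      omega
    rw [h8, h7] at h6
    have h9 := congrArg Prod.snd h6
    have h10 := (hk' s i).2
    simp only [hsd, decide_eq_decide] at h9
    generalize (y i s).val / n = b1 at hb h9 h10
    generalize (y i' s').val / n = b2 at hb h9
    omega
  · exact Subtype.ext (h4 i s (hΩ'1 s.2) s' (hΩ'1 s'.2) (hext _ _ h6 h7) h8)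
  · rw [Fintype.card_coe, hΩ'2]
    rcases le_total Ω.card ⌊T⌋₊ with h6 | h6
    · rw [min_eq_left h6]; exact hΩ
    · rw [min_eq_right h6]
      have := Nat.lt_floor_add_one T
      rw [div_le_iff₀ hε] at hT1
      linarith
  · rw [Fintype.card_coe, hΩ'2]
    exact le_trans (Nat.cast_le.2 (min_le_right _ _)) (Nat.floor_le hT0.le)

end Vale.Agent.P110
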