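import Mathlib

/-! A nearly unimodular real trigonometric polynomial on a torus with non-collinear harmonics. -/

namespace Vale.Agent.P110

open Real Finset Matrix

/-- Pairing of an integer vector with a real vector. -/
def dr {r : ℕ} (u : Fin r → ℤ) (α : Fin r → ℝ) : ℝ := ∑ l, (u l : ℝ) * α l

lemma dr_add {r : ℕ} (u u' : Fin r → ℤ) (α : Fin r → ℝ) : dr (u + u') α = dr u α + dr u' α := by
  simp [dr, add_mul, Finset.sum_add_distrib]

lemma dr_neg {r : ℕ} (u : Fin r → ℤ) (α : Fin r → ℝ) : dr (-u) α = -dr u α := by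
  simp [dr]

lemma dr_sub {r : ℕ} (u u' : Fin r → ℤ) (α : Fin r → ℝ) : dr (u - u') α = dr u α - dr u' α := by
  rw [sub_eq_add_neg, dr_add, dr_neg]; ring

lemma dr_cons {r : ℕ} (a : ℤ) (u : Fin r → ℤ) (α : Fin (r + 1) → ℝ) :
    dr (vecCons a u) α = a * α 0 + dr u (vecTail α) := by
  simp [dr, Fin.sum_univ_succ, vecTail]

lemma exists_big {α : Type*} (T : Finset α) (f : α → ℤ) : ∃ K : ℤ, 0 < K ∧ ∀ a ∈ T, |f a| < K := by
  refine ⟨∑ a ∈ T, |f a| + 1, ?_, fun a ha => ?_⟩
  · have : 0 ≤ ∑ a ∈ T, |f a| := Finset.sum_nonneg fun _ _ => abs_nonneg _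
    omega
  · have := Finset.single_le_sum (f := fun a => |f a|) (fun _ _ => abs_nonneg _) ha
    omega

lemma exists_generic {r : ℕ} (T : Finset (Fin r → ℤ)) (hT : ∀ u ∈ T, u ≠ 0) :
    ∃ g : Fin r → ℤ, ∀ u ∈ T, u ⬝ᵥ g ≠ 0 := by
  induction T using Finset.induction_on with
  | empty => exact ⟨0, by simp⟩
  | insert u T _ ih =>
    obtain ⟨g, hg⟩ := ih fun u hu => hT u (Finset.mem_insert_of_mem hu)
    by_cases h : u ⬝ᵥ g = 0
    · obtain ⟨l, hl⟩ := Function.ne_iff.1 (hT u (Finset.mem_insert_self _ _))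
      obtain ⟨K, hK0, hK⟩ := exists_big T fun s => s l
      refine ⟨K • g + Pi.single l 1, fun s hs => ?_⟩
      rw [dotProduct_add, dotProduct_smul, dotProduct_single, mul_one, smul_eq_mul]
      rcases Finset.mem_insert.1 hs with rfl | hs
      · rw [h]; simpa using hl
      · have h1 := abs_lt.1 (hK s hs)
        have h2 := hg s hs
        rcases lt_or_gt_of_ne h2 with h3 | h3 <;> nlinarith
    · exact ⟨g, fun s hs => by
        rcases Finset.mem_insert.1 hs with rfl | hs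
        · exact h
        · exact hg s hs⟩

/-- The invariants of the recursive construction. -/
structure Tor (r : ℕ) (S : Finset (Fin r → ℤ)) (c : (Fin r → ℤ) → ℝ) : Prop where
  he : ∀ u ∈ S, ∃ e, u ⬝ᵥ e = 1
  hh : ∀ u ∈ S, ∃ h, u ⬝ᵥ h = 0 ∧ ∀ u' ∈ S, u' ≠ u → u' ⬝ᵥ h ≠ 0
  hb : ∃ β, ∀ u ∈ S, 0 < u ⬝ᵥ β
  bd : ∀ α, |∑ u ∈ S, 2 * c u * Real.cos (dr u α)| ≤ 1
  en : 1 - 2 * ∑ u ∈ S, c u ^ 2 ≤ 8 / (r + 8)

/-- Adding a first coordinate. -/
def emb {r : ℕ} (a : ℤ) : (Fin r → ℤ) ↪ (Fin (r + 1) → ℤ) :=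
  ⟨fun u => vecCons a u, fun u u' h => by simpa using congrArg vecTail h⟩

lemma emb_apply {r : ℕ} (a : ℤ) (u : Fin r → ℤ) : emb a u = vecCons a u := rfl

lemma Tor.step {r : ℕ} {S : Finset (Fin r → ℤ)} {c : (Fin r → ℤ) → ℝ} (T : Tor r S c) :
    ∃ S' c', Tor (r + 1) S' c' := by
  obtain ⟨β, hβ⟩ := T.hb
  set H : (Fin r → ℤ) →₀ ℝ := Finsupp.single 0 1 - ∑ u ∈ S, ∑ u' ∈ S, (c u * c u') •
    (Finsupp.single (u + u') 1 + Finsupp.single (u - u') 1 + Finsupp.single (-u + u') 1 +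
      Finsupp.single (-u - u') 1) with hH
  have key : ∀ g : (Fin r → ℤ) → ℝ, ∑ n ∈ H.support, H n * g n = g 0 - ∑ u ∈ S, ∑ u' ∈ S,
      (c u * c u') * (g (u + u') + g (u - u') + g (-u + u') + g (-u - u')) := by
    intro g
    have h1 : ∑ n ∈ H.support, H n * g n = Finsupp.linearCombination ℝ g H := by
      rw [Finsupp.linearCombination_apply, Finsupp.sum]; rfl
    rw [h1, hH]
    simp only [map_sub, map_sum, map_smul, map_add, Finsupp.linearCombination_single, one_mul,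
      smul_eq_mul]
  have hH0 : H 0 = 1 - 2 * ∑ u ∈ S, c u ^ 2 := by
    have h1 := key fun n => if n = 0 then 1 else 0
    have h2 : ∑ n ∈ H.support, H n * (if n = 0 then 1 else 0) = H 0 := by
      simp only [mul_ite, mul_one, mul_zero, Finset.sum_ite_eq']
      split_ifs with h
      · rfl
      · exact (Finsupp.notMem_support_iff.1 h).symm
    rw [h2, if_pos rfl] at h1
    rw [h1, Finset.mul_sum]; congr 1
    refine Finset.sum_congr rfl fun u hu => ?_
    have h3 : ∀ u' ∈ S, (c u * c u') * ((if u + u' = 0 then 1 else 0) + (if u - u' = 0 then 1 else 0) +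
        (if -u + u' = 0 then 1 else 0) + (if -u - u' = 0 then (1:ℝ) else 0)) =
        if u = u' then 2 * c u ^ 2 else 0 := by
      intro u' hu'
      have h4 : u + u' ≠ 0 := fun h => by
        have := congrArg (· ⬝ᵥ β) h
        simp only [add_dotProduct, zero_dotProduct] at this
        linarith [hβ u hu, hβ u' hu']
      have h5 : -u - u' ≠ 0 := fun h => h4 (by rw [← neg_eq_zero, ← h]; abel)
      rw [if_neg h4, if_neg h5]
      by_cases h : u = u'
      · subst h; simp; ring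
      · rw [if_neg (sub_ne_zero.2 h), if_neg (fun h' => h (neg_add_eq_zero.1 h')), if_neg h]; ring
    rw [Finset.sum_congr rfl h3, Finset.sum_ite_eq, if_pos hu]
  have hdisj : Disjoint (S.map (emb 0)) (H.support.map (emb 1)) := by
    rw [Finset.disjoint_left]
    intro x hx hx'
    obtain ⟨u, _, rfl⟩ := Finset.mem_map.1 hx
    obtain ⟨u', _, h⟩ := Finset.mem_map.1 hx'
    simpa [emb_apply] using congrFun h 0
  have hmem : ∀ x ∈ (S.map (emb 0)).disjUnion (H.support.map (emb 1)) hdisj,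
      (∃ u ∈ S, x = vecCons 0 u) ∨ ∃ n ∈ H.support, x = vecCons 1 n := by
    intro x hx
    rcases Finset.mem_disjUnion.1 hx with hx | hx
    · obtain ⟨u, hu, rfl⟩ := Finset.mem_map.1 hx; exact Or.inl ⟨u, hu, rfl⟩
    · obtain ⟨u, hu, rfl⟩ := Finset.mem_map.1 hx; exact Or.inr ⟨u, hu, rfl⟩
  refine ⟨(S.map (emb 0)).disjUnion (H.support.map (emb 1)) hdisj,
    fun x => if x 0 = 0 then c (vecTail x) else H (vecTail x) / 4, ?_, ?_, ?_, ?_, ?_⟩
  · intro x hx
    rcases hmem x hx with ⟨u, hu, rfl⟩ | ⟨n, _, rfl⟩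
    · obtain ⟨e, he⟩ := T.he u hu
      exact ⟨vecCons 0 e, by simp [he]⟩
    · exact ⟨vecCons 1 0, by simp⟩
  · intro x hx
    rcases hmem x hx with ⟨u, hu, rfl⟩ | ⟨n, hn, rfl⟩
    · obtain ⟨h, hh1, hh2⟩ := T.hh u hu
      obtain ⟨K, _, hK⟩ := exists_big H.support fun n => n ⬝ᵥ h
      refine ⟨vecCons K h, by simp [hh1], fun y hy hne => ?_⟩
      rcases hmem y hy with ⟨u', hu', rfl⟩ | ⟨n, hn, rfl⟩
      · simpa using hh2 u' hu' fun h => hne (by rw [h])
      · have := abs_lt.1 (hK n hn)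
        rw [cons_dotProduct_cons]; omega
    · obtain ⟨g, hg⟩ := exists_generic (S ∪ (H.support.erase n).image fun n' => n' - n) (by
        intro u hu
        rcases Finset.mem_union.1 hu with hu | hu
        · rintro rfl; simpa using hβ 0 hu
        · obtain ⟨n', hn', rfl⟩ := Finset.mem_image.1 hu
          exact sub_ne_zero.2 (Finset.mem_erase.1 hn').1)
      refine ⟨vecCons (-(n ⬝ᵥ g)) g, by simp, fun y hy hne => ?_⟩
      rcases hmem y hy with ⟨u', hu', rfl⟩ | ⟨n', hn', rfl⟩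
      · simpa using hg u' (Finset.mem_union_left _ hu')
      · have := hg (n' - n) (Finset.mem_union_right _ (Finset.mem_image.2
          ⟨n', Finset.mem_erase.2 ⟨fun h => hne (by rw [h]), hn'⟩, rfl⟩))
        rw [sub_dotProduct] at this
        rw [cons_dotProduct_cons]; omega
  · obtain ⟨K, _, hK⟩ := exists_big H.support fun n => n ⬝ᵥ β
    refine ⟨vecCons K β, fun y hy => ?_⟩
    rcases hmem y hy with ⟨u', hu', rfl⟩ | ⟨n, hn, rfl⟩
    · simpa using hβ u' hu'
    · have := abs_lt.1 (hK n hn)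
      rw [cons_dotProduct_cons]; omega
  · intro α
    rw [Finset.sum_disjUnion, Finset.sum_map, Finset.sum_map]
    simp only [emb_apply, cons_val_zero, tail_cons, dr_cons, if_true, one_ne_zero, if_false,
      Int.cast_zero, zero_mul, zero_add, Int.cast_one, one_mul]
    have h1 := T.bd (vecTail α)
    set a := ∑ u ∈ S, 2 * c u * Real.cos (dr u (vecTail α)) with ha
    have h2 : ∑ n ∈ H.support, 2 * (H n / 4) * Real.cos (α 0 + dr n (vecTail α)) =
        (1 - a ^ 2) / 2 * Real.cos (α 0) := by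
      have h3 := key fun n => Real.cos (α 0 + dr n (vecTail α))
      have h4 : ∑ u ∈ S, ∑ u' ∈ S, (c u * c u') * (Real.cos (α 0 + dr (u + u') (vecTail α)) +
          Real.cos (α 0 + dr (u - u') (vecTail α)) + Real.cos (α 0 + dr (-u + u') (vecTail α)) +
          Real.cos (α 0 + dr (-u - u') (vecTail α))) = a ^ 2 * Real.cos (α 0) := by
        rw [sq, ha, Finset.sum_mul_sum, Finset.sum_mul]
        refine Finset.sum_congr rfl fun u _ => ?_
        rw [Finset.sum_mul]
        refine Finset.sum_congr rfl fun u' _ => ?_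
        simp only [dr_add, dr_sub, dr_neg, Real.cos_add, Real.cos_sub, Real.sin_add, Real.sin_sub,
          Real.cos_neg, Real.sin_neg]
        ring
      have h5 : dr (0 : Fin r → ℤ) (vecTail α) = 0 := by simp [dr]
      rw [h4, h5, add_zero] at h3
      have h6 : ∑ n ∈ H.support, 2 * (H n / 4) * Real.cos (α 0 + dr n (vecTail α)) =
          (∑ n ∈ H.support, H n * Real.cos (α 0 + dr n (vecTail α))) / 2 := by
        rw [Finset.sum_div]; exact Finset.sum_congr rfl fun n _ => by ring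
      rw [h6, h3]; ring
    rw [h2]
    have h7 := abs_le.1 h1
    have h8 := Real.neg_one_le_cos (α 0)
    have h9 := Real.cos_le_one (α 0)
    have h10 : 0 ≤ (1 - a ^ 2) / 2 := by nlinarith
    have h11 := mul_le_mul_of_nonneg_left h8 h10
    have h12 := mul_le_mul_of_nonneg_left h9 h10
    rw [abs_le]; constructor <;> nlinarith
  · rw [Finset.sum_disjUnion, Finset.sum_map, Finset.sum_map]
    simp only [emb_apply, cons_val_zero, tail_cons, if_true, one_ne_zero, if_false]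
    have h1 : (H 0 / 4) ^ 2 ≤ ∑ n ∈ H.support, (H n / 4) ^ 2 := by
      by_cases h : (0 : Fin r → ℤ) ∈ H.support
      · exact Finset.single_le_sum (f := fun n => (H n / 4) ^ 2) (fun _ _ => sq_nonneg _) h
      · rw [Finsupp.notMem_support_iff.1 h]
        simpa using Finset.sum_nonneg fun n _ => sq_nonneg (H n / 4)
    have h2 := T.en
    rw [← hH0] at h2
    have hr : (0:ℝ) ≤ r := Nat.cast_nonneg r
    set x : ℝ := 8 / (r + 8) with hx
    have hx1 : x ≤ 1 := by rw [hx, div_le_one (by positivity)]; linarith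
    have h3 : x - x ^ 2 / 8 ≤ 8 / ((r + 1 : ℕ) + 8) := by
      push_cast
      rw [hx, le_div_iff₀ (by positivity)]
      have : (8 / (r + 8) - (8 / (r + 8)) ^ 2 / 8) * (r + 1 + 8) = 8 - 8 / (r + 8 : ℝ) ^ 2 := by
        field_simp; ring
      rw [this]
      have : 0 ≤ 8 / (r + 8 : ℝ) ^ 2 := by positivity
      linarith
    have h4 : H 0 - H 0 ^ 2 / 8 ≤ x - x ^ 2 / 8 := by nlinarith
    linarith

lemma exists_tor (r : ℕ) : ∃ S c, Tor r S c := by
  induction r with
  | zero => exact ⟨∅, fun _ => 0, by simp, by simp, ⟨0, by simp⟩, by simp, by simp⟩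
  | succ r ih => obtain ⟨S, c, T⟩ := ih; exact T.step

/-- Final form: positive weights of total mass one half, and phases. -/
theorem torus {ε : ℝ} (hε : 0 < ε) : ∃ (r : ℕ) (ι : Type) (_ : Fintype ι) (_ : DecidableEq ι)
    (v e h : ι → Fin r → ℤ) (β : Fin r → ℤ) (w ph : ι → ℝ),
    (∀ i, v i ⬝ᵥ e i = 1) ∧ (∀ i, v i ⬝ᵥ h i = 0) ∧ (∀ i j, j ≠ i → v j ⬝ᵥ h i ≠ 0) ∧
    (∀ i, 0 < v i ⬝ᵥ β) ∧ (∀ i, 0 < w i) ∧ 2 * ∑ i, w i = 1 ∧
    ∀ α, |∑ i, 2 * √(w i) * Real.cos (2 * π * (ph i + dr (v i) α))| ≤ 1 + ε := by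
  obtain ⟨r, hr⟩ := exists_nat_ge (8 / min ε (1 / 2) * 2)
  obtain ⟨S, c, T⟩ := exists_tor r
  set δ := min ε (1 / 2) with hδ
  have hδ0 : 0 < δ := lt_min hε (by norm_num)
  have hδ1 : δ ≤ ε := min_le_left _ _
  have hδ2 : δ ≤ 1 / 2 := min_le_right _ _
  set E := 2 * ∑ u ∈ S, c u ^ 2 with hE
  have hE1 : 1 - δ / 2 ≤ E := by
    have h1 := T.en
    have h2 : 8 / (r + 8 : ℝ) ≤ δ / 2 := by
      rw [div_le_iff₀ (by positivity)]
      rw [div_mul_eq_mul_div, div_le_iff₀ hδ0] at hr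
      nlinarith
    linarith
  have hE0 : 0 < E := by linarith
  set S' := S.filter fun u => c u ≠ 0 with hS'
  have hsub : ∀ i : S', i.1 ∈ S := fun i => (Finset.mem_filter.1 i.2).1
  choose e he using fun i : S' => T.he i.1 (hsub i)
  choose h hh1 hh2 using fun i : S' => T.hh i.1 (hsub i)
  obtain ⟨β, hβ⟩ := T.hb
  refine ⟨r, S', inferInstance, inferInstance, fun i => i.1, e, h, β, fun i => c i ^ 2 / E,
    fun i => if 0 ≤ c i then 0 else 1 / 2, he, hh1,
    fun i j hij => hh2 i j (hsub j) fun h => hij (Subtype.ext h), fun i => hβ i (hsub i),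
    fun i => div_pos (pow_pos (abs_pos.2 (Finset.mem_filter.1 i.2).2) 2 |>.trans_eq (sq_abs _)) hE0,
    ?_, fun α => ?_⟩
  · rw [Finset.sum_coe_sort S' fun u => c u ^ 2 / E, ← Finset.sum_div, hS',
      Finset.sum_filter_of_ne (p := fun u => c u ≠ 0) fun u _ h h0 => h (by rw [h0]; ring),
      ← mul_div_assoc, ← hE]
    exact div_self hE0.ne'
  · have h1 := T.bd fun l => 2 * π * α l
    have hs : 0 < √E := Real.sqrt_pos.2 hE0
    have h2 : ∀ u : Fin r → ℤ, 2 * √(c u ^ 2 / E) *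
        Real.cos (2 * π * ((if 0 ≤ c u then 0 else 1 / 2) + dr u α)) =
        2 * c u * Real.cos (dr u fun l => 2 * π * α l) / √E := by
      intro u
      have h3 : dr u (fun l => 2 * π * α l) = 2 * π * dr u α := by
        unfold dr; rw [Finset.mul_sum]; exact Finset.sum_congr rfl fun l _ => by ring
      rw [h3, Real.sqrt_div (sq_nonneg _), Real.sqrt_sq_eq_abs]
      split_ifs with h
      · rw [abs_of_nonneg h, zero_add]; ring
      · have : 2 * π * (1 / 2 + dr u α) = 2 * π * dr u α + π := by ring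
        rw [abs_of_neg (not_le.1 h), this, Real.cos_add_pi]; ring
    rw [Finset.sum_coe_sort S' fun u => 2 * √(c u ^ 2 / E) *
        Real.cos (2 * π * ((if 0 ≤ c u then 0 else 1 / 2) + dr u α))]
    simp_rw [h2]
    rw [← Finset.sum_div, hS',
      Finset.sum_filter_of_ne (p := fun u => c u ≠ 0) fun u _ h h0 => h (by rw [h0]; ring),
      abs_div, abs_of_pos hs, div_le_iff₀ hs]
    have h4 : 1 - δ / 2 ≤ √E := Real.le_sqrt_of_sq_le (by nlinarith)
    nlinarith

end Vale.Agent.P110
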