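import Vale.Agent.P110.Glue

/-! Filling the uncovered cells. -/

namespace Vale.Agent.P110

open Real Finset

lemma Packed.card_le {P : Type} [Fintype P] {Q : ℕ} {s L : P → ℕ} (hP : Packed Q s L) :
    2 * ∑ a, L a ≤ Q := by
  classical
  set S := (univ : Finset P).biUnion fun a => Ico (s a) (s a + L a) with hS
  have hmem : ∀ c ∈ S, ∃ a, s a ≤ c ∧ c < s a + L a := fun c hc => by
    simpa [hS] using hc
  have h1 : S.card = ∑ a, L a := by
    rw [hS, Finset.card_biUnion]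
    · simp
    · intro a _ b _ hab
      refine Finset.disjoint_left.2 fun c hc hc' => hab ?_
      rw [Finset.mem_Ico] at hc hc'
      exact hP.t2 a b c hc.1 hc.2 hc'.1 hc'.2
  have h2 : (S.image fun c => Q - 1 - c).card = S.card := by
    refine Finset.card_image_of_injOn fun c hc c' hc' h => ?_
    obtain ⟨a, ha⟩ := hmem c hc
    obtain ⟨a', ha'⟩ := hmem c' hc'
    have := hP.le a; have := hP.le a'
    omega
  have h3 : Disjoint S (S.image fun c => Q - 1 - c) := by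
    refine Finset.disjoint_left.2 fun c hc hc' => ?_
    obtain ⟨c', hc'', rfl⟩ := Finset.mem_image.1 hc'
    obtain ⟨a, ha⟩ := hmem _ hc
    obtain ⟨a', ha'⟩ := hmem c' hc''
    have := hP.le a'
    exact hP.t3 a a' _ c' ha.1 ha.2 ha'.1 ha'.2 (by omega)
  have h4 : S ∪ (S.image fun c => Q - 1 - c) ⊆ range Q := by
    intro c hc
    rcases Finset.mem_union.1 hc with hc | hc
    · obtain ⟨a, ha⟩ := hmem c hc
      have := hP.le a
      exact Finset.mem_range.2 (by omega)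
    · obtain ⟨c', hc'', rfl⟩ := Finset.mem_image.1 hc
      obtain ⟨a, ha⟩ := hmem c' hc''
      have := hP.le a
      exact Finset.mem_range.2 (by omega)
  have h5 := Finset.card_le_card h4
  rw [Finset.card_union_of_disjoint h3, h2, h1, Finset.card_range] at h5
  omega

theorem fill {P : Type} [Fintype P] {Q : ℕ} (hQ2 : 2 ∣ Q) {s L : P → ℕ} (hP : Packed Q s L) :
    ∃ (G : ℕ) (gp : Fin G → ℕ), Packed Q (Sum.elim s gp) (Sum.elim L fun _ => 1) ∧
      ∀ c < Q, ∃ a, ((Sum.elim s gp) a ≤ c ∧ c < (Sum.elim s gp) a + (Sum.elim L fun _ => 1) a) ∨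
        ((Sum.elim s gp) a ≤ Q - 1 - c ∧
          Q - 1 - c < (Sum.elim s gp) a + (Sum.elim L fun _ => 1) a) := by
  classical
  set S := (range (Q / 2)).filter fun c => ∀ a, ¬(s a ≤ c ∧ c < s a + L a) ∧
    ¬(s a ≤ Q - 1 - c ∧ Q - 1 - c < s a + L a) with hS
  have hmem : ∀ j : Fin S.card, (S.equivFin.symm j : ℕ) < Q / 2 ∧ ∀ a,
      ¬(s a ≤ S.equivFin.symm j ∧ S.equivFin.symm j < s a + L a) ∧
      ¬(s a ≤ Q - 1 - S.equivFin.symm j ∧ Q - 1 - S.equivFin.symm j < s a + L a) := fun j => by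
    have := Finset.mem_filter.1 (S.equivFin.symm j).2
    exact ⟨Finset.mem_range.1 this.1, this.2⟩
  refine ⟨S.card, fun j => S.equivFin.symm j, ⟨?_, ?_, ?_, ?_⟩, fun c hc => ?_⟩
  · rintro (a | j)
    · exact hP.Lpos a
    · exact one_pos
  · rintro (a | j)
    · exact hP.le a
    · have := (hmem j).1
      simp only [Sum.elim_inr]; omega
  · rintro (a | j) (a' | j') c h1 h2 h3 h4 <;> simp only [Sum.elim_inl, Sum.elim_inr] at h1 h2 h3 h4
    · rw [hP.t2 a a' c h1 h2 h3 h4]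
    · exact absurd ⟨by omega, by omega⟩ ((hmem j').2 a).1
    · exact absurd ⟨by omega, by omega⟩ ((hmem j).2 a').1
    · rw [S.equivFin.symm.injective (Subtype.ext (by omega : (S.equivFin.symm j : ℕ) = S.equivFin.symm j'))]
  · rintro (a | j) (a' | j') c c' h1 h2 h3 h4 <;>
      simp only [Sum.elim_inl, Sum.elim_inr] at h1 h2 h3 h4
    · exact hP.t3 a a' c c' h1 h2 h3 h4
    · intro h; exact absurd ⟨by omega, by omega⟩ ((hmem j').2 a).2
    · intro h; exact absurd ⟨by omega, by omega⟩ ((hmem j).2 a').2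
    · have := (hmem j).1; have := (hmem j').1; omega
  · by_cases h : ∃ a, (s a ≤ c ∧ c < s a + L a) ∨ (s a ≤ Q - 1 - c ∧ Q - 1 - c < s a + L a)
    · obtain ⟨a, ha⟩ := h; exact ⟨Sum.inl a, ha⟩
    · push Not at h
      by_cases hc2 : c < Q / 2
      · have hcS : c ∈ S := Finset.mem_filter.2 ⟨Finset.mem_range.2 hc2, fun a => by
          have := h a; omega⟩
        exact ⟨Sum.inr (S.equivFin ⟨c, hcS⟩), Or.inl (by simp)⟩
      · have hcS : Q - 1 - c ∈ S := Finset.mem_filter.2 ⟨Finset.mem_range.2 (by omega), fun a => by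
          have := h a; omega⟩
        exact ⟨Sum.inr (S.equivFin ⟨_, hcS⟩), Or.inr (by simp)⟩

lemma segBound_fill (Q G : ℕ) (gp : Fin G → ℕ) :
    SegBound Q (fun j : Fin G => (j : ℕ)) gp (fun _ => 1) (fun _ => 0) 2 := by
  intro t k γ
  refine (Finset.abs_sum_le_sum_abs _ _).trans ((Finset.sum_le_sum (g := fun _ => (2:ℝ))
    fun j _ => ?_).trans ?_)
  · rw [abs_mul, abs_mul, abs_two, Nat.cast_one, Real.sqrt_one, abs_one, one_mul]
    linarith [Real.abs_cos_le_one (2 * π * (0 - k * gp j / Q + 1 * γ))]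
  · rw [Finset.sum_const, nsmul_eq_mul]
    have : (univ.filter fun j : Fin G => (j : ℕ) = t).card ≤ 1 :=
      Finset.card_le_one.2 fun a ha b hb => Fin.ext
        ((Finset.mem_filter.1 ha).2.trans (Finset.mem_filter.1 hb).2.symm)
    have h2 : ((univ.filter fun j : Fin G => (j : ℕ) = t).card : ℝ) ≤ 1 := by exact_mod_cast this
    linarith

lemma family_bound {P : Type} [Fintype P] {Q : ℕ} {seg s L : P → ℕ} {φ : P → ℝ} {C : ℝ}
    (h : SegBound Q seg s L φ C) (amp γ : ℝ → ℝ) {A : ℝ} (h0 : ∀ x, 0 ≤ amp x) (h1 : ∀ x, amp x ≤ A)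
    (h2 : ∀ x, amp x ≠ 0 → 0 < x ∧ x < 1) (X : ℝ) (k : ℤ) :
    |∑ a, amp (X - seg a) * (√(L a) * (2 * Real.cos (2 * π *
      (φ a - k * s a / Q + L a * γ (X - seg a)))))| ≤ A * C := by
  rw [← Finset.sum_filter_of_ne (p := fun a => seg a = ⌊X⌋₊) fun a _ ha => by
    obtain ⟨h3, h4⟩ := h2 _ (left_ne_zero_of_mul ha)
    have : (0:ℝ) ≤ seg a := by positivity
    exact ((Nat.floor_eq_iff (by linarith)).2 ⟨by linarith, by linarith⟩).symm]
  rw [Finset.sum_congr rfl (g := fun a => amp (X - ⌊X⌋₊) * (√(L a) * (2 * Real.cos (2 * π *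
      (φ a - k * s a / Q + L a * γ (X - ⌊X⌋₊)))))) fun a ha => by rw [(Finset.mem_filter.1 ha).2],
    ← Finset.mul_sum, abs_mul, abs_of_nonneg (h0 _)]
  exact mul_le_mul (h1 _) (h _ _ _) (abs_nonneg _) ((h0 0).trans (h1 0))

lemma Bump.mono {b B : ℝ → ℝ} {ℓ Λ Am Λ' Am' : ℝ} (h : Bump b B ℓ Λ Am) (h1 : Λ ≤ Λ')
    (h2 : Am ≤ Am') : Bump b B ℓ Λ' Am' :=
  ⟨h.hB, fun u v => (h.lip u v).trans (mul_le_mul_of_nonneg_right h1 (abs_nonneg _)), h.nonneg,
    fun u => (h.le u).trans h2, h.bout, h.Bl, h.Br⟩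

end Vale.Agent.P110
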