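import Vale.Agent.P110.Fill

/-! A unimodular function with nearly flat real Fourier coefficients. -/

namespace Vale.Agent.P110

open Real Finset

lemma term_est {ζ : ℝ} {Y : ℝ → ℝ} {ϑ amp y N l δ c ph E x : ℝ} {I : ℂ} (hN : 0 < N) (hl : 0 < l)
    (hδ : 0 < δ) (h1 : ‖I - ee ph * l * JJ Y (δ * N * l) x‖ ≤ E)
    (h2 : ‖(√(δ * N * l) : ℂ) * JJ Y (δ * N * l) x - amp * ee (ϑ + δ * N * l * y)‖ ≤ ζ) :
    |√N * (2 * (ee c * I).re) - √(l / δ) * amp * (2 * Real.cos (2 * π * (c + ph + ϑ + δ * N * l * y)))|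
      ≤ 2 * (√N * E + √(l / δ) * ζ) := by
  have e1 : √N * l = √(l / δ) * √(δ * N * l) := by
    rw [← Real.sqrt_mul (by positivity), ← Real.sqrt_sq hl.le, ← Real.sqrt_mul hN.le, Real.sqrt_sq hl.le]
    congr 1; field_simp
  have e1' : (√N : ℂ) * l = √(l / δ) * √(δ * N * l) := by exact_mod_cast e1
  have e2 : √N * (2 * (ee c * I).re) -
      √(l / δ) * amp * (2 * Real.cos (2 * π * (c + ph + ϑ + δ * N * l * y))) =
      2 * (ee c * ((√N : ℝ) * (I - ee ph * l * JJ Y (δ * N * l) x) + ee ph * (√(l / δ) : ℝ) *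
        ((√(δ * N * l) : ℂ) * JJ Y (δ * N * l) x - amp * ee (ϑ + δ * N * l * y)))).re := by
    have e3 : ee c * ((√N : ℝ) * (I - ee ph * l * JJ Y (δ * N * l) x) + ee ph * (√(l / δ) : ℝ) *
        ((√(δ * N * l) : ℂ) * JJ Y (δ * N * l) x - amp * ee (ϑ + δ * N * l * y))) =
        (√N : ℝ) * (ee c * I) - ((√(l / δ) * amp : ℝ) : ℂ) * ee (c + ph + ϑ + δ * N * l * y) := by
      rw [add_assoc (c + ph), ee_add (c + ph), ee_add c]; push_cast
      linear_combination (-(ee c * ee ph * JJ Y (δ * N * l) x)) * e1'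
    rw [e3, Complex.sub_re, Complex.re_ofReal_mul, Complex.re_ofReal_mul, ee_re]; ring
  rw [e2, abs_mul, abs_two]
  refine mul_le_mul_of_nonneg_left ((Complex.abs_re_le_norm _).trans ?_) (by norm_num)
  rw [norm_mul, norm_ee, one_mul]
  refine (norm_add_le _ _).trans (add_le_add ?_ ?_)
  · rw [norm_mul, Complex.norm_real, Real.norm_eq_abs, abs_of_nonneg (Real.sqrt_nonneg _)]
    exact mul_le_mul_of_nonneg_left h1 (Real.sqrt_nonneg _)
  · rw [norm_mul, norm_mul, norm_ee, one_mul, Complex.norm_real, Real.norm_eq_abs,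
      abs_of_nonneg (Real.sqrt_nonneg _)]
    exact mul_le_mul_of_nonneg_left h2 (Real.sqrt_nonneg _)

set_option maxHeartbeats 1000000 in
theorem coef {P : Type} [Fintype P] {Q : ℕ} (hQ : 0 < Q) {s L : P → ℕ} (hP : Packed Q s L)
    (t4 : ∀ c < Q, ∃ a, (s a ≤ c ∧ c < s a + L a) ∨ (s a ≤ Q - 1 - c ∧ Q - 1 - c < s a + L a))
    (Tn seg : P → ℕ) (TM : ℕ) (hseg : ∀ a, seg a < Tn a) (hTM : ∀ a, Tn a ≤ TM) (φ : P → ℝ)
    {η ρ : ℝ} (hη : 0 < η) (hη1 : η ≤ 1 / 6) (hρ : 0 < ρ) (hρ1 : ρ ≤ 1) :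
    ∃ (C N0 τ : ℝ) (amp y : ℝ → ℝ), 0 ≤ C ∧ 0 < τ ∧ τ ≤ 1 / 4 ∧ (∀ x, 0 ≤ amp x) ∧
      (∀ x, amp x ≤ 1 + η) ∧ (∀ x, amp x ≠ 0 → 0 < x ∧ x < 1) ∧ ∀ N : ℝ, N0 ≤ N → ∀ k0 : ℕ,
      ∃ ψ f : ℝ → ℝ, (∀ θ, HasDerivAt ψ (f θ) θ) ∧ (∀ x y, |f x - f y| ≤ C * N * |x - y|) ∧
        (∀ θ, k0 ≤ f θ ∧ f θ ≤ k0 + (1 - 2 * η) * N) ∧ Function.Periodic (fun θ => ee (ψ θ)) 1 ∧
        ∀ k : ℕ, ∃ r : ℝ, fc (fun θ => ee (ψ θ)) k = r ∧
          |√N * r - ∑ a, √((1 - 2 * τ) * Tn a / (Q * (1 - 3 * η))) *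
            (amp ((k - k0 - η * N) / ((1 - 3 * η) / Tn a * N) - seg a) * (√(L a) *
              (2 * Real.cos (2 * π * (φ a - ((k : ℤ) : ℝ) * s a / Q + L a * (-(k - k0) * τ / Q +
                (1 - 3 * η) / Tn a * N * (1 - 2 * τ) / Q *
                  y ((k - k0 - η * N) / ((1 - 3 * η) / Tn a * N) - seg a)))))))| ≤ ρ := by
  have hQ' : (0:ℝ) < Q := by exact_mod_cast hQ
  have hQ1 : (1:ℝ) ≤ Q := by exact_mod_cast hQ
  obtain ⟨n, hn⟩ : ∃ n : ℝ, n = Fintype.card P + 1 := ⟨_, rfl⟩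
  have hn0 : 1 ≤ n := by rw [hn]; linarith [(Nat.cast_nonneg (Fintype.card P) : (0:ℝ) ≤ _)]
  obtain ⟨TT, hTT⟩ : ∃ TT : ℝ, TT = 2 * (TM + 1) := ⟨_, rfl⟩
  have hTT1 : 1 ≤ TT := by rw [hTT]; linarith [(Nat.cast_nonneg TM : (0:ℝ) ≤ _)]
  obtain ⟨u, hu⟩ : ∃ u : ℝ, u = ρ / (6 * n) := ⟨_, rfl⟩
  have hu0 : 0 < u := by rw [hu]; positivity
  have hu1 : u ≤ 1 := by rw [hu, div_le_one (by positivity)]; linarith
  obtain ⟨τ, hτ⟩ : ∃ τ : ℝ, τ = η * (u / 6) ^ 2 := ⟨_, rfl⟩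
  have hτ0 : 0 < τ := by rw [hτ]; positivity
  have hτ1 : τ ≤ 1 / 4 := by rw [hτ]; nlinarith
  have hζ0 : 0 < u / TT := by positivity
  have hζ1 : u / TT ≤ 1 := by rw [div_le_one (by positivity)]; linarith
  obtain ⟨Y, Z, H, ϑ, l0, S⟩ := exists_swp hη hζ0
  choose amp y ha0 ha1 ha2 ha3 using S.main
  have hH := S.Hpos
  have hl0 := S.l0pos
  refine ⟨2 * Fintype.card P * (H * (Q * (4 / τ + 2))),
    (4 / (η * u)) ^ 2 + (4 + 2 * l0) * Q / (η * τ) + 2 * l0 * Q * TT, τ, amp, y, by positivity, hτ0,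
    hτ1, ha0, ha1, ha2, fun N hN k0 => ?_⟩
  have p1 : 0 < (4 / (η * u)) ^ 2 := by positivity
  have p2 : 0 < (4 + 2 * l0) * Q / (η * τ) := by positivity
  have p3 : 0 < 2 * l0 * Q * TT := by positivity
  have hN0 : 0 < N := by linarith
  have hN1 : 4 / (η * u) ≤ √N := Real.le_sqrt_of_sq_le (by linarith)
  have hN2 : (4 + 2 * l0) ≤ η * N * (τ * (1 / Q)) := by
    have : (4 + 2 * l0) * Q / (η * τ) ≤ N := by linarith
    rw [div_le_iff₀ (by positivity)] at this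
    rw [← mul_assoc, mul_one_div, le_div_iff₀ hQ']; linarith
  have hN3 : l0 ≤ 1 / TT * N * (1 / 2 * (1 / Q)) := by
    have h1 : 2 * l0 * Q * TT ≤ N := by linarith
    have : 1 / TT * N * (1 / 2 * (1 / Q)) = N / (2 * Q * TT) := by field_simp
    rw [this, le_div_iff₀ (by positivity)]; linarith
  have hT0 : ∀ a, (0:ℝ) < Tn a := fun a => by exact_mod_cast (by have := hseg a; omega : 0 < Tn a)
  obtain ⟨δ, hδ⟩ : ∃ δ : P → ℝ, ∀ a, δ a = (1 - 3 * η) / Tn a := ⟨_, fun _ => rfl⟩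
  have hδ1 : ∀ a, 1 / TT ≤ δ a := fun a => by
    have h1 : (Tn a : ℝ) ≤ TM := by exact_mod_cast hTM a
    rw [hδ, div_le_div_iff₀ (by positivity) (hT0 a), hTT]; nlinarith
  have hδ0 : ∀ a, 0 < δ a := fun a => lt_of_lt_of_le (by positivity) (hδ1 a)
  have hδ2 : ∀ a, (seg a + 1) * δ a ≤ 1 - 3 * η := fun a => by
    have h1 : (seg a + 1 : ℝ) ≤ Tn a := by exact_mod_cast hseg a
    calc _ ≤ Tn a * δ a := mul_le_mul_of_nonneg_right h1 (hδ0 a).le
      _ = _ := by rw [hδ]; have := hT0 a; field_simp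
  obtain ⟨ℓ, hℓ⟩ : ∃ ℓ : P → ℝ, ∀ a, ℓ a = L a / Q := ⟨_, fun _ => rfl⟩
  have hℓ1 : ∀ a, 1 / Q ≤ ℓ a := fun a => by
    rw [hℓ]; exact div_le_div_of_nonneg_right (by exact_mod_cast hP.Lpos a) hQ'.le
  have hℓ0 : ∀ a, 0 < ℓ a := fun a => lt_of_lt_of_le (by positivity) (hℓ1 a)
  have hℓ2 : ∀ a, ℓ a ≤ 1 := fun a => by
    rw [hℓ, div_le_one hQ']; exact_mod_cast (by have := hP.le a; omega : L a ≤ Q)
  have hA1 : ∀ a, η * N ≤ η * N + seg a * δ a * N := fun a => by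
    have := hδ0 a
    have : 0 ≤ seg a * δ a * N := by positivity
    linarith
  have hA1g : ∀ a, 4 + 2 * l0 ≤ (η * N + seg a * δ a * N) * (τ * ℓ a) := fun a =>
    hN2.trans (mul_le_mul (hA1 a) (mul_le_mul_of_nonneg_left (hℓ1 a) hτ0.le) (by positivity)
      (le_trans (by positivity) (hA1 a)))
  have hAm : ∀ a, η * N + seg a * δ a * N + δ a * N ≤ (1 - 2 * η) * N := fun a => by
    have := mul_le_mul_of_nonneg_right (hδ2 a) hN0.le
    linarith
  choose b B hbB hI using fun a => S.piece (A1 := η * N + seg a * δ a * N) (A2 := δ a * N)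
    (g := τ * ℓ a) (l := (1 - 2 * τ) * ℓ a) (lt_of_lt_of_le (by positivity) (hA1 a))
    (mul_pos (hδ0 a) hN0) (mul_pos hτ0 (hℓ0 a)) (mul_pos (by linarith) (hℓ0 a))
    (by linarith [hA1g a]) (by linarith [hA1g a]) (φ a - ϑ - k0 * (s a / Q))
  have hlen : ∀ a, 2 * (τ * ℓ a) + (1 - 2 * τ) * ℓ a = L a / Q := fun a => by rw [← hℓ]; ring
  simp only [hlen] at hbB hI
  obtain ⟨ψ, f, h1, h2, h3, h4, h5⟩ := glue hQ hP t4 b B (H * (Q * (4 / τ + 2)) * N) ((1 - 2 * η) * N)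
    (by positivity) (fun a => (hbB a).mono (by
      have hl := hℓ0 a
      have hd := hδ0 a
      have q0 : 1 ≤ Q * ℓ a := by have := hℓ1 a; rwa [div_le_iff₀ hQ', mul_comm] at this
      have q1 : η * N + seg a * δ a * N + δ a * N ≤ N := by nlinarith [hAm a]
      have q2 : 0 < δ a * N := by positivity
      have q3 : ∀ x : ℝ, x ≤ N → 2 * x / (τ * ℓ a) ≤ Q * (2 / τ) * N := fun x hx => by
        rw [div_le_iff₀ (by positivity)]
        have : Q * (2 / τ) * N * (τ * ℓ a) = 2 * N * (Q * ℓ a) := by field_simp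
        rw [this]; nlinarith
      have q4 : δ a * N / ((1 - 2 * τ) * ℓ a) ≤ Q * 2 * N := by
        rw [div_le_iff₀ (mul_pos (by linarith) hl)]
        have q5 : δ a * N ≤ N := by linarith [hA1 a, mul_pos hη hN0]
        have q6 : 1 / 2 * 1 ≤ (1 - 2 * τ) * (Q * ℓ a) :=
          mul_le_mul (by linarith) q0 zero_le_one (by linarith)
        nlinarith
      have q7 := q3 _ q1
      have q8 := q3 (η * N + seg a * δ a * N) (by linarith)
      rw [mul_assoc H]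
      refine mul_le_mul_of_nonneg_left ?_ hH.le
      have : Q * (4 / τ + 2) * N = Q * (2 / τ) * N + Q * 2 * N + Q * (2 / τ) * N := by ring
      linarith) (hAm a)) k0
  refine ⟨ψ, f, h1, fun x y => (h2 x y).trans (le_of_eq (by ring)), h3, h4, fun k => ⟨_, h5 k, ?_⟩⟩
  rw [Complex.re_sum, Finset.mul_sum, Finset.mul_sum, ← Finset.sum_sub_distrib]
  refine (Finset.abs_sum_le_sum_abs _ _).trans ((Finset.sum_le_sum (g := fun _ => 2 * (3 * u))
    fun a _ => ?_).trans ?_)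
  swap
  · rw [Finset.sum_const, Finset.card_univ, nsmul_eq_mul]
    have : n * (6 * u) = ρ := by rw [hu]; field_simp
    nlinarith
  have hd := hδ0 a
  have hl := hℓ0 a
  have hx : (k - k0 - (η * N + seg a * δ a * N)) / (δ a * N) =
      (k - k0 - η * N) / (δ a * N) - seg a := by field_simp; ring
  have h6 := hI a (k - k0)
  rw [hx] at h6
  have h7 := term_est (c := -((k - k0) * (s a / Q))) hN0 (mul_pos (by linarith) hl) hd h6
    (ha3 ((k - k0 - η * N) / (δ a * N) - seg a) _ (hN3.trans (mul_le_mul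
      (mul_le_mul_of_nonneg_right (hδ1 a) hN0.le) (mul_le_mul (by linarith) (hℓ1 a) (by positivity)
        (by linarith)) (by positivity) (by positivity))))
  rw [← hδ a]
  have e1 : √((1 - 2 * τ) * ℓ a / δ a) = √((1 - 2 * τ) * Tn a / (Q * (1 - 3 * η))) * √(L a) := by
    rw [← Real.sqrt_mul (div_nonneg (mul_nonneg (by linarith) (hT0 a).le)
      (mul_nonneg hQ'.le (by linarith)))]
    congr 1; rw [hℓ, hδ]
    have := hT0 a
    have : 1 - 3 * η ≠ 0 := by linarith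
    field_simp
  have e2 : -((k - k0) * (s a / Q)) + (φ a - ϑ - k0 * (s a / Q) - (k - k0) * (τ * ℓ a)) + ϑ +
      δ a * N * ((1 - 2 * τ) * ℓ a) * y ((k - k0 - η * N) / (δ a * N) - seg a) =
      φ a - ((k : ℤ) : ℝ) * s a / Q + L a * (-(k - k0) * τ / Q + δ a * N * (1 - 2 * τ) / Q *
        y ((k - k0 - η * N) / (δ a * N) - seg a)) := by
    rw [hℓ]; push_cast; ring
  rw [e2] at h7
  have b1 : √N * (4 / (η * N + seg a * δ a * N)) ≤ u := by
    have q1 : 4 / (η * N + seg a * δ a * N) ≤ 4 / (η * N) :=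
      div_le_div_of_nonneg_left (by norm_num) (by positivity) (hA1 a)
    have q2 : 0 < √N := Real.sqrt_pos.2 hN0
    refine (mul_le_mul_of_nonneg_left q1 q2.le).trans ?_
    rw [div_le_iff₀ (by positivity)] at hN1
    rw [← mul_div_assoc, div_le_iff₀ (by positivity)]
    have q3 := mul_le_mul_of_nonneg_left hN1 q2.le
    have q4 : √N * √N = N := Real.mul_self_sqrt hN0.le
    have : √N * (√N * (η * u)) = u * (η * N) := by rw [← mul_assoc, q4]; ring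
    linarith
  have b2 : √N * (2 * ((1 + η + u / TT) * √(τ * ℓ a / (η * N + seg a * δ a * N)))) ≤ u := by
    have q1 : √N * √(τ * ℓ a / (η * N + seg a * δ a * N)) ≤ u / 6 := by
      rw [← Real.sqrt_mul hN0.le, Real.sqrt_le_left (by positivity)]
      have q2 : τ * ℓ a / (η * N + seg a * δ a * N) ≤ τ / (η * N) :=
        div_le_div₀ hτ0.le (by nlinarith [hℓ2 a]) (by positivity) (hA1 a)
      refine (mul_le_mul_of_nonneg_left q2 hN0.le).trans (le_of_eq ?_)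
      rw [hτ]; field_simp
    have q3 := mul_le_mul (by linarith : 1 + η + u / TT ≤ 3) q1 (by positivity) (by norm_num)
    linarith
  have b3 : √((1 - 2 * τ) * ℓ a / δ a) * (u / TT) ≤ u := by
    have q1 : √((1 - 2 * τ) * ℓ a / δ a) ≤ TT := by
      rw [Real.sqrt_le_left (by positivity), div_le_iff₀ hd]
      have q2 := hδ1 a
      rw [div_le_iff₀ (by positivity)] at q2
      have q3 : (1 - 2 * τ) * ℓ a ≤ 1 * 1 := mul_le_mul (by linarith) (hℓ2 a) hl.le zero_le_one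
      nlinarith
    refine (mul_le_mul_of_nonneg_right q1 hζ0.le).trans (le_of_eq (by field_simp))
  refine le_trans (le_of_eq ?_) (h7.trans (by linarith))
  rw [e1]; congr 1; ring

end Vale.Agent.P110
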