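import Vale.Agent.P110.Basic

/-! Gauss sums and arithmetic choices. -/

namespace Vale.Agent.P110

open Finset Matrix

lemma stdAddChar_int (m : ℕ) [NeZero m] (n : ℤ) :
    ZMod.stdAddChar (N := m) (n : ZMod m) = ee (n / m) := by
  rw [ZMod.stdAddChar_coe]; unfold ee; congr 1; push_cast; ring

lemma sum_range_zmod (m : ℕ) [NeZero m] (f : ZMod m → ℂ) :
    ∑ j ∈ range m, f (j : ZMod m) = ∑ x : ZMod m, f x := by
  refine Finset.sum_nbij' (fun j => (j : ZMod m)) (fun x => x.val) (by simp)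
    (fun x _ => by simpa using ZMod.val_lt x) (fun j hj => ?_) (fun x _ => by simp) (by simp)
  exact ZMod.val_cast_of_lt (by simpa using hj)

lemma gauss (m : ℕ) (hm : 0 < m) (b j0 : ℤ) (hb : IsCoprime (m : ℤ) (4 * b)) :
    ∃ φ : ℕ → ℝ, ∀ k : ℤ, ∑ j ∈ range m, ee (φ j - k * j / m) =
      (√m : ℝ) * ee (b * k ^ 2 / m - k * j0 / m) := by
  have : NeZero m := ⟨hm.ne'⟩
  obtain ⟨c, hc⟩ := ((ZMod.coe_int_isUnit_iff_isCoprime _ _).2 hb).exists_left_inv
  push_cast at hc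
  set ψ := ZMod.stdAddChar (N := m) with hψ
  set g : ℂ := ∑ x : ZMod m, ψ (-c * x ^ 2) with hg
  have hgn : ‖g‖ = √m := by
    have h1 : g * (starRingEnd ℂ) g = m := by
      rw [hg, map_sum, Finset.sum_mul_sum, Finset.sum_comm]
      have h2 : ∀ y : ZMod m, ∑ x : ZMod m, ψ (-c * x ^ 2) * (starRingEnd ℂ) (ψ (-c * y ^ 2)) =
          ∑ h : ZMod m, ψ (-c * h ^ 2) * ψ (y * (-2 * c * h)) := by
        intro y
        rw [← Equiv.sum_comp (Equiv.addRight y)]
        refine Finset.sum_congr rfl fun h _ => ?_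
        rw [← AddChar.map_neg_eq_conj, ← AddChar.map_add_eq_mul, ← AddChar.map_add_eq_mul]
        congr 1; simp only [Equiv.coe_addRight]; ring
      simp_rw [h2]
      rw [Finset.sum_comm]
      have hprim : ψ.IsPrimitive := ZMod.isPrimitive_stdAddChar m
      simp_rw [← Finset.mul_sum, AddChar.sum_mulShift _ hprim]
      rw [Finset.sum_eq_single 0]
      · simp
      · intro h _ hh
        rw [if_neg]
        · simp
        · intro h0
          apply hh
          have : h = -2 * b * (-2 * c * h) := by linear_combination (-h) * hc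
          rw [this, h0, mul_zero]
      · simp
    rw [Complex.mul_conj, Complex.normSq_eq_norm_sq] at h1
    have h3 : ‖g‖ ^ 2 = m := by exact_mod_cast h1
    rw [← h3, Real.sqrt_sq (norm_nonneg _)]
  obtain ⟨ϑ, hϑ⟩ := exists_ee g
  refine ⟨fun j => -ϑ + ((-c * ((j : ZMod m) - j0) ^ 2).val : ℤ) / m, fun k => ?_⟩
  have h1 : ∀ j : ℕ, ee (-ϑ + ((-c * ((j : ZMod m) - j0) ^ 2).val : ℤ) / m - k * j / m) =
      ee (-ϑ) * ψ (-c * ((j : ZMod m) - j0) ^ 2 - k * (j : ZMod m)) := by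
    intro j
    have h2 := stdAddChar_int m (((-c * ((j : ZMod m) - j0) ^ 2).val : ℤ) - k * j)
    push_cast at h2
    rw [ZMod.natCast_zmod_val] at h2
    rw [hψ, h2, ← ee_add]; congr 1; push_cast; ring
  simp_rw [h1]
  rw [← Finset.mul_sum, sum_range_zmod m fun x => ψ (-c * (x - j0) ^ 2 - k * x),
    ← Equiv.sum_comp (Equiv.addRight ((j0 : ZMod m) - 2 * b * k))]
  have h3 : ∀ y : ZMod m, ψ (-c * ((Equiv.addRight ((j0 : ZMod m) - 2 * b * k)) y - j0) ^ 2 -
      k * (Equiv.addRight ((j0 : ZMod m) - 2 * b * k)) y) =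
      ψ (-c * y ^ 2) * ψ ((b * k ^ 2 - k * j0 : ℤ) : ZMod m) := by
    intro y
    rw [← AddChar.map_add_eq_mul]; congr 1
    simp only [Equiv.coe_addRight]; push_cast
    linear_combination (y * k - b * k ^ 2) * hc
  simp_rw [h3]
  rw [← Finset.sum_mul, ← hg, hϑ, hgn, hψ, stdAddChar_int]
  have h4 := ee_mul_neg ϑ
  have h5 : (((b * k ^ 2 - k * j0 : ℤ) : ℝ) / m) = b * k ^ 2 / m - k * j0 / m := by push_cast; ring
  rw [h5]
  linear_combination (√m : ℝ) * ee (b * k ^ 2 / m - k * j0 / m) * h4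

lemma crt_vec {r : ℕ} {ι : Type*} [Fintype ι] (p : ι → ℤ)
    (hp : ∀ i j, i ≠ j → IsCoprime (p i) (p j)) (g : ι → Fin r → ℤ) :
    ∃ a : Fin r → ℤ, ∀ i (u : Fin r → ℤ), p i ∣ u ⬝ᵥ a - u ⬝ᵥ g i := by
  have h : ∀ l, ∃ a : ℤ, ∀ i, p i ∣ a - g i l := fun l => by
    obtain ⟨a, ha⟩ := Ideal.exists_forall_sub_mem_ideal (I := fun i => Ideal.span {p i})
      (fun i j hij => (Ideal.isCoprime_span_singleton_iff _ _).2 (hp i j hij)) fun i => g i l
    exact ⟨a, fun i => Ideal.mem_span_singleton.1 (ha i)⟩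
  choose a ha using h
  refine ⟨a, fun i u => ?_⟩
  unfold dotProduct
  rw [← Finset.sum_sub_distrib]
  exact Finset.dvd_sum fun l _ => by rw [← mul_sub]; exact (ha l i).mul_left _

lemma arith {ι : Type*} [Fintype ι] [Nonempty ι] (x : ι → ℝ) (hx : ∀ i, 0 < x i) (L : ι → ℕ)
    (hL : ∀ i, 0 < L i) (N0 : ℕ) {ε T1 : ℝ} (hε : 0 < ε) (hT : 0 < T1) :
    ∃ (R : ℕ) (D p : ι → ℕ), 1 / ε ≤ T1 * R ∧ (∀ i, R * x i ≤ D i) ∧ (∀ i, L i * D i ≤ p i) ∧
      (∀ i, 0 < p i) ∧ (∀ i, (p i : ℝ) ≤ (1 + ε) * (L i * (R * x i))) ∧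
      (∀ i, ∀ d : ℤ, d ≠ 0 → d.natAbs ≤ N0 → IsCoprime (p i : ℤ) d) ∧
      ∀ i j, i ≠ j → IsCoprime (p i : ℤ) (p j) := by
  obtain ⟨K, hK⟩ := exists_nat_ge (∑ i, 2 / (ε * x i) + 1 / (ε * T1))
  have hs0 : ∀ i, 0 ≤ 2 / (ε * x i) := fun i => by have := hx i; positivity
  have hK1 : ∀ i, 2 ≤ ε * (K * x i) := fun i => by
    have h1 := Finset.single_le_sum (f := fun i => 2 / (ε * x i)) (fun i _ => hs0 i) (Finset.mem_univ i)
    have h2 : 0 ≤ 1 / (ε * T1) := by positivity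
    have h3 : 2 / (ε * x i) ≤ K := by linarith
    have := hx i
    rw [div_le_iff₀ (by positivity)] at h3; linarith
  have hK2 : 1 / ε ≤ T1 * K := by
    have h1 : 0 ≤ ∑ i, 2 / (ε * x i) := Finset.sum_nonneg fun i _ => hs0 i
    have h3 : 1 / (ε * T1) ≤ K := by linarith
    rw [div_le_iff₀ (by positivity)] at h3
    rw [div_le_iff₀ hε]; linarith
  set m := Fintype.card ι with hm
  have hm0 : 0 < m := Fintype.card_pos
  set d : ι → ℕ := fun i => ⌈K * x i⌉₊ with hd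
  set ix : ι → ℕ := fun i => Fintype.equivFin ι i with hix
  have hix1 : ∀ i, ix i < m := fun i => (Fintype.equivFin ι i).2
  set c : ι → ℕ := fun i => m * (L i * d i) + ix i with hc
  set X := (N0 + ∑ i, c i).factorial with hX
  have hX0 : 0 < X := Nat.factorial_pos _
  have hcop : ∀ i, ∀ e : ℤ, e ≠ 0 → e.natAbs ≤ N0 + ∑ i, c i → IsCoprime ((X * c i + 1 : ℕ) : ℤ) e := by
    intro i e he0 he
    have h1 : IsCoprime ((X * c i + 1 : ℕ) : ℤ) X := ⟨1, -(c i), by push_cast; ring⟩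
    exact h1.of_isCoprime_of_dvd_right (Int.natAbs_dvd.1 (Int.natCast_dvd_natCast.2
      (Nat.dvd_factorial (Int.natAbs_pos.2 he0) he)))
  refine ⟨X * m * K, fun i => X * m * d i, fun i => X * c i + 1, ?_, fun i => ?_, fun i => ?_,
    fun i => Nat.succ_pos _, fun i => ?_, fun i e he0 he => hcop i e he0 (by omega), fun i j hij => ?_⟩
  · refine hK2.trans (mul_le_mul_of_nonneg_left ?_ hT.le)
    exact_mod_cast Nat.le_mul_of_pos_left K (Nat.mul_pos hX0 hm0)
  · push_cast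
    rw [mul_assoc]
    exact mul_le_mul_of_nonneg_left (Nat.le_ceil _) (by positivity)
  · simp only [hc]; nlinarith [Nat.zero_le (X * ix i)]
  · have h1 : (d i : ℝ) ≤ K * x i + 1 := (Nat.ceil_lt_add_one (by have := hx i; positivity)).le
    have h2 : X * c i + 1 ≤ X * m * (L i * (d i + 1)) := by
      simp only [hc]
      have h3 : X * (ix i + 1) ≤ X * m := Nat.mul_le_mul_left _ (hix1 i)
      have h4 : X * m * 1 ≤ X * m * L i := Nat.mul_le_mul_left _ (hL i)
      nlinarith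
    have h3 : ((X * c i + 1 : ℕ) : ℝ) ≤ X * m * (L i * (d i + 1)) := by exact_mod_cast h2
    refine h3.trans ?_
    push_cast
    have h4 : (d i : ℝ) + 1 ≤ (1 + ε) * (K * x i) := by linarith [hK1 i]
    calc (X:ℝ) * m * (L i * (d i + 1)) ≤ X * m * (L i * ((1 + ε) * (K * x i))) := by gcongr
      _ = _ := by ring
  · have hne : (c i : ℤ) - c j ≠ 0 := by
      intro h
      have h1 : c i = c j := by omega
      have h2 := congrArg (· % m) h1
      simp only [hc, Nat.mul_add_mod, Nat.mod_eq_of_lt (hix1 _)] at h2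
      exact hij ((Fintype.equivFin ι).injective (Fin.ext h2))
    have h1 := Finset.single_le_sum (f := c) (fun _ _ => Nat.zero_le _) (Finset.mem_univ i)
    have h2 := Finset.single_le_sum (f := c) (fun _ _ => Nat.zero_le _) (Finset.mem_univ j)
    have h3 := hcop i _ hne (by omega)
    have h4 : IsCoprime ((X * c i + 1 : ℕ) : ℤ) X := ⟨1, -(c i), by push_cast; ring⟩
    have h5 := (h4.mul_right h3).neg_right.add_mul_left_right 1
    have e : -((X:ℤ) * ((c i : ℤ) - c j)) + ((X * c i + 1 : ℕ) : ℤ) * 1 = ((X * c j + 1 : ℕ) : ℤ) := by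
      push_cast; ring
    rwa [e] at h5

end Vale.Agent.P110
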