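import Vale.Agent.P110.Basic

/-! Truncation of a unimodular function by a trapezoid multiplier. -/

namespace Vale.Agent.P110

open Real Finset MeasureTheory intervalIntegral

/-- Fourier coefficient. -/
noncomputable def fc (F : ℝ → ℂ) (k : ℝ) : ℂ := ∫ x in (0:ℝ)..1, F x * ee (-(k * x))

lemma fc_mul_ee {F : ℝ → ℂ} (hp : Function.Periodic F 1) (k : ℕ) (θ : ℝ) :
    fc F k * ee (k * θ) = ∫ t in (-(1 / 2) : ℝ)..(-(1 / 2) + 1), F (θ - t) * ee (k * t) := by
  set G : ℝ → ℂ := fun x => F x * ee (k * (θ - x)) with hG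
  have h1 : ∫ t in (-(1 / 2) : ℝ)..(-(1 / 2) + 1), F (θ - t) * ee (k * t) =
      ∫ t in (-(1 / 2) : ℝ)..(-(1 / 2) + 1), G (θ - t) := by
    simp only [hG, sub_sub_cancel]
  have hGp : Function.Periodic G 1 := fun x => by
    simp only [hG]; rw [hp x]; congr 1
    exact ee_eq_of_sub_int (-k) (by push_cast; ring)
  rw [h1, intervalIntegral.integral_comp_sub_left G]
  have h2 := hGp.intervalIntegral_add_eq (θ - (-(1 / 2) + 1)) 0
  have e : θ - (-(1 / 2) + 1) + 1 = θ - -(1 / 2) := by ring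
  rw [e] at h2
  rw [h2, zero_add, fc, ← intervalIntegral.integral_mul_const]
  refine intervalIntegral.integral_congr fun x _ => ?_
  simp only [hG]; rw [mul_assoc, ← ee_add]; congr 2; ring

lemma integral_inv_sq_add {ρ : ℝ} (hρ : 0 < ρ) (a b : ℝ) :
    ∫ t in a..b, 1 / (t ^ 2 + ρ ^ 2) ≤ π / ρ := by
  rw [integral_eq_sub_of_hasDerivAt (f := fun t => Real.arctan (t / ρ) / ρ) (fun t _ => by
    have := (((hasDerivAt_id t).div_const ρ).arctan).div_const ρ
    refine this.congr_deriv ?_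
    simp only [id]; field_simp; ring)
    (by
      apply Continuous.intervalIntegrable
      exact continuous_const.div (by fun_prop) fun t => by positivity)]
  rw [← sub_div]
  refine div_le_div_of_nonneg_right ?_ hρ.le
  linarith [Real.arctan_lt_pi_div_two (b / ρ), Real.neg_pi_div_two_lt_arctan (a / ρ)]

theorem trunc (N W : ℕ) (hW : 0 < W) (hWN : W ≤ N) (F : ℝ → ℂ) (hc : Continuous F)
    (hp : Function.Periodic F 1) (hn : ∀ x, ‖F x‖ = 1) (Λ ρ : ℝ) (hΛ : 0 ≤ Λ) (hρ : 0 < ρ)
    (htone : ∀ θ, ∃ k : ℕ, W ≤ k + 1 ∧ k + W ≤ N ∧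
      ∀ t, ‖F (θ - t) - F θ * ee (-(k * t))‖ ≤ 2 * π * (Λ * t ^ 2 + |t|)) :
    ∃ m : ℕ → ℝ, (∀ k, 0 ≤ m k ∧ m k ≤ 1) ∧ ∀ θ : ℝ,
      ‖∑ k ∈ range N, m k * fc F k * ee (k * θ) - F θ‖ ≤
        2 * π * (Λ * ρ ^ 2 + ρ) * N / W + π / (W * ρ) := by
  set A := N + 1 - W with hA
  have hW' : (0:ℝ) < W := by exact_mod_cast hW
  have hWc : (W : ℂ) ≠ 0 := by exact_mod_cast hW.ne'
  set cnt : ℕ → ℕ := fun k => ((range A ×ˢ range W).filter fun p => p.1 + p.2 = k).card with hcnt
  refine ⟨fun k => cnt k / W, fun k => ⟨by positivity, ?_⟩, fun θ => ?_⟩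
  · rw [div_le_one hW']
    have : cnt k ≤ (range W).card := by
      refine Finset.card_le_card_of_injOn (fun p => p.2) (fun p hp => ?_) (fun p hp q hq h => ?_)
      · exact (Finset.mem_product.1 (Finset.mem_filter.1 hp).1).2
      · have h1 := (Finset.mem_filter.1 hp).2
        have h2 := (Finset.mem_filter.1 hq).2
        simp only at h
        ext <;> omega
    rw [Finset.card_range] at this; exact_mod_cast this
  obtain ⟨k0, hk1, hk2, hk3⟩ := htone θ
  have hK : ∀ t, dir A t * dir W t = ∑ p ∈ range A ×ˢ range W, ee ((p.1 + p.2 : ℕ) * t) := by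
    intro t; unfold dir
    rw [Finset.sum_mul_sum, Finset.sum_product]
    refine Finset.sum_congr rfl fun a _ => Finset.sum_congr rfl fun b _ => ?_
    rw [← ee_add]; congr 1; push_cast; ring
  have h1 : ∑ k ∈ range N, ((cnt k / W : ℝ) : ℂ) * fc F k * ee (k * θ) =
      (∫ t in (-(1 / 2) : ℝ)..(-(1 / 2) + 1), F (θ - t) * (dir A t * dir W t)) / W := by
    simp_rw [hK, Finset.mul_sum]
    rw [intervalIntegral.integral_finsetSum (fun i _ => by
      apply Continuous.intervalIntegrable; fun_prop)]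
    simp_rw [← fc_mul_ee hp]
    rw [← Finset.sum_fiberwise_of_maps_to (s := range A ×ˢ range W) (t := range N)
      (g := fun p => p.1 + p.2) (fun p hp => by
        have := Finset.mem_product.1 hp
        simp only [Finset.mem_range] at this ⊢; omega), Finset.sum_div]
    refine Finset.sum_congr rfl fun k _ => ?_
    rw [Finset.sum_congr rfl (g := fun _ => fc F k * ee (k * θ)) fun p hp => by
      rw [(Finset.mem_filter.1 hp).2]]
    rw [Finset.sum_const, nsmul_eq_mul]; simp only [hcnt]; push_cast; ring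
  have h2 : F θ = (∫ t in (-(1 / 2) : ℝ)..(-(1 / 2) + 1),
      F θ * ee (-(k0 * t)) * (dir A t * dir W t)) / W := by
    simp_rw [hK, Finset.mul_sum]
    rw [intervalIntegral.integral_finsetSum (fun i _ => by
      apply Continuous.intervalIntegrable; fun_prop)]
    have h3 : ∀ p ∈ range A ×ˢ range W, ∫ t in (-(1 / 2) : ℝ)..(-(1 / 2) + 1),
        F θ * ee (-(k0 * t)) * ee ((p.1 + p.2 : ℕ) * t) = if k0 - p.2 = p.1 then F θ else 0 := by
      intro p hp
      have hp' := Finset.mem_product.1 hp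
      simp only [Finset.mem_range] at hp'
      have h4 := integral_ee ((p.1 : ℤ) + p.2 - k0) (-(1 / 2))
      have h5 : ∀ t : ℝ, F θ * ee (-(k0 * t)) * ee ((p.1 + p.2 : ℕ) * t) =
          F θ * ee ((((p.1 : ℤ) + p.2 - k0 : ℤ) : ℝ) * t) := fun t => by
        rw [mul_assoc, ← ee_add]; congr 2; push_cast; ring
      simp_rw [h5]
      rw [intervalIntegral.integral_const_mul, h4]
      by_cases h : k0 - p.2 = p.1
      · rw [if_pos (by omega), if_pos h, mul_one]
      · rw [if_neg (by omega), if_neg h, mul_zero]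
    rw [Finset.sum_congr rfl h3, Finset.sum_product, Finset.sum_comm]
    have h6 : ∀ b ∈ range W, ∑ a ∈ range A, (if k0 - b = a then F θ else 0) = F θ := by
      intro b hb
      have := Finset.mem_range.1 hb
      rw [Finset.sum_ite_eq, if_pos (Finset.mem_range.2 (by omega))]
    rw [Finset.sum_congr rfl h6, Finset.sum_const, Finset.card_range, nsmul_eq_mul]
    field_simp
  set e0 : ℝ := 2 * π * (Λ * ρ ^ 2 + ρ) with he0
  have he00 : 0 ≤ e0 := by positivity
  have h3 : ‖∫ t in (-(1 / 2) : ℝ)..(-(1 / 2) + 1),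
      (F (θ - t) * (dir A t * dir W t) - F θ * ee (-(k0 * t)) * (dir A t * dir W t))‖ ≤
      ∫ t in (-(1 / 2) : ℝ)..(-(1 / 2) + 1),
        (e0 / 2 * (‖dir A t‖ ^ 2 + ‖dir W t‖ ^ 2) + 1 / (t ^ 2 + ρ ^ 2)) := by
    refine norm_integral_le_of_norm_le (by norm_num) (Filter.Eventually.of_forall fun t ht => ?_) (by
      apply Continuous.intervalIntegrable
      exact Continuous.add (by fun_prop) (continuous_const.div (by fun_prop) fun t => by positivity))
    rw [← sub_mul, norm_mul, norm_mul]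
    have ht' : |t| ≤ 1 / 2 := abs_le.2 ⟨ht.1.le, by linarith [ht.2]⟩
    have hpos : 0 ≤ 1 / (t ^ 2 + ρ ^ 2) := by positivity
    have hpos2 : 0 ≤ e0 / 2 * (‖dir A t‖ ^ 2 + ‖dir W t‖ ^ 2) := by positivity
    rcases le_total |t| ρ with h | h
    · have h4 : ‖F (θ - t) - F θ * ee (-(k0 * t))‖ ≤ e0 := by
        refine (hk3 t).trans (mul_le_mul_of_nonneg_left ?_ (by positivity))
        have : t ^ 2 ≤ ρ ^ 2 := by rw [← sq_abs t]; exact pow_le_pow_left₀ (abs_nonneg t) h 2
        nlinarith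
      have h5 : ‖dir A t‖ * ‖dir W t‖ ≤ (‖dir A t‖ ^ 2 + ‖dir W t‖ ^ 2) / 2 := by
        nlinarith [sq_nonneg (‖dir A t‖ - ‖dir W t‖)]
      have := mul_le_mul h4 h5 (by positivity) he00
      linarith
    · have h4 : ‖F (θ - t) - F θ * ee (-(k0 * t))‖ ≤ 2 := by
        refine (norm_sub_le _ _).trans ?_
        rw [norm_mul, hn, hn, norm_ee]; norm_num
      have h5 := mul_le_mul (norm_dir_le A ht') (norm_dir_le W ht') (by positivity) (by norm_num)
      have h6 : ρ ^ 2 ≤ t ^ 2 := by rw [← sq_abs t]; exact pow_le_pow_left₀ hρ.le h 2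
      have h7 : 2 * (‖dir A t‖ * ‖dir W t‖) ≤ 1 / (t ^ 2 + ρ ^ 2) := by
        rw [le_div_iff₀ (by positivity)]
        have h8 : ‖dir A t‖ * |t| * (‖dir W t‖ * |t|) = ‖dir A t‖ * ‖dir W t‖ * t ^ 2 := by
          rw [← sq_abs t]; ring
        have h9 := mul_le_mul_of_nonneg_left h6 (by positivity : 0 ≤ ‖dir A t‖ * ‖dir W t‖)
        linarith
      have := mul_le_mul_of_nonneg_right h4 (by positivity : 0 ≤ ‖dir A t‖ * ‖dir W t‖)
      linarith
  rw [intervalIntegral.integral_sub (by apply Continuous.intervalIntegrable; fun_prop)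
    (by apply Continuous.intervalIntegrable; fun_prop),
    intervalIntegral.integral_add (by apply Continuous.intervalIntegrable; fun_prop) (by
      apply Continuous.intervalIntegrable
      exact continuous_const.div (by fun_prop) fun t => by positivity),
    intervalIntegral.integral_const_mul,
    intervalIntegral.integral_add (by apply Continuous.intervalIntegrable; fun_prop)
      (by apply Continuous.intervalIntegrable; fun_prop),
    integral_normSq_dir, integral_normSq_dir] at h3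
  have h4 := integral_inv_sq_add hρ (-(1 / 2)) (-(1 / 2) + 1)
  rw [h1]
  conv_lhs => rw [h2]
  rw [← sub_div, norm_div, Complex.norm_natCast, div_le_iff₀ hW']
  have h5 : (A : ℝ) + W ≤ 2 * N := by exact_mod_cast (by omega : A + W ≤ 2 * N)
  have h6 : (e0 * N / W + π / (W * ρ)) * W = e0 * N + π / ρ := by field_simp
  have h7 := mul_le_mul_of_nonneg_left h5 (by positivity : 0 ≤ e0 / 2)
  rw [h6]; linarith

/-- Local tone property from a Lipschitz frequency. -/
lemma tone {ψ f : ℝ → ℝ} {Λ : ℝ} (hΛ : 0 ≤ Λ) (hψ : ∀ x, HasDerivAt ψ (f x) x)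
    (hf : ∀ x y, |f x - f y| ≤ Λ * |x - y|) (θ k : ℝ) (hk : |f θ - k| ≤ 1) (t : ℝ) :
    ‖ee (ψ (θ - t)) - ee (ψ θ) * ee (-(k * t))‖ ≤ 2 * π * (Λ * t ^ 2 + |t|) := by
  rw [← ee_add]
  refine (norm_ee_sub _ _).trans (mul_le_mul_of_nonneg_left ?_ (by positivity))
  have := (convex_uIcc θ (θ - t)).norm_image_sub_le_of_norm_hasDerivWithin_le
    (f := fun x => ψ x - k * x) (f' := fun x => f x - k) (C := Λ * |t| + 1)
    (fun w _ => (((hψ w).sub ((hasDerivAt_id w).const_mul k)).congr_deriv (by ring)).hasDerivWithinAt)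
    (fun w hw => by
      have h1 := Set.abs_sub_left_of_mem_uIcc hw
      have e : θ - t - θ = -t := by ring
      rw [e, abs_neg] at h1
      have h2 := hf w θ
      have h3 := mul_le_mul_of_nonneg_left h1 hΛ
      have h4 := abs_sub_le (f w) (f θ) k
      rw [Real.norm_eq_abs]; linarith) Set.left_mem_uIcc Set.right_mem_uIcc
  simp only [Real.norm_eq_abs] at this
  have e1 : ψ (θ - t) - (ψ θ + -(k * t)) = ψ (θ - t) - k * (θ - t) - (ψ θ - k * θ) := by ring
  have e2 : θ - t - θ = -t := by ring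
  rw [e2, abs_neg] at this
  rw [e1]; refine this.trans (le_of_eq ?_)
  rw [← sq_abs t]; ring

end Vale.Agent.P110
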