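import Vale.Agent.P110.Piece
import Vale.Agent.P110.Comb
import Vale.Agent.P110.Trunc

/-! Gluing the pieces into a unimodular function on the circle. -/

namespace Vale.Agent.P110

open Complex Real MeasureTheory intervalIntegral Finset

theorem glue {P : Type} [Fintype P] {Q : ℕ} (hQ : 0 < Q) {s L : P → ℕ} (hP : Packed Q s L)
    (t4 : ∀ c < Q, ∃ a, (s a ≤ c ∧ c < s a + L a) ∨ (s a ≤ Q - 1 - c ∧ Q - 1 - c < s a + L a))
    (b B : P → ℝ → ℝ) (Λ Am : ℝ) (hΛ : 0 ≤ Λ)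
    (hb : ∀ a, Bump (b a) (B a) (L a / Q) Λ Am) (k0 : ℕ) :
    ∃ ψ f : ℝ → ℝ, (∀ θ, HasDerivAt ψ (f θ) θ) ∧
      (∀ x y, |f x - f y| ≤ 2 * Fintype.card P * Λ * |x - y|) ∧
      (∀ θ, k0 ≤ f θ ∧ f θ ≤ k0 + Am) ∧ Function.Periodic (fun θ => ee (ψ θ)) 1 ∧
      ∀ k : ℕ, fc (fun θ => ee (ψ θ)) k = ((2 * (∑ a, ee (-((k - k0) * (s a / Q))) *
        ∫ u in (0:ℝ)..L a / Q, ee (B a u - (k - k0) * u)).re : ℝ) : ℂ) := by
  classical
  have hQ' : (0:ℝ) < Q := by exact_mod_cast hQ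
  set β : ℝ → ℝ := fun θ => ∑ a, b a (θ - s a / Q) with hβ
  set Φ : ℝ → ℝ := fun θ => ∑ a, B a (θ - s a / Q) with hΦ
  have hΦd : ∀ θ, HasDerivAt Φ (β θ) θ := fun θ =>
    HasDerivAt.fun_sum fun a _ => ((hb a).hB (θ - s a / Q)).comp_sub_const θ (s a / Q)
  set f0 : ℝ → ℝ := fun θ => k0 + β θ + β (1 - θ) with hf0
  set ψ0 : ℝ → ℝ := fun θ => k0 * θ + Φ θ - Φ (1 - θ) + Φ 1 with hψ0
  have hψ0d : ∀ θ, HasDerivAt ψ0 (f0 θ) θ := fun θ => by
    have := (((((hasDerivAt_id θ).const_mul (k0:ℝ)).add (hΦd θ)).sub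
      ((hΦd (1 - θ)).comp_const_sub 1 θ)).add_const (Φ 1))
    exact this.congr_deriv (by simp only [hf0]; ring)
  have hβl : ∀ x y, |β x - β y| ≤ Fintype.card P * Λ * |x - y| := fun x y => by
    simp only [hβ]
    rw [← Finset.sum_sub_distrib]
    refine (Finset.abs_sum_le_sum_abs _ _).trans ((Finset.sum_le_sum (g := fun _ => Λ * |x - y|)
      fun a _ => ?_).trans (le_of_eq (by simp; ring)))
    have := (hb a).lip (x - s a / Q) (y - s a / Q)
    rwa [sub_sub_sub_cancel_right] at this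
  have hf0l : ∀ x y, |f0 x - f0 y| ≤ 2 * Fintype.card P * Λ * |x - y| := fun x y => by
    have h1 := abs_le.1 (hβl x y)
    have h2 := abs_le.1 (hβl (1 - x) (1 - y))
    have e : |1 - x - (1 - y)| = |x - y| := by rw [← abs_neg]; congr 1; ring
    rw [e] at h2
    simp only [hf0]
    rw [abs_le]; constructor <;> linarith
  have hf0s : ∀ θ, f0 (1 - θ) = f0 θ := fun θ => by simp only [hf0, sub_sub_cancel]; ring
  have out : ∀ (c : ℕ) (θ : ℝ), c / Q ≤ θ → θ ≤ (c + 1) / Q → ∀ a, ¬(s a ≤ c ∧ c < s a + L a) →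
      θ - s a / Q ≤ 0 ∨ L a / Q ≤ θ - s a / Q := by
    intro c θ h1 h2 a ha
    by_cases h : s a ≤ c
    · right
      have h3 : ((s a + L a : ℕ) : ℝ) ≤ c := by exact_mod_cast (by omega : s a + L a ≤ c)
      have h4 := div_le_div_of_nonneg_right h3 hQ'.le
      push_cast at h4; rw [add_div] at h4; linarith
    · left
      have h3 : ((c + 1 : ℕ) : ℝ) ≤ s a := by exact_mod_cast (by omega : c + 1 ≤ s a)
      have h4 := div_le_div_of_nonneg_right h3 hQ'.le
      push_cast at h4; linarith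
  have refl1 : ∀ c < Q, ((Q - 1 - c : ℕ) : ℝ) = Q - 1 - c := fun c hc => by
    rw [Nat.cast_sub (by omega), Nat.cast_sub (by omega)]; simp
  have mir : ∀ c < Q, ∀ θ : ℝ, c / Q ≤ θ → θ ≤ (c + 1) / Q →
      (Q - 1 - c : ℕ) / Q ≤ 1 - θ ∧ 1 - θ ≤ ((Q - 1 - c : ℕ) + 1) / Q := by
    intro c hc θ h1 h2
    rw [refl1 c hc, div_le_iff₀ hQ', le_div_iff₀ hQ']
    rw [div_le_iff₀ hQ'] at h1
    rw [le_div_iff₀ hQ'] at h2
    constructor <;> linarith
  have own : ∀ c < Q, ∀ θ : ℝ, c / Q ≤ θ → θ ≤ (c + 1) / Q → ∀ a, s a ≤ c ∧ c < s a + L a →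
      (∀ a', a' ≠ a → θ - s a' / Q ≤ 0 ∨ L a' / Q ≤ θ - s a' / Q) ∧
      ∀ a', 1 - θ - s a' / Q ≤ 0 ∨ L a' / Q ≤ 1 - θ - s a' / Q := by
    intro c hc θ h1 h2 a ha
    refine ⟨fun a' ha' => out c θ h1 h2 a' fun h => ha' (hP.t2 a' a c h.1 h.2 ha.1 ha.2),
      fun a' => out (Q - 1 - c) (1 - θ) (mir c hc θ h1 h2).1 (mir c hc θ h1 h2).2 a' fun h => ?_⟩
    exact hP.t3 a a' c (Q - 1 - c) ha.1 ha.2 h.1 h.2 (by omega)
  have rng1 : ∀ c < Q, ∀ θ : ℝ, c / Q ≤ θ → θ ≤ (c + 1) / Q → ∀ a, s a ≤ c ∧ c < s a + L a →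
      k0 ≤ f0 θ ∧ f0 θ ≤ k0 + Am := by
    intro c hc θ h1 h2 a ha
    obtain ⟨h3, h4⟩ := own c hc θ h1 h2 a ha
    have e1 : β θ = b a (θ - s a / Q) := Finset.sum_eq_single a
      (fun a' _ ha' => (hb a').bout _ (h3 a' ha')) (by simp)
    have e2 : β (1 - θ) = 0 := Finset.sum_eq_zero fun a' _ => (hb a').bout _ (h4 a')
    simp only [hf0]; rw [e1, e2]
    exact ⟨by linarith [(hb a).nonneg (θ - s a / Q)], by linarith [(hb a).le (θ - s a / Q)]⟩
  have rng : ∀ θ : ℝ, 0 ≤ θ → θ < 1 → k0 ≤ f0 θ ∧ f0 θ ≤ k0 + Am := by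
    intro θ h0 h1
    have hc : ⌊θ * Q⌋₊ < Q := (Nat.floor_lt (by positivity)).2 (by nlinarith)
    have h2 : (⌊θ * Q⌋₊ : ℝ) / Q ≤ θ := by rw [div_le_iff₀ hQ']; exact Nat.floor_le (by positivity)
    have h3 : θ ≤ (⌊θ * Q⌋₊ + 1) / Q := by rw [le_div_iff₀ hQ']; exact (Nat.lt_floor_add_one _).le
    obtain ⟨a, ha | ha⟩ := t4 _ hc
    · exact rng1 _ hc θ h2 h3 a ha
    · rw [← hf0s]
      exact rng1 _ (by omega) (1 - θ) (mir _ hc θ h2 h3).1 (mir _ hc θ h2 h3).2 a ha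
  have Bint : ∀ a (u : ℝ), u ≤ 0 ∨ L a / Q ≤ u → ee (B a u) = 1 := by
    intro a u hu
    rcases hu with hu | hu
    · rw [(hb a).Bl u hu, ee_zero]
    · obtain ⟨n, hn⟩ := (hb a).Br; rw [hn u hu, ee_int]
  have hΦ1 : ee (Φ 1) = 1 := by
    simp only [hΦ]; rw [ee_sum]
    refine Finset.prod_eq_one fun a _ => Bint a _ (Or.inr ?_)
    have h3 : ((s a + L a : ℕ) : ℝ) ≤ Q := by exact_mod_cast hP.le a
    have h4 := div_le_div_of_nonneg_right h3 hQ'.le
    push_cast at h4; rw [add_div, div_self hQ'.ne'] at h4; linarith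
  have hΦ0 : Φ 0 = 0 := Finset.sum_eq_zero fun a _ => (hb a).Bl _ (by
    have : (0:ℝ) ≤ s a / Q := by positivity
    linarith)
  set f : ℝ → ℝ := fun θ => f0 |θ - round θ| with hf
  have hfl : ∀ x y, |f x - f y| ≤ 2 * Fintype.card P * Λ * |x - y| := fun x y => by
    refine (hf0l _ _).trans (mul_le_mul_of_nonneg_left ?_ (by positivity))
    have h1 := round_le x (round y)
    have h2 := round_le y (round x)
    have h3 := abs_sub_le x y (round y)
    have h4 := abs_sub_le y x (round x)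
    rw [abs_sub_comm y x] at h4
    rw [abs_le]; constructor <;> linarith
  have hfc : Continuous f := by
    refine (LipschitzWith.of_dist_le_mul (K := ⟨2 * Fintype.card P * Λ, by positivity⟩)
      fun x y => ?_).continuous
    exact hfl x y
  have hfp : Function.Periodic f 1 := fun θ => by
    simp only [hf, round_add_one]; congr 2; push_cast; ring
  have hff : ∀ θ ∈ Set.Icc (0:ℝ) 1, f θ = f0 θ := fun θ hθ => by
    simp only [hf]
    rcases lt_or_ge θ (1 / 2) with h | h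
    · rw [round_eq_zero_iff.2 ⟨by linarith [hθ.1], h⟩]; simp [abs_of_nonneg hθ.1]
    · rw [(round_eq_iff (n := 1)).2 ⟨by push_cast; linarith, by push_cast; linarith [hθ.2]⟩,
        abs_of_nonpos (by push_cast; linarith [hθ.2]), ← hf0s θ]
      congr 1; push_cast; ring
  set ψ : ℝ → ℝ := fun θ => ∫ x in (0:ℝ)..θ, f x with hψ
  have hψψ : ∀ θ ∈ Set.Icc (0:ℝ) 1, ψ θ = ψ0 θ := fun θ hθ => by
    have h1 : ∫ x in (0:ℝ)..θ, f x = ∫ x in (0:ℝ)..θ, f0 x :=
      intervalIntegral.integral_congr fun x hx => hff x (by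
        rw [Set.uIcc_of_le hθ.1] at hx; exact ⟨hx.1, hx.2.trans hθ.2⟩)
    have hf0c : Continuous f0 := by
      refine (LipschitzWith.of_dist_le_mul (K := ⟨2 * Fintype.card P * Λ, by positivity⟩)
        fun x y => ?_).continuous
      exact hf0l x y
    simp only [hψ]
    rw [h1, integral_eq_sub_of_hasDerivAt (fun x _ => hψ0d x) (hf0c.intervalIntegrable _ _)]
    simp only [hψ0]; rw [hΦ0]; simp
  refine ⟨ψ, f, fun θ => (hfc.integral_hasStrictDerivAt 0 θ).hasDerivAt, hfl,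
    fun θ => rng _ (abs_nonneg _) (lt_of_le_of_lt (abs_sub_round θ) (by norm_num)), fun θ => ?_,
    fun k => ?_⟩
  · have h1 := hfp.intervalIntegral_add_eq_add 0 θ fun a b => hfc.intervalIntegrable a b
    rw [zero_add] at h1
    have h2 : ee (ψ 1) = 1 := by
      rw [hψψ 1 ⟨zero_le_one, le_rfl⟩]
      simp only [hψ0]
      rw [sub_self, hΦ0, sub_zero, mul_one, ee_add, ee_add, hΦ1, ee_nat]; simp
    simp only [hψ] at h2 ⊢
    rw [h1, ee_add, h2, mul_one]
  set g : ℝ → ℂ := fun θ => ee (ψ0 θ - k * θ) with hg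
  have hgc : Continuous g := by
    have : Continuous ψ0 := continuous_iff_continuousAt.2 fun u => (hψ0d u).continuousAt
    simp only [hg]; fun_prop
  have e1 : fc (fun θ => ee (ψ θ)) k = ∫ θ in (0:ℝ)..1, g θ := by
    refine intervalIntegral.integral_congr fun θ hθ => ?_
    rw [Set.uIcc_of_le zero_le_one] at hθ
    simp only [hg]; rw [hψψ θ hθ, ← ee_add]; congr 1
  have hgs : ∀ θ, g (1 - θ) = (starRingEnd ℂ) (g θ) := fun θ => by
    simp only [hg, hψ0, sub_sub_cancel]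
    rw [← ee_neg]
    have : (k0 : ℝ) * (1 - θ) + Φ (1 - θ) - Φ θ + Φ 1 - k * (1 - θ) =
        -(k0 * θ + Φ θ - Φ (1 - θ) + Φ 1 - k * θ) + ((k0 : ℤ) - k : ℤ) + Φ 1 + Φ 1 := by
      push_cast; ring
    rw [this, ee_add, ee_add, ee_add_int, hΦ1]; simp
  set I : ℕ → ℂ := fun c => ∫ θ in ((c : ℝ) / Q)..(((c + 1 : ℕ) : ℝ) / Q), g θ with hI
  have e2 : ∑ c ∈ range Q, I c = ∫ θ in (0:ℝ)..1, g θ := by
    have := intervalIntegral.sum_integral_adjacent_intervals (f := g) (μ := volume)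
      (a := fun c : ℕ => (c : ℝ) / Q) (n := Q) fun _ _ => hgc.intervalIntegrable _ _
    simpa [hQ'.ne', hI] using this
  have hIs : ∀ c < Q, I (Q - 1 - c) = (starRingEnd ℂ) (I c) := fun c hc => by
    simp only [hI]
    rw [← intervalIntegral.intervalIntegral_conj]
    simp_rw [← hgs]
    rw [intervalIntegral.integral_comp_sub_left g]
    push_cast; rw [refl1 c hc]
    congr 1 <;> field_simp <;> ring
  set U : ℕ → ℂ := fun c => ∑ a, if s a ≤ c ∧ c < s a + L a then I c else 0 with hU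
  have hU1 : ∀ c a, s a ≤ c ∧ c < s a + L a → U c = I c := fun c a ha => by
    simp only [hU]
    rw [Finset.sum_eq_single a (fun a' _ ha' => if_neg fun h =>
      ha' (hP.t2 a' a c h.1 h.2 ha.1 ha.2)) (by simp), if_pos ha]
  have hU0 : ∀ c < Q, ∀ a, s a ≤ c ∧ c < s a + L a → U (Q - 1 - c) = 0 := fun c hc a ha =>
    Finset.sum_eq_zero fun a' _ => if_neg fun h =>
      hP.t3 a a' c (Q - 1 - c) ha.1 ha.2 h.1 h.2 (by omega)
  have e3 : ∀ c ∈ range Q, I c = U c + (starRingEnd ℂ) (U (Q - 1 - c)) := by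
    intro c hc
    have hc' := Finset.mem_range.1 hc
    obtain ⟨a, ha | ha⟩ := t4 c hc'
    · rw [hU1 c a ha, hU0 c hc' a ha]; simp
    · have h1 := hU0 (Q - 1 - c) (by omega) a ha
      have : Q - 1 - (Q - 1 - c) = c := by omega
      rw [this] at h1
      rw [h1, hU1 _ a ha, hIs c hc']; simp
  have e4 : ∑ c ∈ range Q, U c = ∑ a, ee (-((k - k0) * (s a / Q))) *
      ∫ u in (0:ℝ)..L a / Q, ee (B a u - (k - k0) * u) := by
    simp only [hU]
    rw [Finset.sum_comm]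
    refine Finset.sum_congr rfl fun a _ => ?_
    rw [← Finset.sum_filter]
    have h1 : (range Q).filter (fun c => s a ≤ c ∧ c < s a + L a) = Ico (s a) (s a + L a) := by
      ext c; have := hP.le a; simp only [Finset.mem_filter, Finset.mem_range, Finset.mem_Ico]; omega
    set g' : ℝ → ℂ := fun θ => ee (-((k - k0) * (s a / Q))) *
      ee (B a (θ - s a / Q) - (k - k0) * (θ - s a / Q)) with hg'
    have hg'c : Continuous g' := by
      have : Continuous (B a) := continuous_iff_continuousAt.2 fun u => ((hb a).hB u).continuousAt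
      simp only [hg']; fun_prop
    have h2 : ∀ c ∈ Ico (s a) (s a + L a),
        I c = ∫ θ in ((c : ℝ) / Q)..(((c + 1 : ℕ) : ℝ) / Q), g' θ := by
      intro c hc
      have hc' := Finset.mem_Ico.1 hc
      refine intervalIntegral.integral_congr fun θ hθ => ?_
      rw [Set.uIcc_of_le (div_le_div_of_nonneg_right (by push_cast; linarith) hQ'.le)] at hθ
      push_cast at hθ
      obtain ⟨h3, h4⟩ := own c (by have := hP.le a; omega) θ hθ.1 hθ.2 a hc'
      have h5 : ee (Φ θ) = ee (B a (θ - s a / Q)) := by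
        simp only [hΦ]; rw [ee_sum]
        exact Finset.prod_eq_single a (fun a' _ ha' => Bint a' _ (h3 a' ha')) (by simp)
      have h6 : ee (-Φ (1 - θ)) = 1 := by
        rw [ee_neg]; simp only [hΦ]; rw [ee_sum, Finset.prod_eq_one fun a' _ => Bint a' _ (h4 a')]
        simp
      simp only [hg, hg', hψ0]
      have e5 : (k0 : ℝ) * θ + Φ θ - Φ (1 - θ) + Φ 1 - k * θ =
          -((k - k0) * θ) + Φ θ + -Φ (1 - θ) + Φ 1 := by ring
      rw [e5, ee_add, ee_add, ee_add, h5, h6, hΦ1, mul_one, mul_one, ← ee_add, ← ee_add]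
      congr 1; ring
    rw [h1, Finset.sum_congr rfl h2, intervalIntegral.sum_integral_adjacent_intervals_Ico
      (a := fun c : ℕ => (c : ℝ) / Q) (Nat.le_add_right _ _) fun _ _ => hg'c.intervalIntegrable _ _]
    simp only [hg']
    rw [intervalIntegral.integral_const_mul, intervalIntegral.integral_comp_sub_right
      (fun u => ee (B a u - (k - k0) * u))]
    congr 2
    · ring
    · push_cast; ring
  rw [e1, ← e2, Finset.sum_congr rfl e3, Finset.sum_add_distrib, ← map_sum,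
    Finset.sum_range_reflect U Q, e4, Complex.add_conj]

end Vale.Agent.P110
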