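import Mathlib

/-! Random labelling and a second moment estimate. -/

namespace Vale.Agent.P110

open Finset

section
variable {P L : Type*} [Fintype P] [DecidableEq P] [Fintype L] [DecidableEq L]

/-- Expectation over independent labels. -/
noncomputable def EL (w : L → ℝ) (f : (P → L) → ℝ) : ℝ := ∑ lab : P → L, (∏ p, w (lab p)) * f lab

lemma EL_ind {I : Type*} (w : L → ℝ) (hw : ∑ x, w x = 1) (s : Finset I) (p : I → P) (ℓ : I → L)
    (hp : Set.InjOn p s) :
    EL w (fun lab : P → L => ∏ a ∈ s, if lab (p a) = ℓ a then (1:ℝ) else 0) = ∏ a ∈ s, w (ℓ a) := by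
  classical
  unfold EL
  have h1 : ∀ lab : P → L, (∏ q, w (lab q)) * (∏ a ∈ s, if lab (p a) = ℓ a then (1:ℝ) else 0) =
      ∏ q, (w (lab q) * ∏ a ∈ s with p a = q, if lab q = ℓ a then (1:ℝ) else 0) := by
    intro lab
    rw [Finset.prod_mul_distrib, ← Finset.prod_fiberwise s p]
    congr 1
    refine Finset.prod_congr rfl fun q _ => Finset.prod_congr rfl fun a ha => ?_
    rw [(Finset.mem_filter.1 ha).2]
  simp_rw [h1]
  have h2 := Finset.prod_univ_sum (fun _ : P => (univ : Finset L))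
    (fun q x => w x * ∏ a ∈ s with p a = q, if x = ℓ a then (1:ℝ) else 0)
  rw [Fintype.piFinset_univ] at h2
  rw [← h2, ← Finset.prod_fiberwise s p]
  refine Finset.prod_congr rfl fun q _ => ?_
  rcases (s.filter fun a => p a = q).eq_empty_or_nonempty with he | ⟨a, ha⟩
  · simp [he, hw]
  · have : (s.filter fun a => p a = q) = {a} := by
      refine Finset.eq_singleton_iff_unique_mem.2 ⟨ha, fun b hb => ?_⟩
      have h3 := Finset.mem_filter.1 ha
      have h4 := Finset.mem_filter.1 hb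
      exact hp h4.1 h3.1 (h4.2.trans h3.2.symm)
    simp [this]

omit [DecidableEq L] in
lemma EL_sum {I : Type*} (w : L → ℝ) (s : Finset I) (f : I → (P → L) → ℝ) :
    EL w (fun lab => ∑ a ∈ s, f a lab) = ∑ a ∈ s, EL w (f a) := by
  unfold EL; simp_rw [Finset.mul_sum]; rw [Finset.sum_comm]

omit [DecidableEq L] in
lemma EL_lin (w : L → ℝ) (hw : ∑ x, w x = 1) (a b c : ℝ) (f g : (P → L) → ℝ) :
    EL w (fun lab => a * f lab + b * g lab + c) = a * EL w f + b * EL w g + c := by
  have h2 := Finset.prod_univ_sum (fun _ : P => (univ : Finset L)) (fun _ x => w x)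
  rw [Fintype.piFinset_univ, hw, Finset.prod_const_one] at h2
  unfold EL
  rw [Finset.mul_sum, Finset.mul_sum, ← Finset.sum_add_distrib]
  conv_rhs => rw [← mul_one c, h2, Finset.mul_sum, ← Finset.sum_add_distrib]
  exact Finset.sum_congr rfl fun _ _ => by ring

omit [DecidableEq L] in
lemma EL_mono (w : L → ℝ) (hw : ∀ x, 0 < w x) {f g : (P → L) → ℝ} (h : ∀ lab, f lab ≤ g lab) :
    EL w f ≤ EL w g :=
  Finset.sum_le_sum fun lab _ =>
    mul_le_mul_of_nonneg_left (h lab) (Finset.prod_nonneg fun _ _ => (hw _).le)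

omit [DecidableEq L] in
lemma EL_exists (w : L → ℝ) (hw0 : ∀ x, 0 < w x) (hw : ∑ x, w x = 1) (f : (P → L) → ℝ) :
    ∃ lab, EL w f ≤ f lab := by
  have hne : Nonempty L := by
    by_contra h
    rw [not_nonempty_iff] at h
    simp at hw
  have h1 := EL_lin (P := P) w hw 0 0 (EL w f) f f
  simp only [zero_mul, zero_add] at h1
  obtain ⟨lab, _, h⟩ := Finset.exists_le_of_sum_le (s := (univ : Finset (P → L))) Finset.univ_nonempty
    (f := fun lab => (∏ p, w (lab p)) * EL w f) (g := fun lab => (∏ p, w (lab p)) * f lab) h1.le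
  exact ⟨lab, le_of_mul_le_mul_left h (Finset.prod_pos fun _ _ => hw0 _)⟩

end

lemma exists_rank {A : Type*} (s : Finset A) :
    ∃ f : A → ℕ, Set.InjOn f s ∧ ∀ a ∈ s, f a < s.card := by
  classical
  refine ⟨fun a => if h : a ∈ s then (s.equivFin ⟨a, h⟩ : ℕ) else 0, fun a ha b hb h => ?_,
    fun a ha => ?_⟩
  · simp only [Finset.mem_coe] at ha hb
    simp only [dif_pos ha, dif_pos hb] at h
    exact congrArg Subtype.val (s.equivFin.injective (Fin.ext h))
  · simp only [dif_pos ha]; exact (s.equivFin ⟨a, ha⟩).2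

lemma select {A ι Y : Type*} [Fintype ι] [Fintype Y] [DecidableEq Y] (Ω0 : Finset A) (y : ι → A → Y)
    (D : ι → ℕ) : ∃ (Ω : Finset A) (idx : ι → A → ℕ), Ω ⊆ Ω0 ∧ (∀ ω ∈ Ω, ∀ i, idx i ω < D i) ∧
      (∀ i, ∀ ω ∈ Ω, ∀ ω' ∈ Ω, y i ω = y i ω' → idx i ω = idx i ω' → ω = ω') ∧
      Ω0.card ≤ Ω.card + ∑ i, ∑ y0, ((Ω0.filter fun ω => y i ω = y0).card - D i) := by
  classical
  choose f hf1 hf2 using fun (i : ι) (y0 : Y) => exists_rank (Ω0.filter fun ω => y i ω = y0)
  refine ⟨Ω0.filter fun ω => ∀ i, f i (y i ω) ω < D i, fun i ω => f i (y i ω) ω,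
    Finset.filter_subset _ _, fun ω hω => (Finset.mem_filter.1 hω).2, fun i ω hω ω' hω' h1 h2 => ?_, ?_⟩
  · refine hf1 i (y i ω') ?_ ?_ (by simpa [h1] using h2)
    · simp [(Finset.mem_filter.1 hω).1, h1]
    · simp [(Finset.mem_filter.1 hω').1]
  · rw [← Finset.card_filter_add_card_filter_not (s := Ω0) fun ω => ∀ i, f i (y i ω) ω < D i]
    refine Nat.add_le_add_left ?_ _
    calc _ ≤ (univ.biUnion fun i => univ.biUnion fun y0 =>
            (Ω0.filter fun ω => y i ω = y0).filter fun ω => D i ≤ f i y0 ω).card := by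
          refine Finset.card_le_card fun ω hω => ?_
          have h1 := Finset.mem_filter.1 hω
          obtain ⟨i, hi⟩ := not_forall.1 h1.2
          simp only [Finset.mem_biUnion, Finset.mem_univ, true_and, Finset.mem_filter]
          exact ⟨i, y i ω, ⟨h1.1, rfl⟩, not_lt.1 hi⟩
      _ ≤ _ := by
          refine Finset.card_biUnion_le.trans (Finset.sum_le_sum fun i _ => ?_)
          refine Finset.card_biUnion_le.trans (Finset.sum_le_sum fun y0 _ => ?_)
          rw [← Nat.card_Ico]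
          refine Finset.card_le_card_of_injOn (f i y0) (fun ω hω => ?_)
            ((hf1 i y0).mono (Finset.coe_subset.2 (Finset.filter_subset _ _)))
          have h1 := Finset.mem_filter.1 (Finset.mem_coe.1 hω)
          exact Finset.mem_coe.2 (Finset.mem_Ico.2 ⟨h1.2, hf2 i y0 ω h1.1⟩)

theorem label {A ι Y P : Type*} [Fintype A] [Fintype ι] [DecidableEq ι] [Fintype Y] [DecidableEq Y]
    [Fintype P] [DecidableEq P] (y : ι → A → Y) (pr : Y → P) (sd : Y → Bool) (w : ι → ℝ)
    (hw0 : ∀ i, 0 < w i) (hw : 2 * ∑ i, w i = 1) (good : Finset A)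
    (hgood : ∀ ω ∈ good, Function.Injective fun i => pr (y i ω)) (μ θ θ' δ : ℝ) (hμ : 0 < μ)
    (hθ : 0 ≤ θ) (hθ' : 0 ≤ θ') (hδ : 0 < δ)
    (hA : (Fintype.card A : ℝ) = Fintype.card Y * μ) (hg : (1 - θ') * Fintype.card A ≤ good.card)
    (U1 : ∀ i y0, ((univ.filter fun ω => y i ω = y0).card : ℝ) ≤ μ)
    (U2 : ∀ i j, j ≠ i → ∀ y0 p, ((univ.filter fun ω => y i ω = y0 ∧ pr (y j ω) = p).card : ℝ) ≤ θ * μ)
    (D : ι → ℕ) (hD : ∀ i, μ * ∏ j ∈ univ.erase i, w j ≤ D i) :
    ∃ (lab : P → ι × Bool) (Ω : Finset A) (idx : ι → A → ℕ), Ω ⊆ good ∧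
      (∀ ω ∈ Ω, ∀ i, lab (pr (y i ω)) = (i, sd (y i ω))) ∧ (∀ ω ∈ Ω, ∀ i, idx i ω < D i) ∧
      (∀ i, ∀ ω ∈ Ω, ∀ ω' ∈ Ω, y i ω = y i ω' → idx i ω = idx i ω' → ω = ω') ∧
      ((∏ i, w i) * (1 - θ') - Fintype.card ι *
        (((Fintype.card ι) ^ 2 * θ + 2 * θ') / (2 * δ) + δ / 2)) * Fintype.card A ≤ Ω.card := by
  classical
  set m : ℝ := (Fintype.card ι : ℝ) with hm
  set W : ι × Bool → ℝ := fun x => w x.1 with hW
  have hW0 : ∀ x, 0 < W x := fun x => hw0 _
  have hW1 : ∑ x, W x = 1 := by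
    rw [Fintype.sum_prod_type]; simp only [hW, Finset.sum_const, Finset.card_univ,
      Fintype.card_bool, nsmul_eq_mul]
    rw [← Finset.mul_sum]; exact_mod_cast hw
  have hw1 : ∀ i, w i ≤ 1 := fun i => by
    have := Finset.single_le_sum (f := w) (fun j _ => (hw0 j).le) (Finset.mem_univ i)
    have := hw0 i; linarith
  set X : Finset ι → A → (P → ι × Bool) → ℝ := fun s ω lab =>
    ∏ j ∈ s, if lab (pr (y j ω)) = (j, sd (y j ω)) then 1 else 0 with hX
  have hX0 : ∀ s ω lab, 0 ≤ X s ω lab := fun s ω lab =>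
    Finset.prod_nonneg fun _ _ => by split_ifs <;> norm_num
  have hX1 : ∀ s ω lab, X s ω lab ≤ 1 := fun s ω lab =>
    Finset.prod_le_one (fun _ _ => by split_ifs <;> norm_num) fun _ _ => by split_ifs <;> norm_num
  have hEX : ∀ s, ∀ ω ∈ good, EL W (X s ω) = ∏ j ∈ s, w j := fun s ω hω =>
    EL_ind W hW1 s (fun j => pr (y j ω)) (fun j => (j, sd (y j ω))) (hgood ω hω).injOn
  set deg : ι → Y → (P → ι × Bool) → ℝ := fun i y0 lab =>
    ∑ ω ∈ good with y i ω = y0, X (univ.erase i) ω lab with hdeg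
  set Wi : ι → ℝ := fun i => ∏ j ∈ univ.erase i, w j with hWi
  have hWi0 : ∀ i, 0 ≤ Wi i := fun i => Finset.prod_nonneg fun j _ => (hw0 j).le
  have hWi1 : ∀ i, Wi i ≤ 1 := fun i => Finset.prod_le_one (fun j _ => (hw0 j).le) fun j _ => hw1 j
  have hfib : ∀ i y0, ((good.filter fun ω => y i ω = y0).card : ℝ) ≤ μ := fun i y0 =>
    le_trans (Nat.cast_le.2 (Finset.card_le_card
      (Finset.filter_subset_filter _ (Finset.subset_univ _)))) (U1 i y0)
  have hE1 : ∀ i, ∑ y0, EL W (deg i y0) = Wi i * good.card := by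
    intro i
    have : ∀ y0, EL W (deg i y0) = ∑ ω ∈ good with y i ω = y0, Wi i := fun y0 => by
      simp only [hdeg]
      rw [EL_sum]
      exact Finset.sum_congr rfl fun ω hω => hEX _ ω (Finset.mem_filter.1 hω).1
    simp_rw [this]
    rw [Finset.sum_fiberwise good (y i) fun _ => Wi i, Finset.sum_const, nsmul_eq_mul, mul_comm]
  have hE2 : ∀ i y0, EL W (fun lab => deg i y0 lab ^ 2) ≤ (μ * Wi i) ^ 2 + m ^ 2 * θ * μ ^ 2 := by
    intro i y0
    set G := good.filter fun ω => y i ω = y0 with hG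
    have h1 : (fun lab => deg i y0 lab ^ 2) = fun lab => ∑ ω ∈ G, ∑ ω' ∈ G,
        X (univ.erase i) ω lab * X (univ.erase i) ω' lab := by
      funext lab; simp only [hdeg]; rw [sq, Finset.sum_mul_sum]
    rw [h1, EL_sum]
    simp_rw [EL_sum]
    have h2 : ∀ ω ∈ G, ∀ ω' ∈ G, EL W (fun lab => X (univ.erase i) ω lab * X (univ.erase i) ω' lab) ≤
        Wi i ^ 2 + ∑ j ∈ univ.erase i, ∑ j' ∈ univ.erase i,
          if pr (y j' ω') = pr (y j ω) then (1:ℝ) else 0 := by
      intro ω hω ω' hω'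
      have hs0 : 0 ≤ ∑ j ∈ univ.erase i, ∑ j' ∈ univ.erase i,
          if pr (y j' ω') = pr (y j ω) then (1:ℝ) else 0 :=
        Finset.sum_nonneg fun _ _ => Finset.sum_nonneg fun _ _ => by split_ifs <;> norm_num
      by_cases hc : ∃ j ∈ univ.erase i, ∃ j' ∈ univ.erase i, pr (y j' ω') = pr (y j ω)
      · obtain ⟨j, hj, j', hj', hc⟩ := hc
        have h3 : EL W (fun lab => X (univ.erase i) ω lab * X (univ.erase i) ω' lab) ≤ 1 := by
          have h4 := EL_lin (P := P) W hW1 0 0 1 (fun _ => 0) (fun _ => 0)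
          simp only [zero_mul, zero_add] at h4
          rw [← h4]
          exact EL_mono W hW0 fun lab => mul_le_one₀ (hX1 _ _ _) (hX0 _ _ _) (hX1 _ _ _)
        have h5 : (1:ℝ) ≤ ∑ j ∈ univ.erase i, ∑ j' ∈ univ.erase i,
            if pr (y j' ω') = pr (y j ω) then (1:ℝ) else 0 := by
          refine le_trans ?_ (Finset.single_le_sum (f := fun j => ∑ j' ∈ univ.erase i,
            if pr (y j' ω') = pr (y j ω) then (1:ℝ) else 0)
            (fun _ _ => Finset.sum_nonneg fun _ _ => by split_ifs <;> norm_num) hj)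
          refine le_trans ?_ (Finset.single_le_sum (f := fun j' =>
            if pr (y j' ω') = pr (y j ω) then (1:ℝ) else 0)
            (fun _ _ => by split_ifs <;> norm_num) hj')
          rw [if_pos hc]
        linarith [sq_nonneg (Wi i)]
      · push Not at hc
        have h3 := EL_ind W hW1 ((univ.erase i).disjSum (univ.erase i))
          (Sum.elim (fun j => pr (y j ω)) fun j => pr (y j ω'))
          (Sum.elim (fun j => (j, sd (y j ω))) fun j => (j, sd (y j ω'))) (by
            rintro (a | a) ha (b | b) hb h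
            · exact congrArg Sum.inl (hgood ω (Finset.mem_filter.1 hω).1 h)
            · exact absurd h.symm (hc a (by simpa using ha) b (by simpa using hb))
            · exact absurd h (hc b (by simpa using hb) a (by simpa using ha))
            · exact congrArg Sum.inr (hgood ω' (Finset.mem_filter.1 hω').1 h))
        simp only [Finset.prod_disjSum, Sum.elim_inl, Sum.elim_inr] at h3
        have h4 : EL W (fun lab => X (univ.erase i) ω lab * X (univ.erase i) ω' lab) = Wi i ^ 2 := by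
          rw [sq]; exact h3
        linarith
    refine (Finset.sum_le_sum fun ω hω => Finset.sum_le_sum (h2 ω hω)).trans ?_
    have hGc : (G.card : ℝ) ≤ μ := hfib i y0
    have h3 : ∀ ω ∈ G, ∑ ω' ∈ G, (Wi i ^ 2 + ∑ j ∈ univ.erase i, ∑ j' ∈ univ.erase i,
        if pr (y j' ω') = pr (y j ω) then (1:ℝ) else 0) ≤ μ * Wi i ^ 2 + m ^ 2 * θ * μ := by
      intro ω _
      rw [Finset.sum_add_distrib, Finset.sum_const, nsmul_eq_mul, Finset.sum_comm]
      refine add_le_add (mul_le_mul_of_nonneg_right hGc (sq_nonneg _)) ?_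
      have hce : ((univ.erase i).card : ℝ) ≤ m := by
        rw [hm]; exact_mod_cast Finset.card_le_univ _
      have h4 : ∀ j ∈ univ.erase i, ∑ ω' ∈ G, ∑ j' ∈ univ.erase i,
          (if pr (y j' ω') = pr (y j ω) then (1:ℝ) else 0) ≤ m * (θ * μ) := by
        intro j _
        rw [Finset.sum_comm]
        have h5 : ∀ j' ∈ univ.erase i, ∑ ω' ∈ G,
            (if pr (y j' ω') = pr (y j ω) then (1:ℝ) else 0) ≤ θ * μ := by
          intro j' hj'
          refine le_trans ?_ (U2 i j' (Finset.mem_erase.1 hj').1 y0 (pr (y j ω)))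
          rw [← Finset.sum_filter, Finset.sum_const, nsmul_eq_mul, mul_one]
          refine Nat.cast_le.2 (Finset.card_le_card fun ω' h => ?_)
          simp only [hG, Finset.mem_filter, Finset.mem_univ, true_and] at h ⊢
          exact ⟨h.1.2, h.2⟩
        refine (Finset.sum_le_sum h5).trans ?_
        rw [Finset.sum_const, nsmul_eq_mul]
        exact mul_le_mul_of_nonneg_right hce (by positivity)
      refine (Finset.sum_le_sum h4).trans ?_
      rw [Finset.sum_const, nsmul_eq_mul]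
      have : (0:ℝ) ≤ m := by positivity
      calc _ ≤ m * (m * (θ * μ)) := mul_le_mul_of_nonneg_right hce (by positivity)
        _ = _ := by ring
    refine (Finset.sum_le_sum h3).trans ?_
    rw [Finset.sum_const, nsmul_eq_mul]
    calc _ ≤ μ * (μ * Wi i ^ 2 + m ^ 2 * θ * μ) := mul_le_mul_of_nonneg_right hGc (by positivity)
      _ = _ := by ring
  set pen : ι → Y → (P → ι × Bool) → ℝ := fun i y0 lab =>
    1 / (2 * δ * μ) * deg i y0 lab ^ 2 + -(Wi i / δ) * deg i y0 lab +
      (μ * Wi i ^ 2 / (2 * δ) + δ * μ / 2) with hpen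
  have hpenE : ∀ i, ∑ y0, EL W (pen i y0) ≤
      ((m ^ 2 * θ + 2 * θ') / (2 * δ) + δ / 2) * Fintype.card A := by
    intro i
    have h1 : ∀ y0, EL W (pen i y0) ≤ 1 / (2 * δ * μ) * ((μ * Wi i) ^ 2 + m ^ 2 * θ * μ ^ 2) +
        -(Wi i / δ) * EL W (deg i y0) + (μ * Wi i ^ 2 / (2 * δ) + δ * μ / 2) := fun y0 => by
      simp only [hpen]
      rw [EL_lin W hW1]
      have := mul_le_mul_of_nonneg_left (hE2 i y0) (by positivity : 0 ≤ 1 / (2 * δ * μ))
      linarith
    refine (Finset.sum_le_sum fun y0 _ => h1 y0).trans ?_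
    rw [Finset.sum_add_distrib, Finset.sum_add_distrib, ← Finset.mul_sum (f := fun y0 => EL W (deg i y0)),
      hE1, Finset.sum_const, Finset.sum_const, Finset.card_univ, nsmul_eq_mul, nsmul_eq_mul]
    have h2 := mul_le_mul_of_nonneg_left hg (by have := hWi0 i; positivity : 0 ≤ Wi i ^ 2 / δ)
    have h3 : Wi i ^ 2 ≤ 1 := pow_le_one₀ (hWi0 i) (hWi1 i)
    have h4 := mul_le_mul_of_nonneg_right h3
      (by positivity : 0 ≤ θ' / δ * (Fintype.card A : ℝ))
    rw [hA] at h2 h4 ⊢
    have e1 : (Fintype.card Y : ℝ) * (1 / (2 * δ * μ) * ((μ * Wi i) ^ 2 + m ^ 2 * θ * μ ^ 2)) =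
        Fintype.card Y * μ * (Wi i ^ 2 / δ / 2 + m ^ 2 * θ / δ / 2) := by field_simp
    have e2 : (Fintype.card Y : ℝ) * (μ * Wi i ^ 2 / (2 * δ) + δ * μ / 2) =
        Fintype.card Y * μ * (Wi i ^ 2 / δ / 2 + δ / 2) := by field_simp
    have e3 : (m ^ 2 * θ + 2 * θ') / (2 * δ) = m ^ 2 * θ / δ / 2 + θ' / δ := by field_simp
    have e4 : -(Wi i / δ) * (Wi i * good.card) = -(Wi i ^ 2 / δ * good.card) := by ring
    have e5 : Wi i ^ 2 * (θ' / δ * (Fintype.card Y * μ)) =
        Wi i ^ 2 / δ * θ' * (Fintype.card Y * μ) := by ring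
    rw [e1, e2, e3, e4]
    rw [e5] at h4
    linarith
  obtain ⟨lab, hlab⟩ := EL_exists W hW0 hW1 fun lab =>
    1 * (∑ ω ∈ good, X univ ω lab) + (-1) * (∑ i, ∑ y0, pen i y0 lab) + 0
  rw [EL_lin W hW1, EL_sum, EL_sum] at hlab
  simp_rw [EL_sum] at hlab
  rw [Finset.sum_congr rfl (hEX univ), Finset.sum_const, nsmul_eq_mul] at hlab
  set Ω0 := good.filter fun ω => ∀ i, lab (pr (y i ω)) = (i, sd (y i ω)) with hΩ0
  obtain ⟨Ω, idx, h1, h2, h3, h4⟩ := select Ω0 y D
  refine ⟨lab, Ω, idx, h1.trans (Finset.filter_subset _ _),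
    fun ω hω => (Finset.mem_filter.1 (h1 hω)).2, h2, h3, ?_⟩
  have h5 : ∑ ω ∈ good, X univ ω lab = Ω0.card := by
    rw [hΩ0, Finset.card_filter]; push_cast
    refine Finset.sum_congr rfl fun ω _ => ?_
    simp only [hX]
    rw [Finset.prod_ite_zero]; simp
  have h6 : ∀ i y0, (((Ω0.filter fun ω => y i ω = y0).card - D i : ℕ) : ℝ) ≤ pen i y0 lab := by
    intro i y0
    have h7 : ((Ω0.filter fun ω => y i ω = y0).card : ℝ) ≤ deg i y0 lab := by
      simp only [hdeg]
      calc ((Ω0.filter fun ω => y i ω = y0).card : ℝ)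
          = ∑ ω ∈ Ω0 with y i ω = y0, X (univ.erase i) ω lab := by
            rw [Finset.card_eq_sum_ones]; push_cast
            refine Finset.sum_congr rfl fun ω hω => ?_
            have := (Finset.mem_filter.1 (Finset.mem_filter.1 hω).1).2
            simp only [hX]
            exact (Finset.prod_eq_one fun j _ => if_pos (this j)).symm
        _ ≤ _ := Finset.sum_le_sum_of_subset_of_nonneg
            (Finset.filter_subset_filter _ (Finset.filter_subset _ _)) fun _ _ _ => hX0 _ _ _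
    have h8 : pen i y0 lab = (deg i y0 lab - μ * Wi i) ^ 2 / (2 * δ * μ) + δ * μ / 2 := by
      simp only [hpen]; field_simp; ring
    have h9 : deg i y0 lab - μ * Wi i ≤ pen i y0 lab := by
      rw [h8]
      have : deg i y0 lab - μ * Wi i - δ * μ / 2 ≤ (deg i y0 lab - μ * Wi i) ^ 2 / (2 * δ * μ) := by
        rw [le_div_iff₀ (by positivity)]
        nlinarith [sq_nonneg (deg i y0 lab - μ * Wi i - δ * μ)]
      linarith
    rcases le_total (Ω0.filter fun ω => y i ω = y0).card (D i) with h | h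
    · rw [Nat.sub_eq_zero_of_le h, h8]; simp only [Nat.cast_zero]; positivity
    · rw [Nat.cast_sub h]; linarith [hD i]
  have h7 : (Ω0.card : ℝ) ≤ Ω.card + ∑ i, ∑ y0, pen i y0 lab := by
    refine le_trans (Nat.cast_le.2 h4) ?_
    rw [Nat.cast_add, Nat.cast_sum]
    refine add_le_add le_rfl (Finset.sum_le_sum fun i _ => ?_)
    rw [Nat.cast_sum]
    exact Finset.sum_le_sum fun y0 _ => h6 i y0
  have h8 : ∑ i, ∑ y0, EL W (pen i y0) ≤
      m * (((m ^ 2 * θ + 2 * θ') / (2 * δ) + δ / 2) * Fintype.card A) := by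
    refine (Finset.sum_le_sum fun i _ => hpenE i).trans ?_
    rw [Finset.sum_const, Finset.card_univ, nsmul_eq_mul]
  have h9 := mul_le_mul_of_nonneg_right hg (Finset.prod_nonneg fun j (_ : j ∈ univ) => (hw0 j).le)
  linarith

end Vale.Agent.P110
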