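import Vale.Agent.P110.Spencer
import Vale.Agent.P110.Basic

/-! Rounding real coefficients to signs. -/

namespace Vale.Agent.P110

open Real Finset

lemma dyadic {ι ρ : Type*} [DecidableEq ι] [Fintype ρ] [DecidableEq ρ]
    (v : ρ → ι → ℝ) (hv : ∀ r i, |v r i| ≤ 1) (s : Finset ι) (hs : s.card ≤ Fintype.card ρ)
    (U : ℝ) (hU : 0 ≤ U) (J : ℕ) : ∀ p : ι → ℕ, (∀ i, p i ≤ 2 ^ J) → (∑ i ∈ s, (p i : ℝ) ≤ 2 ^ J * U) →
    ∃ δ : ι → ℕ, (∀ i, δ i ≤ 1) ∧ ∀ r, |∑ i ∈ s, v r i * (p i / 2 ^ J - δ i)| ≤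
      1200 * √√(U * Fintype.card ρ) * (1 - (3 / 5) ^ J) := by
  induction J with
  | zero => intro p hp _; exact ⟨p, by simpa using hp, fun r => by simp⟩
  | succ J ih =>
    intro p hp hpU
    set S := s.filter fun i => p i % 2 = 1 with hS
    obtain ⟨χ, hχ1, hχ2, hχ3⟩ : ∃ χ : ι → ℝ, (∀ i, χ i = 1 ∨ χ i = -1) ∧
        (∀ r, |∑ i ∈ S, v r i * χ i| ≤ 800 * √√(S.card * Fintype.card ρ)) ∧ ∑ i ∈ S, χ i ≤ 0 := by
      obtain ⟨χ, h1, h2⟩ := spencer v hv S ((Finset.card_filter_le _ _).trans hs)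
      rcases le_total (∑ i ∈ S, χ i) 0 with h | h
      · exact ⟨χ, h1, h2, h⟩
      · refine ⟨fun i => -χ i, fun i => ?_, fun r => ?_, ?_⟩
        · rcases h1 i with h | h <;> simp [h]
        · simp only [mul_neg, Finset.sum_neg_distrib, abs_neg]; exact h2 r
        · rw [Finset.sum_neg_distrib]; linarith
    set p' : ι → ℕ := fun i => if p i % 2 = 1 ∧ χ i = 1 then p i / 2 + 1 else p i / 2 with hp'
    have hrel : ∀ i, 2 * (p' i : ℝ) = p i + if p i % 2 = 1 then χ i else 0 := by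
      intro i
      by_cases h1 : p i % 2 = 1
      · rcases hχ1 i with h2 | h2
        · have : 2 * (p i / 2 + 1) = p i + 1 := by omega
          simp only [hp', h1, h2, and_self, if_true]; exact_mod_cast this
        · have h3 : χ i ≠ 1 := by rw [h2]; norm_num
          have : 2 * (p i / 2) + 1 = p i := by omega
          have h4 : (2 * ((p i / 2 : ℕ) : ℝ) + 1) = p i := by exact_mod_cast this
          simp only [hp', h1, h3, and_false, if_false, if_true]; rw [h2]; linarith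
      · have : 2 * (p i / 2) = p i := by omega
        simp only [hp', h1, false_and, if_false, add_zero]; exact_mod_cast this
    have hb : ∀ i, p' i ≤ 2 ^ J := by
      intro i
      have := hp i
      rw [pow_succ] at this
      simp only [hp']; split_ifs with h
      · omega
      · omega
    have hsum : ∑ i ∈ s, (p' i : ℝ) ≤ 2 ^ J * U := by
      have h1 : 2 * ∑ i ∈ s, (p' i : ℝ) = ∑ i ∈ s, (p i : ℝ) + ∑ i ∈ S, χ i := by
        rw [Finset.mul_sum, hS, Finset.sum_filter, ← Finset.sum_add_distrib]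
        exact Finset.sum_congr rfl fun i _ => hrel i
      rw [pow_succ] at hpU
      linarith
    obtain ⟨δ, hδ1, hδ2⟩ := ih p' hb hsum
    refine ⟨δ, hδ1, fun r => ?_⟩
    have e1 : ∑ i ∈ s, v r i * (p i / 2 ^ (J + 1) - δ i) =
        ∑ i ∈ s, v r i * (p' i / 2 ^ J - δ i) - (∑ i ∈ S, v r i * χ i) / 2 ^ (J + 1) := by
      rw [hS, Finset.sum_filter, Finset.sum_div, ← Finset.sum_sub_distrib]
      refine Finset.sum_congr rfl fun i _ => ?_
      have h1 := hrel i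
      have h2 : (p i : ℝ) = 2 * p' i - if p i % 2 = 1 then χ i else 0 := by linarith
      rw [h2]
      split_ifs <;> field_simp <;> ring
    have hc : (S.card : ℝ) ≤ 2 ^ (J + 1) * U := by
      refine le_trans ?_ hpU
      rw [hS, Finset.card_filter]; push_cast
      refine Finset.sum_le_sum fun i _ => ?_
      split_ifs with h
      · exact_mod_cast (by omega : 1 ≤ p i)
      · positivity
    have hg : √√(S.card * Fintype.card ρ) ≤ (6 / 5) ^ (J + 1) * √√(U * Fintype.card ρ) := by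
      have h5 : (0:ℝ) ≤ Fintype.card ρ := by positivity
      rw [Real.sqrt_le_left (by positivity), mul_pow, Real.sq_sqrt (Real.sqrt_nonneg _),
        Real.sqrt_le_left (by positivity), mul_pow, Real.sq_sqrt (by positivity)]
      have h6 : (2:ℝ) ^ (J + 1) ≤ (((6 / 5) ^ (J + 1)) ^ 2) ^ 2 := by
        rw [← pow_mul, ← pow_mul, mul_comm, pow_mul]
        exact pow_le_pow_left₀ (by norm_num) (by norm_num) _
      calc (S.card : ℝ) * Fintype.card ρ ≤ 2 ^ (J + 1) * U * Fintype.card ρ :=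
            mul_le_mul_of_nonneg_right hc h5
        _ = 2 ^ (J + 1) * (U * Fintype.card ρ) := by ring
        _ ≤ _ := mul_le_mul_of_nonneg_right h6 (by positivity)
    rw [e1]
    refine (abs_sub _ _).trans ?_
    rw [abs_div, abs_of_pos (by positivity : (0:ℝ) < 2 ^ (J + 1))]
    have h7 : |∑ i ∈ S, v r i * χ i| / 2 ^ (J + 1) ≤
        800 * √√(U * Fintype.card ρ) * (3 / 5) ^ (J + 1) := by
      rw [div_le_iff₀ (by positivity)]
      refine (hχ2 r).trans ?_
      have : (6 / 5 : ℝ) ^ (J + 1) = (3 / 5) ^ (J + 1) * 2 ^ (J + 1) := by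
        rw [← mul_pow]; norm_num
      rw [this] at hg
      linarith
    have h8 := hδ2 r
    rw [pow_succ (3 / 5 : ℝ)] at h7 ⊢
    linarith

lemma round_rows {ι ρ : Type*} [DecidableEq ι] [Fintype ρ] [DecidableEq ρ]
    (v : ρ → ι → ℝ) (hv : ∀ r i, |v r i| ≤ 1) (s : Finset ι) (hs : s.card ≤ Fintype.card ρ)
    (a : ι → ℝ) (ha : ∀ i, |a i| ≤ 1) (U : ℝ) (hU : ∑ i ∈ s, (1 - |a i|) ≤ U) :
    ∃ e : ι → ℝ, (∀ i, e i = 1 ∨ e i = -1) ∧ ∀ r, |∑ i ∈ s, v r i * (a i - e i)| ≤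
      2400 * √√(U * Fintype.card ρ) + 1 := by
  have h0 : 0 ≤ ∑ i ∈ s, (1 - |a i|) := Finset.sum_nonneg fun i _ => by linarith [ha i]
  have hU0 : 0 ≤ U := h0.trans hU
  set J := 2 * s.card with hJ
  set σ : ι → ℝ := fun i => if 0 ≤ a i then 1 else -1 with hσ
  have hσ1 : ∀ i, |σ i| = 1 := fun i => by simp only [hσ]; split_ifs <;> simp
  have hσ2 : ∀ i, a i = σ i * |a i| := fun i => by
    simp only [hσ]; split_ifs with h
    · rw [abs_of_nonneg h, one_mul]
    · rw [abs_of_neg (not_le.1 h)]; ring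
  set q : ι → ℝ := fun i => (1 - |a i|) / 2 with hq
  have hq0 : ∀ i, 0 ≤ q i := fun i => by simp only [hq]; linarith [ha i]
  have hq1 : ∀ i, q i ≤ 1 := fun i => by simp only [hq]; linarith [abs_nonneg (a i)]
  have hJ0 : (0:ℝ) < 2 ^ J := by positivity
  obtain ⟨δ, hδ1, hδ2⟩ := dyadic (fun r i => v r i * σ i)
    (fun r i => by rw [abs_mul, hσ1, mul_one]; exact hv r i) s hs U hU0 J
    (fun i => ⌊2 ^ J * q i⌋₊) (fun i => by
      refine Nat.floor_le_of_le ?_
      push_cast; nlinarith [hq1 i])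
    (by
      calc ∑ i ∈ s, (⌊2 ^ J * q i⌋₊ : ℝ) ≤ ∑ i ∈ s, 2 ^ J * (1 - |a i|) :=
            Finset.sum_le_sum fun i _ => (Nat.floor_le (by have := hq0 i; positivity)).trans
              (mul_le_mul_of_nonneg_left (by simp only [hq]; linarith [ha i]) hJ0.le)
        _ ≤ _ := by rw [← Finset.mul_sum]; exact mul_le_mul_of_nonneg_left hU hJ0.le)
  refine ⟨fun i => σ i * (1 - 2 * δ i), fun i => ?_, fun r => ?_⟩
  · have h1 : δ i = 0 ∨ δ i = 1 := by have := hδ1 i; omega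
    simp only [hσ]
    rcases h1 with h1 | h1 <;> rw [h1] <;> split_ifs <;> norm_num
  have e1 : ∑ i ∈ s, v r i * (a i - σ i * (1 - 2 * δ i)) =
      -2 * ∑ i ∈ s, v r i * σ i * ((⌊2 ^ J * q i⌋₊ : ℝ) / 2 ^ J - δ i) -
      2 * ∑ i ∈ s, v r i * σ i * (q i - (⌊2 ^ J * q i⌋₊ : ℝ) / 2 ^ J) := by
    rw [Finset.mul_sum, Finset.mul_sum, ← Finset.sum_sub_distrib]
    refine Finset.sum_congr rfl fun i _ => ?_
    have h1 := hσ2 i
    have h2 : |a i| = 1 - 2 * q i := by simp only [hq]; ring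
    rw [h2] at h1
    rw [h1]; ring
  have h2 : |∑ i ∈ s, v r i * σ i * (q i - (⌊2 ^ J * q i⌋₊ : ℝ) / 2 ^ J)| ≤ 1 / 2 := by
    refine (Finset.abs_sum_le_sum_abs _ _).trans ?_
    have h3 : ∀ i ∈ s, |v r i * σ i * (q i - (⌊2 ^ J * q i⌋₊ : ℝ) / 2 ^ J)| ≤ 1 / 2 ^ J := by
      intro i _
      rw [abs_mul, abs_mul, hσ1, mul_one]
      have h4 : |q i - (⌊2 ^ J * q i⌋₊ : ℝ) / 2 ^ J| ≤ 1 / 2 ^ J := by
        have e : q i - (⌊2 ^ J * q i⌋₊ : ℝ) / 2 ^ J = (2 ^ J * q i - ⌊2 ^ J * q i⌋₊) / 2 ^ J := by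
          field_simp
        rw [e, abs_div, abs_of_pos hJ0]
        refine div_le_div_of_nonneg_right ?_ hJ0.le
        have h5 := Nat.floor_le (a := 2 ^ J * q i) (by have := hq0 i; positivity)
        have h6 := Nat.lt_floor_add_one (2 ^ J * q i)
        exact abs_le.2 ⟨by linarith, by linarith⟩
      calc _ ≤ 1 * (1 / 2 ^ J) := mul_le_mul (hv r i) h4 (abs_nonneg _) zero_le_one
        _ = _ := one_mul _
    refine (Finset.sum_le_sum h3).trans ?_
    rw [Finset.sum_const, nsmul_eq_mul, mul_one_div, div_le_iff₀ hJ0]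
    have : ((J : ℕ) : ℝ) < 2 ^ J := by exact_mod_cast Nat.lt_two_pow_self
    rw [hJ] at this ⊢; push_cast at this; linarith
  have h3 := hδ2 r
  have h4 : 1200 * √√(U * Fintype.card ρ) * (1 - (3 / 5) ^ J) ≤ 1200 * √√(U * Fintype.card ρ) := by
    have : (0:ℝ) ≤ (3 / 5) ^ J := by positivity
    have h5 := Real.sqrt_nonneg (√(U * Fintype.card ρ))
    nlinarith
  rw [e1]
  refine (abs_sub _ _).trans ?_
  rw [abs_mul, abs_mul, abs_neg, abs_two]
  linarith

lemma sample_mono (N k : ℕ) (hk : k < N) (θ : ℝ) :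
    ∑ j ∈ range (2 * N), ee (k * (j / (2 * N : ℕ))) * (dir (2 * N) (θ - j / (2 * N : ℕ)) *
      (starRingEnd ℂ) (dir N (θ - j / (2 * N : ℕ)))) = (2 * N : ℕ) * N * ee (k * θ) := by
  set L := 2 * N with hL
  have h1 : ∀ j : ℕ, ee (k * (j / L)) * (dir L (θ - j / L) * (starRingEnd ℂ) (dir N (θ - j / L))) =
      ∑ b ∈ range N, ∑ a ∈ range L, ee (((a : ℝ) - b) * θ) *
        ee ((((k : ℤ) - a + b : ℤ) : ℝ) * (j / L)) := by
    intro j
    unfold dir
    rw [map_sum, Finset.sum_mul_sum, Finset.sum_comm, Finset.mul_sum]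
    refine Finset.sum_congr rfl fun b _ => ?_
    rw [Finset.mul_sum]
    refine Finset.sum_congr rfl fun a _ => ?_
    rw [← ee_neg, ← ee_add, ← ee_add, ← ee_add]; congr 1; push_cast; ring
  simp_rw [h1]
  rw [Finset.sum_comm]
  have h2 : ∀ b ∈ range N, ∑ j ∈ range L, ∑ a ∈ range L, ee (((a : ℝ) - b) * θ) *
      ee ((((k : ℤ) - a + b : ℤ) : ℝ) * (j / L)) = L * ee (k * θ) := by
    intro b hb
    have hb' := Finset.mem_range.1 hb
    rw [Finset.sum_comm]
    have h3 : ∀ a ∈ range L, ∑ j ∈ range L, ee (((a : ℝ) - b) * θ) *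
        ee ((((k : ℤ) - a + b : ℤ) : ℝ) * (j / L)) = if k + b = a then L * ee (k * θ) else 0 := by
      intro a ha
      have ha' := Finset.mem_range.1 ha
      rw [← Finset.mul_sum, sum_ee L _ (by rw [abs_lt]; constructor <;> omega)]
      by_cases h : k + b = a
      · subst h
        rw [if_pos (by push_cast; ring), if_pos rfl]
        push_cast; rw [add_sub_cancel_right]; ring
      · rw [if_neg (by omega), if_neg h, mul_zero]
    rw [Finset.sum_congr rfl h3, Finset.sum_ite_eq, if_pos (Finset.mem_range.2 (by omega))]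
  rw [Finset.sum_congr rfl h2, Finset.sum_const, Finset.card_range, nsmul_eq_mul]; ring

lemma sample (N : ℕ) (hN : 0 < N) (c : ℕ → ℝ) (D : ℝ)
    (hD : ∀ j < 2 * N, ‖∑ k ∈ range N, (c k : ℂ) * ee (k * (j / (2 * N : ℕ)))‖ ≤ D) (θ : ℝ) :
    ‖∑ k ∈ range N, (c k : ℂ) * ee (k * θ)‖ ≤ 3 / 2 * D := by
  set L := 2 * N with hL
  have hD0 : 0 ≤ D := (norm_nonneg _).trans (hD 0 (by omega))
  have h1 : (L : ℂ) * N * ∑ k ∈ range N, (c k : ℂ) * ee (k * θ) =
      ∑ j ∈ range L, (∑ k ∈ range N, (c k : ℂ) * ee (k * (j / L))) *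
        (dir L (θ - j / L) * (starRingEnd ℂ) (dir N (θ - j / L))) := by
    simp_rw [Finset.sum_mul]
    rw [Finset.sum_comm, Finset.mul_sum]
    refine Finset.sum_congr rfl fun k hk => ?_
    simp_rw [mul_assoc (c k : ℂ)]
    rw [← Finset.mul_sum, sample_mono N k (Finset.mem_range.1 hk) θ]; ring
  have h2 : (L : ℝ) * N * ‖∑ k ∈ range N, (c k : ℂ) * ee (k * θ)‖ ≤
      ∑ j ∈ range L, D * ((‖dir L (θ - j / L)‖ ^ 2 + ‖dir N (θ - j / L)‖ ^ 2) / 2) := by
    have : (L : ℝ) * N * ‖∑ k ∈ range N, (c k : ℂ) * ee (k * θ)‖ =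
        ‖(L : ℂ) * N * ∑ k ∈ range N, (c k : ℂ) * ee (k * θ)‖ := by
      rw [norm_mul, norm_mul, Complex.norm_natCast, Complex.norm_natCast]
    rw [this, h1]
    refine (norm_sum_le _ _).trans (Finset.sum_le_sum fun j hj => ?_)
    rw [norm_mul, norm_mul, Complex.norm_conj]
    refine mul_le_mul (hD j (Finset.mem_range.1 hj)) ?_ (by positivity) hD0
    nlinarith [sq_nonneg (‖dir L (θ - j / L)‖ - ‖dir N (θ - j / L)‖)]
  rw [← Finset.mul_sum, ← Finset.sum_div, Finset.sum_add_distrib, sum_normSq_dir L L le_rfl,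
    sum_normSq_dir N L (by omega)] at h2
  have hN' : (0:ℝ) < N := by exact_mod_cast hN
  have hL' : (L : ℝ) = 2 * N := by rw [hL]; push_cast; ring
  rw [hL'] at h2
  have h3 : 2 * (N:ℝ) * N * ‖∑ k ∈ range N, (c k : ℂ) * ee (k * θ)‖ ≤ 2 * (N:ℝ) * N * (3 / 2 * D) := by
    linarith
  exact le_of_mul_le_mul_left h3 (by positivity)

lemma ee_im (x : ℝ) : (ee x).im = Real.sin (2 * π * x) := by
  unfold ee; rw [mul_comm, Complex.exp_ofReal_mul_I_im]

/-- Rounding to signs with a uniform error bound. -/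
theorem round_poly (N : ℕ) (hN : 0 < N) (a : ℕ → ℝ) (ha : ∀ i, |a i| ≤ 1) (U : ℝ)
    (hU : ∑ i ∈ range N, (1 - |a i|) ≤ U) :
    ∃ e : ℕ → ℝ, (∀ i, e i = 1 ∨ e i = -1) ∧ ∀ θ : ℝ,
      ‖∑ k ∈ range N, (a k : ℂ) * ee (k * θ) - ∑ k ∈ range N, (e k : ℂ) * ee (k * θ)‖ ≤
        7200 * √√(U * (4 * N)) + 3 := by
  obtain ⟨e, he1, he2⟩ := round_rows (ι := ℕ) (ρ := Fin (2 * N) × Bool)
    (fun r k => if r.2 then (ee (k * (r.1 / (2 * N : ℕ)))).re else (ee (k * (r.1 / (2 * N : ℕ)))).im)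
    (fun r k => by
      split_ifs
      · exact (Complex.abs_re_le_norm _).trans (norm_ee _).le
      · exact (Complex.abs_im_le_norm _).trans (norm_ee _).le)
    (range N) (by simp; omega) a ha U hU
  have hc : (Fintype.card (Fin (2 * N) × Bool) : ℝ) = 4 * N := by simp; ring
  rw [hc] at he2
  refine ⟨e, he1, fun θ => ?_⟩
  have h1 := sample N hN (fun k => a k - e k) (2 * (2400 * √√(U * (4 * N)) + 1)) (fun j hj => by
    have h2 := he2 (⟨j, hj⟩, true)
    have h3 := he2 (⟨j, hj⟩, false)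
    simp only [if_true, Bool.false_eq_true, if_false] at h2 h3
    refine (Complex.norm_le_abs_re_add_abs_im _).trans ?_
    rw [Complex.re_sum, Complex.im_sum]
    simp only [Complex.re_ofReal_mul, Complex.im_ofReal_mul]
    simp_rw [mul_comm (a _ - e _)]
    linarith) θ
  rw [← Finset.sum_sub_distrib]
  simp_rw [← sub_mul, ← Complex.ofReal_sub]
  linarith

end Vale.Agent.P110
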