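import Vale.Agent.P110.Flat
import Vale.Agent.P110.Round

/-! Assembly of the construction. -/

namespace Vale.Agent.P110

open Real Finset

theorem flat {ρ : ℝ} (hρ : 0 < ρ) (hρ1 : ρ ≤ 1 / 10) : ∃ C N0 : ℝ, 0 ≤ C ∧ ∀ N : ℝ, N0 ≤ N → ∀ k0 : ℕ,
    ∃ ψ f : ℝ → ℝ, (∀ θ, HasDerivAt ψ (f θ) θ) ∧ (∀ x y, |f x - f y| ≤ C * N * |x - y|) ∧
      (∀ θ, k0 ≤ f θ ∧ f θ ≤ k0 + (1 - 2 * ρ ^ 2) * N) ∧ Function.Periodic (fun θ => ee (ψ θ)) 1 ∧
      ∀ k : ℕ, ∃ r : ℝ, fc (fun θ => ee (ψ θ)) k = r ∧ |√N * r| ≤ 1 + 7 * ρ := by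
  obtain ⟨η, hη⟩ : ∃ η, η = ρ ^ 2 := ⟨_, rfl⟩
  rw [← hη]
  have hη0 : 0 < η := by rw [hη]; positivity
  have hη1 : 10 * η ≤ ρ := by rw [hη]; nlinarith
  obtain ⟨Q, T, P, _, seg, s, L, φ, hQ, hQ2, hT, hseg, hP, hcov, hSB⟩ := teeth hη0 (by linarith)
  obtain ⟨G, gp, hP', t4⟩ := fill hQ2 hP
  have hQ' : (0:ℝ) < Q := by exact_mod_cast hQ
  have hT' : (0:ℝ) < T := by exact_mod_cast hT
  have hG : (G : ℝ) ≤ η * Q := by
    have h1 := hP'.card_le
    rw [Fintype.sum_sum_type] at h1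
    simp only [Sum.elim_inl, Sum.elim_inr, Finset.sum_const, Finset.card_univ, Fintype.card_fin,
      smul_eq_mul, mul_one] at h1
    have h2 : (2 * (∑ a, (L a : ℝ) + G)) ≤ Q := by exact_mod_cast h1
    have : (0:ℝ) ≤ G := by positivity
    linarith
  obtain ⟨C, N0, τ, amp, y, hC, hτ0, hτ1, ha0, ha1, ha2, h⟩ := coef hQ hP' t4
    (Sum.elim (fun _ => T) fun _ => G) (Sum.elim seg fun j => (j : ℕ)) (T + G)
    (by rintro (a | j); exacts [hseg a, j.2]) (by rintro (a | j) <;> simp)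
    (Sum.elim φ fun _ => 0) hη0 (by linarith) hρ (by linarith)
  refine ⟨C, N0, hC, fun N hN k0 => ?_⟩
  obtain ⟨ψ, f, h1, h2, h3, h4, h5⟩ := h N hN k0
  refine ⟨ψ, f, h1, h2, h3, h4, fun k => ?_⟩
  obtain ⟨r, hr1, hr2⟩ := h5 k
  refine ⟨r, hr1, ?_⟩
  rw [Fintype.sum_sum_type] at hr2
  simp only [Sum.elim_inl, Sum.elim_inr] at hr2
  rw [← Finset.mul_sum, ← Finset.mul_sum] at hr2
  have b1 := family_bound hSB amp (fun x => -(k - k0) * τ / Q + (1 - 3 * η) / T * N * (1 - 2 * τ) / Q * y x)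
    ha0 ha1 ha2 ((k - k0 - η * N) / ((1 - 3 * η) / T * N)) k
  have b2 := family_bound (segBound_fill Q G gp) amp
    (fun x => -(k - k0) * τ / Q + (1 - 3 * η) / G * N * (1 - 2 * τ) / Q * y x)
    ha0 ha1 ha2 ((k - k0 - η * N) / ((1 - 3 * η) / G * N)) k
  have hs : ∀ x : ℝ, 0 ≤ x → √((1 - 2 * τ) * x / (Q * (1 - 3 * η))) ≤ (1 + ρ) * √(x / Q) := by
    intro x hx
    rw [Real.sqrt_le_left (by positivity), mul_pow, Real.sq_sqrt (by positivity),
      div_le_iff₀ (mul_pos hQ' (by linarith))]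
    have e : (1 + ρ) ^ 2 * (x / Q) * (Q * (1 - 3 * η)) = ((1 + ρ) ^ 2 * (1 - 3 * η)) * x := by
      field_simp
    rw [e]
    refine mul_le_mul_of_nonneg_right ?_ hx
    nlinarith
  have c1 := mul_le_mul (hs T hT'.le) b1 (abs_nonneg _) (by positivity)
  have c2 := mul_le_mul (hs G (by positivity)) b2 (abs_nonneg _) (by positivity)
  have e1 : √(T / Q) * √(Q / T) = 1 := by
    rw [← Real.sqrt_mul (by positivity)]
    have : (T / Q * (Q / T) : ℝ) = 1 := by field_simp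
    rw [this, Real.sqrt_one]
  have e2 : √(G / Q) ≤ ρ := by
    rw [Real.sqrt_le_left hρ.le, div_le_iff₀ hQ', ← hη]; exact hG
  have e3 : (1 + ρ) * √(T / Q) * ((1 + η) * ((1 + η) * √(Q / T))) =
      (1 + ρ) * (1 + η) ^ 2 * (√(T / Q) * √(Q / T)) := by ring
  rw [e3, e1, mul_one] at c1
  have e4 : (1 + ρ) * √(G / Q) * ((1 + η) * 2) ≤ (1 + ρ) * ρ * ((1 + η) * 2) := by gcongr
  rw [← abs_of_nonneg (Real.sqrt_nonneg ((1 - 2 * τ) * T / (Q * (1 - 3 * η)))), ← abs_mul] at c1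
  rw [← abs_of_nonneg (Real.sqrt_nonneg ((1 - 2 * τ) * G / (Q * (1 - 3 * η)))), ← abs_mul] at c2
  have e5 : (1 + ρ) * (1 + η) ^ 2 ≤ 1 + 2 * ρ := by nlinarith
  have e6 : (1 + ρ) * ρ * ((1 + η) * 2) ≤ 3 * ρ := by nlinarith
  have d0 := abs_le.1 hr2
  have d1 := abs_le.1 c1
  have d2 := abs_le.1 c2
  rw [abs_le]; constructor <;> linarith

theorem almost {ρ : ℝ} (hρ : 0 < ρ) (hρ1 : ρ ≤ 1 / 10) : ∃ N0 : ℕ, ∀ N : ℕ, N0 ≤ N →
    ∃ a : ℕ → ℝ, (∀ k, |a k| ≤ 1) ∧ ∀ θ : ℝ, (1 - 8 * ρ) * √N ≤ ‖∑ k ∈ range N, (a k : ℂ) * ee (k * θ)‖ ∧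
      ‖∑ k ∈ range N, (a k : ℂ) * ee (k * θ)‖ ≤ (1 + ρ) * √N := by
  obtain ⟨C, N0, hC, h⟩ := flat hρ hρ1
  obtain ⟨η, hη⟩ : ∃ η, η = ρ ^ 2 := ⟨_, rfl⟩
  rw [← hη] at h
  have hη0 : 0 < η := by rw [hη]; positivity
  have hη1 : η ≤ 1 / 100 := by rw [hη]; nlinarith
  obtain ⟨R, hR⟩ : ∃ R, R = 4 * π / (η * ρ) := ⟨_, rfl⟩
  have hR0 : 0 < R := by rw [hR]; positivity
  obtain ⟨N1, hN1⟩ := exists_nat_ge (max N0 (2 / η + 8 * π * (C * R ^ 2 + R) / (η * ρ)))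
  refine ⟨N1, fun N hN => ?_⟩
  have hN' : (N1 : ℝ) ≤ N := by exact_mod_cast hN
  have hNa := (le_max_left _ _).trans (hN1.trans hN')
  have hNb := (le_max_right _ _).trans (hN1.trans hN')
  have p1 : 0 < 2 / η := by positivity
  have p2 : 0 < 8 * π * (C * R ^ 2 + R) / (η * ρ) := by positivity
  have hN0 : (0:ℝ) < N := by linarith
  have hN2 : 2 ≤ η * N := by
    have : 2 / η ≤ N := by linarith
    rw [div_le_iff₀ hη0] at this; linarith
  set W := ⌊η * N⌋₊ with hW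
  have hW1 : (W : ℝ) ≤ η * N := Nat.floor_le (by positivity)
  have hW2 : η * N / 2 ≤ W := by have := Nat.lt_floor_add_one (η * N); linarith
  have hW0 : (0:ℝ) < W := by linarith
  obtain ⟨ψ, f, h1, h2, h3, h4, h5⟩ := h N hNa W
  have hψc : Continuous ψ := continuous_iff_continuousAt.2 fun u => (h1 u).continuousAt
  obtain ⟨m, hm, hm2⟩ := trunc N W (by exact_mod_cast hW0) (by exact_mod_cast (by nlinarith : (W:ℝ) ≤ N))
    (fun θ => ee (ψ θ)) (by fun_prop) h4 (fun _ => norm_ee _) (C * N) (R / N) (by positivity)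
    (by positivity) (fun θ => by
      have h6 := h3 θ
      have h7 : 0 ≤ f θ := hW0.le.trans h6.1
      have h8 := Nat.floor_le h7
      have h9 := Nat.lt_floor_add_one (f θ)
      refine ⟨⌊f θ⌋₊, ?_, ?_, tone (by positivity) h1 h2 θ _ (abs_le.2 ⟨by linarith, by linarith⟩)⟩
      · exact_mod_cast (by linarith : (W:ℝ) ≤ ⌊f θ⌋₊ + 1)
      · exact_mod_cast (by linarith : (⌊f θ⌋₊ : ℝ) + W ≤ N))
  have herr : 2 * π * (C * N * (R / N) ^ 2 + R / N) * N / W + π / (W * (R / N)) ≤ ρ := by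
    have e1 : 2 * π * (C * N * (R / N) ^ 2 + R / N) * N / W = 2 * π * (C * R ^ 2 + R) / W := by
      field_simp
    have b1 : 2 * π * (C * R ^ 2 + R) / W ≤ ρ / 2 := by
      have : 8 * π * (C * R ^ 2 + R) / (η * ρ) ≤ N := by linarith
      rw [div_le_iff₀ (by positivity)] at this
      rw [div_le_iff₀ hW0]
      have := mul_le_mul_of_nonneg_left hW2 hρ.le
      linarith
    have b2 : π / (W * (R / N)) ≤ ρ / 2 := by
      rw [div_le_iff₀ (by positivity)]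
      have h6 : η * N / 2 * (R / N) ≤ W * (R / N) := mul_le_mul_of_nonneg_right hW2 (by positivity)
      have h7 : ρ / 2 * (η * N / 2 * (R / N)) = π := by rw [hR]; field_simp; ring
      have := mul_le_mul_of_nonneg_left h6 (by positivity : 0 ≤ ρ / 2)
      linarith
    linarith
  choose r hr1 hr2 using h5
  have hd : 0 < 1 + 7 * ρ := by linarith
  refine ⟨fun k => m k * (√N * r k) / (1 + 7 * ρ), fun k => ?_, fun θ => ?_⟩
  · rw [abs_div, abs_of_pos hd, div_le_one hd, abs_mul, abs_of_nonneg (hm k).1]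
    calc _ ≤ 1 * (1 + 7 * ρ) := mul_le_mul (hm k).2 (hr2 k) (abs_nonneg _) zero_le_one
      _ = _ := one_mul _
  have e1 : ∑ k ∈ range N, ((m k * (√N * r k) / (1 + 7 * ρ) : ℝ) : ℂ) * ee (k * θ) =
      ((√N / (1 + 7 * ρ) : ℝ) : ℂ) * ∑ k ∈ range N, m k * fc (fun θ => ee (ψ θ)) k * ee (k * θ) := by
    rw [Finset.mul_sum]
    refine Finset.sum_congr rfl fun k _ => ?_
    rw [hr1]; push_cast; ring
  rw [e1, norm_mul, Complex.norm_real, Real.norm_eq_abs, abs_of_nonneg (by positivity)]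
  have h6 := (hm2 θ).trans herr
  have h7 := abs_le.1 ((abs_norm_sub_norm_le _ _).trans h6)
  rw [norm_ee] at h7
  have hs := Real.sqrt_nonneg N
  generalize ‖∑ k ∈ range N, m k * fc (fun θ => ee (ψ θ)) k * ee (k * θ)‖ = x at h7
  rw [div_mul_eq_mul_div, le_div_iff₀ hd, div_le_iff₀ hd]
  constructor
  · have := mul_le_mul_of_nonneg_left (by nlinarith : (1 - 8 * ρ) * (1 + 7 * ρ) ≤ x) hs
    linarith
  · have := mul_le_mul_of_nonneg_left (by nlinarith : x ≤ (1 + ρ) * (1 + 7 * ρ)) hs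
    linarith

theorem ultraflat {c : ℝ} (hc : 0 < c) : ∃ N0 : ℕ, ∀ N : ℕ, N0 ≤ N →
    ∃ e : ℕ → ℝ, (∀ k, e k = 1 ∨ e k = -1) ∧
      ∀ θ : ℝ, (1 - c) * √N ≤ ‖∑ k ∈ range N, (e k : ℂ) * ee (k * θ)‖ ∧
      ‖∑ k ∈ range N, (e k : ℂ) * ee (k * θ)‖ ≤ (1 + c) * √N := by
  set ρ : ℝ := min (min (1 / 16) (c / 32)) ((c / 28800) ^ 4 / 64) with hρ
  have hρ0 : 0 < ρ := lt_min (lt_min (by norm_num) (by positivity)) (by positivity)
  have hρ1 : ρ ≤ 1 / 16 := (min_le_left _ _).trans (min_le_left _ _)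
  have hρ2 : ρ ≤ c / 32 := (min_le_left _ _).trans (min_le_right _ _)
  have hρ3 : ρ ≤ (c / 28800) ^ 4 / 64 := min_le_right _ _
  obtain ⟨N0, h⟩ := almost hρ0 (by linarith)
  obtain ⟨N1, hN1⟩ := exists_nat_ge ((12 / c) ^ 2)
  refine ⟨max N0 N1, fun N hN => ?_⟩
  obtain ⟨a, ha1, ha2⟩ := h N (le_of_max_le_left hN)
  have hN' : (12 / c) ^ 2 ≤ N := hN1.trans (by exact_mod_cast le_of_max_le_right hN)
  have hN0 : (0:ℝ) < N := lt_of_lt_of_le (by positivity) hN'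
  have hs : 12 / c ≤ √N := Real.le_sqrt_of_sq_le hN'
  have hs2 : √N ^ 2 = (N:ℝ) := Real.sq_sqrt hN0.le
  have hPar : (1 - 16 * ρ) * N ≤ ∑ k ∈ range N, a k ^ 2 := by
    rw [← integral_normSq N a 0]
    have := intervalIntegral.integral_mono_on (μ := MeasureTheory.volume) (a := 0) (b := 0 + 1)
      (f := fun _ => (1 - 16 * ρ) * N)
      (g := fun t => ‖∑ k ∈ range N, (a k : ℂ) * ee (k * t)‖ ^ 2) (by norm_num) (by simp)
      (by apply Continuous.intervalIntegrable; fun_prop) fun t _ => by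
        have h1 := pow_le_pow_left₀ (mul_nonneg (by linarith) (Real.sqrt_nonneg _)) (ha2 t).1 2
        rw [mul_pow, hs2] at h1
        refine le_trans (mul_le_mul_of_nonneg_right ?_ hN0.le) h1
        nlinarith
    simpa using this
  obtain ⟨e, he1, he2⟩ := round_poly N (by exact_mod_cast hN0) a ha1 (16 * ρ * N) (by
    have h1 : ∑ k ∈ range N, (1 - |a k|) ≤ ∑ k ∈ range N, (1 - a k ^ 2) :=
      Finset.sum_le_sum fun k _ => by
        have := ha1 k; have := abs_nonneg (a k)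
        rw [← sq_abs (a k)]; nlinarith
    rw [Finset.sum_sub_distrib (fun _ => (1:ℝ)) fun k => a k ^ 2] at h1
    simp only [Finset.sum_const, Finset.card_range, nsmul_eq_mul, mul_one] at h1
    linarith)
  refine ⟨e, he1, fun θ => ?_⟩
  have h1 : √√(16 * ρ * N * (4 * N)) ≤ c / 28800 * √N := by
    rw [Real.sqrt_le_left (by positivity), mul_pow, hs2, Real.sqrt_le_left (by positivity)]
    have : 16 * ρ * N * (4 * N) = 64 * ρ * N ^ 2 := by ring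
    rw [this, mul_pow, ← pow_mul]
    exact mul_le_mul_of_nonneg_right (by linarith) (by positivity)
  have h2 : 3 ≤ c / 4 * √N := by rw [div_le_iff₀ hc] at hs; linarith
  have h3 := abs_le.1 ((abs_norm_sub_norm_le _ _).trans (he2 θ))
  have h4 := ha2 θ
  have h5 := mul_le_mul_of_nonneg_right hρ2 (Real.sqrt_nonneg N)
  have h6 := mul_nonneg hc.le (Real.sqrt_nonneg N)
  constructor <;> linarith

end Vale.Agent.P110
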