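import Vale.Agent.P110.Basic

/-! Oscillatory integrals: first derivative test and the Fresnel bound. -/

namespace Vale.Agent.P110

open Complex Real Finset MeasureTheory intervalIntegral Set

/-- First derivative test. -/
lemma fdt {φ h h' : ℝ → ℝ} {a b m : ℝ} (hab : a ≤ b) (hm : 0 < m)
    (hφ : ∀ u ∈ Icc a b, HasDerivAt φ (h u) u) (hh : ∀ u ∈ Icc a b, HasDerivAt h (h' u) u)
    (hc : ContinuousOn h' (Icc a b)) (hpos : ∀ u ∈ Icc a b, 0 ≤ h' u)
    (hmh : ∀ u ∈ Icc a b, m ≤ |h u|) : ‖∫ u in a..b, ee (φ u)‖ ≤ 1 / m := by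
  have hne : ∀ u ∈ Icc a b, h u ≠ 0 := fun u hu h0 => by
    have := hmh u hu; rw [h0, abs_zero] at this; linarith
  have hφc : ContinuousOn φ (Icc a b) := fun u hu => (hφ u hu).continuousAt.continuousWithinAt
  have hhc : ContinuousOn h (Icc a b) := fun u hu => (hh u hu).continuousAt.continuousWithinAt
  have hpi : (π : ℂ) ≠ 0 := by exact_mod_cast Real.pi_ne_zero
  set c : ℂ := Complex.I * (2 * π) with hcdef
  have hc0 : c ≠ 0 := mul_ne_zero Complex.I_ne_zero (mul_ne_zero two_ne_zero hpi)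
  have hcn : ‖c‖ = 2 * π := by
    rw [hcdef, norm_mul, Complex.norm_I, one_mul, norm_mul, Complex.norm_real, Real.norm_eq_abs,
      abs_of_pos Real.pi_pos]; simp
  have hG : ∀ u ∈ uIcc a b, HasDerivAt (fun u => ee (φ u) / (c * (h u : ℂ)))
      (ee (φ u) - ee (φ u) * ((h' u / h u ^ 2 : ℝ) : ℂ) / c) u := by
    intro u hu
    rw [uIcc_of_le hab] at hu
    have h1 := HasDerivAt.ee' (hφ u hu)
    have h2 := ((hh u hu).ofReal_comp).const_mul c
    have hu0 : (h u : ℂ) ≠ 0 := by exact_mod_cast hne u hu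
    have h3 := h1.div h2 (mul_ne_zero hc0 hu0)
    refine h3.congr_deriv ?_
    rw [← hcdef]; push_cast; field_simp
  have hq : ContinuousOn (fun u => h' u / h u ^ 2) (Icc a b) :=
    hc.div (hhc.pow 2) fun u hu => pow_ne_zero 2 (hne u hu)
  have he : ContinuousOn (fun u => ee (φ u)) (Icc a b) := continuous_ee.comp_continuousOn hφc
  have hi1 : IntervalIntegrable (fun u => ee (φ u)) volume a b :=
    ContinuousOn.intervalIntegrable_of_Icc hab he
  have hi2 : IntervalIntegrable (fun u => ee (φ u) * ((h' u / h u ^ 2 : ℝ) : ℂ) / c) volume a b :=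
    ContinuousOn.intervalIntegrable_of_Icc hab
      ((he.mul (Complex.continuous_ofReal.comp_continuousOn hq)).div_const c)
  have hI := integral_eq_sub_of_hasDerivAt hG (hi1.sub hi2)
  rw [intervalIntegral.integral_sub hi1 hi2] at hI
  have hR : ∫ u in a..b, h' u / h u ^ 2 = -(h b)⁻¹ - -(h a)⁻¹ := by
    refine integral_eq_sub_of_hasDerivAt (f := fun u => -(h u)⁻¹) (fun u hu => ?_)
      (ContinuousOn.intervalIntegrable_of_Icc hab hq)
    rw [uIcc_of_le hab] at hu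
    refine (((hh u hu).inv (hne u hu)).neg).congr_deriv ?_
    ring
  have hinv : ∀ u ∈ Icc a b, |(h u)⁻¹| ≤ 1 / m := fun u hu => by
    rw [abs_inv, ← one_div]; exact one_div_le_one_div_of_le hm (hmh u hu)
  have hN2 : ‖∫ u in a..b, ee (φ u) * ((h' u / h u ^ 2 : ℝ) : ℂ) / c‖ ≤
      ∫ u in a..b, h' u / h u ^ 2 / (2 * π) := by
    refine norm_integral_le_of_norm_le hab (Filter.Eventually.of_forall fun u hu => ?_)
      ((ContinuousOn.intervalIntegrable_of_Icc hab hq).div_const _)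
    have hu' : u ∈ Icc a b := Ioc_subset_Icc_self hu
    rw [norm_div, norm_mul, norm_ee, one_mul, hcn, Complex.norm_real, Real.norm_eq_abs,
      abs_of_nonneg (div_nonneg (hpos u hu') (sq_nonneg _))]
  rw [intervalIntegral.integral_div (2 * π) (fun u => h' u / h u ^ 2), hR] at hN2
  have hGn : ∀ u ∈ Icc a b, ‖ee (φ u) / (c * (h u : ℂ))‖ ≤ 1 / m / (2 * π) := by
    intro u hu
    rw [norm_div, norm_ee, norm_mul, hcn, Complex.norm_real, Real.norm_eq_abs, div_div]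
    refine one_div_le_one_div_of_le (by positivity) ?_
    have := hmh u hu
    nlinarith [Real.pi_pos]
  have ha : a ∈ Icc a b := left_mem_Icc.2 hab
  have hb : b ∈ Icc a b := right_mem_Icc.2 hab
  have e1 : ∫ u in a..b, ee (φ u) = ee (φ b) / (c * (h b : ℂ)) - ee (φ a) / (c * (h a : ℂ)) +
      ∫ u in a..b, ee (φ u) * ((h' u / h u ^ 2 : ℝ) : ℂ) / c := by rw [← hI]; ring
  rw [e1]
  have h4 : (-(h b)⁻¹ - -(h a)⁻¹) / (2 * π) ≤ (1 / m + 1 / m) / (2 * π) := by
    refine div_le_div_of_nonneg_right ?_ (by positivity)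
    have := abs_le.1 (hinv a ha); have := abs_le.1 (hinv b hb); linarith
  have h5 : 4 * (1 / m / (2 * π)) ≤ 1 / m := by
    have : 1 / m / (2 * π) ≤ 1 / m / 4 :=
      div_le_div_of_nonneg_left (by positivity) (by norm_num) (by linarith [Real.pi_gt_three])
    linarith
  have h6 := norm_add_le (ee (φ b) / (c * (h b : ℂ)) - ee (φ a) / (c * (h a : ℂ)))
    (∫ u in a..b, ee (φ u) * ((h' u / h u ^ 2 : ℝ) : ℂ) / c)
  have h7 := norm_sub_le (ee (φ b) / (c * (h b : ℂ))) (ee (φ a) / (c * (h a : ℂ)))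
  have h8 : (1 / m + 1 / m) / (2 * π) = 2 * (1 / m / (2 * π)) := by ring
  linarith [hGn a ha, hGn b hb]

lemma gauss_tail {b : ℂ} (hb : 0 < b.re) {R S : ℝ} (hR : 0 < R) (hRS : R ≤ S) :
    ‖∫ v in R..S, Complex.exp (-b * (v : ℂ) ^ 2)‖ ≤ 1 / (‖b‖ * R) := by
  have hb0 : b ≠ 0 := fun h => by rw [h] at hb; simp at hb
  have hbn : 0 < ‖b‖ := norm_pos_iff.2 hb0
  have hn : ∀ v : ℝ, ‖Complex.exp (-b * (v : ℂ) ^ 2)‖ ≤ 1 := by
    intro v
    rw [Complex.norm_exp, Real.exp_le_one_iff]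
    have : (-b * (v : ℂ) ^ 2).re = -(b.re * v ^ 2) := by
      rw [← Complex.ofReal_pow, Complex.re_mul_ofReal]; simp
    rw [this]; have := sq_nonneg v; nlinarith
  have hG : ∀ v ∈ uIcc R S, HasDerivAt (fun v : ℝ => -Complex.exp (-b * (v : ℂ) ^ 2) / (2 * b * v))
      (Complex.exp (-b * (v : ℂ) ^ 2) + Complex.exp (-b * (v : ℂ) ^ 2) / (2 * b * (v : ℂ) ^ 2)) v := by
    intro v hv
    rw [uIcc_of_le hRS] at hv
    have hv0 : (v : ℂ) ≠ 0 := by exact_mod_cast (hR.trans_le hv.1).ne'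
    have h0 : HasDerivAt (fun v : ℝ => (v : ℂ)) 1 v := (hasDerivAt_id v).ofReal_comp
    have h1 := (((h0.pow 2).const_mul (-b)).cexp).neg
    have h2 := h0.const_mul (2 * b)
    have h3 := h1.div h2 (mul_ne_zero (mul_ne_zero two_ne_zero hb0) hv0)
    refine h3.congr_deriv ?_
    simp only [Pi.pow_apply, Pi.neg_apply]
    field_simp; ring
  have hc1 : Continuous fun v : ℝ => Complex.exp (-b * (v : ℂ) ^ 2) := by fun_prop
  have hc2 : ContinuousOn (fun v : ℝ => Complex.exp (-b * (v : ℂ) ^ 2) / (2 * b * (v : ℂ) ^ 2))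
      (Icc R S) := by
    refine hc1.continuousOn.div (by fun_prop) fun v hv => ?_
    have hv0 : (v : ℂ) ≠ 0 := by exact_mod_cast (hR.trans_le hv.1).ne'
    exact mul_ne_zero (mul_ne_zero two_ne_zero hb0) (pow_ne_zero 2 hv0)
  have hi1 := hc1.intervalIntegrable (μ := volume) R S
  have hi2 := ContinuousOn.intervalIntegrable_of_Icc (μ := volume) hRS hc2
  have hI := integral_eq_sub_of_hasDerivAt hG (hi1.add hi2)
  rw [intervalIntegral.integral_add hi1 hi2] at hI
  have hq : ContinuousOn (fun v : ℝ => 1 / (2 * ‖b‖ * v ^ 2)) (Icc R S) := by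
    refine continuousOn_const.div (by fun_prop) fun v hv => ?_
    have := hR.trans_le hv.1
    positivity
  have hR2 : ∫ v in R..S, 1 / (2 * ‖b‖ * v ^ 2) = -(1 / (2 * ‖b‖ * S)) - -(1 / (2 * ‖b‖ * R)) := by
    refine integral_eq_sub_of_hasDerivAt (f := fun v => -(1 / (2 * ‖b‖ * v))) (fun v hv => ?_)
      (ContinuousOn.intervalIntegrable_of_Icc hRS hq)
    rw [uIcc_of_le hRS] at hv
    have hv0 := hR.trans_le hv.1
    have := (((hasDerivAt_const v (1:ℝ)).div ((hasDerivAt_id v).const_mul (2 * ‖b‖))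
      (by simp only [id]; positivity))).neg
    refine this.congr_deriv ?_
    simp only [id]; field_simp; ring
  have hN2 : ‖∫ v in R..S, Complex.exp (-b * (v : ℂ) ^ 2) / (2 * b * (v : ℂ) ^ 2)‖ ≤
      ∫ v in R..S, 1 / (2 * ‖b‖ * v ^ 2) := by
    refine norm_integral_le_of_norm_le hRS (Filter.Eventually.of_forall fun v hv => ?_)
      (ContinuousOn.intervalIntegrable_of_Icc hRS hq)
    have hv0 := hR.trans hv.1
    rw [norm_div, norm_mul, norm_mul, norm_pow, Complex.norm_real, Real.norm_eq_abs, sq_abs]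
    have : ‖(2 : ℂ)‖ = 2 := by simp
    rw [this]
    exact div_le_div_of_nonneg_right (hn v) (by positivity)
  have hGn : ∀ v : ℝ, 0 < v → ‖-Complex.exp (-b * (v : ℂ) ^ 2) / (2 * b * v)‖ ≤ 1 / (2 * ‖b‖ * v) := by
    intro v hv
    rw [norm_div, norm_neg, norm_mul, norm_mul, Complex.norm_real, Real.norm_eq_abs, abs_of_pos hv]
    have : ‖(2 : ℂ)‖ = 2 := by simp
    rw [this]
    exact div_le_div_of_nonneg_right (hn v) (by positivity)
  rw [hR2] at hN2
  have e1 : ∫ v in R..S, Complex.exp (-b * (v : ℂ) ^ 2) =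
      (-Complex.exp (-b * (S : ℂ) ^ 2) / (2 * b * S) - -Complex.exp (-b * (R : ℂ) ^ 2) / (2 * b * R)) -
      ∫ v in R..S, Complex.exp (-b * (v : ℂ) ^ 2) / (2 * b * (v : ℂ) ^ 2) := by rw [← hI]; ring
  rw [e1]
  have h6 := norm_sub_le (-Complex.exp (-b * (S : ℂ) ^ 2) / (2 * b * S) -
    -Complex.exp (-b * (R : ℂ) ^ 2) / (2 * b * R))
    (∫ v in R..S, Complex.exp (-b * (v : ℂ) ^ 2) / (2 * b * (v : ℂ) ^ 2))
  have h7 := norm_sub_le (-Complex.exp (-b * (S : ℂ) ^ 2) / (2 * b * S))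
    (-Complex.exp (-b * (R : ℂ) ^ 2) / (2 * b * R))
  have h8 : 1 / (‖b‖ * R) = 2 * (1 / (2 * ‖b‖ * R)) := by field_simp
  linarith [hGn S (hR.trans_le hRS), hGn R hR]

lemma gauss_mid {b : ℂ} (hb : 0 < b.re) (hbn : π ≤ ‖b‖) {R : ℝ} (hR : 0 < R) :
    ‖∫ v in -R..R, Complex.exp (-b * (v : ℂ) ^ 2)‖ ≤ 1 + 1 / R := by
  have hc1 : Continuous fun v : ℝ => Complex.exp (-b * (v : ℂ) ^ 2) := by fun_prop
  have hI : ‖∫ v : ℝ, Complex.exp (-b * (v : ℂ) ^ 2)‖ ≤ 1 := by
    have h1 := integral_gaussian_sq_complex hb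
    have h2 : ‖∫ v : ℝ, Complex.exp (-b * (v : ℂ) ^ 2)‖ ^ 2 ≤ 1 := by
      rw [← norm_pow, h1, norm_div, Complex.norm_real, Real.norm_eq_abs, abs_of_pos Real.pi_pos]
      exact div_le_one_of_le₀ hbn (norm_nonneg _)
    nlinarith [norm_nonneg (∫ v : ℝ, Complex.exp (-b * (v : ℂ) ^ 2))]
  have hT := (intervalIntegral_tendsto_integral (integrable_cexp_neg_mul_sq hb)
    Filter.tendsto_neg_atTop_atBot Filter.tendsto_id).norm
  have htail : 2 * (1 / (‖b‖ * R)) ≤ 1 / R := by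
    have : 1 / (‖b‖ * R) ≤ 1 / (2 * R) :=
      one_div_le_one_div_of_le (by positivity) (by nlinarith [Real.pi_gt_three])
    have h2 : 1 / (2 * R) = 1 / R / 2 := by field_simp
    linarith
  have hev : ∀ᶠ S in Filter.atTop, ‖∫ v in -R..R, Complex.exp (-b * (v : ℂ) ^ 2)‖ - 1 / R ≤
      ‖∫ v in -S..id S, Complex.exp (-b * (v : ℂ) ^ 2)‖ := by
    filter_upwards [Filter.eventually_ge_atTop R] with S hS
    have h1 := gauss_tail hb hR hS
    have h2 : ∫ v in -S..-R, Complex.exp (-b * (v : ℂ) ^ 2) =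
        ∫ v in R..S, Complex.exp (-b * (v : ℂ) ^ 2) := by
      rw [← intervalIntegral.integral_comp_neg]; simp
    have h3 := intervalIntegral.integral_add_adjacent_intervals (hc1.intervalIntegrable (μ := volume) (-S) (-R))
      (hc1.intervalIntegrable (-R) R)
    have h4 := intervalIntegral.integral_add_adjacent_intervals (hc1.intervalIntegrable (μ := volume) (-S) R)
      (hc1.intervalIntegrable R S)
    have e : ∫ v in -R..R, Complex.exp (-b * (v : ℂ) ^ 2) =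
        (∫ v in -S..S, Complex.exp (-b * (v : ℂ) ^ 2)) -
        2 * ∫ v in R..S, Complex.exp (-b * (v : ℂ) ^ 2) := by
      rw [← h4, ← h3, h2]; ring
    rw [e, id]
    have h5 := norm_sub_le (∫ v in -S..S, Complex.exp (-b * (v : ℂ) ^ 2))
      (2 * ∫ v in R..S, Complex.exp (-b * (v : ℂ) ^ 2))
    rw [norm_mul] at h5
    have : ‖(2 : ℂ)‖ = 2 := by simp
    rw [this] at h5
    linarith
  have := ge_of_tendsto hT hev
  linarith

/-- The Fresnel bound. -/
lemma fresnel {R : ℝ} (hR : 0 < R) : ‖∫ v in -R..R, ee (v ^ 2 / 2)‖ ≤ 1 + 1 / R := by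
  refine le_of_forall_pos_le_add fun κ hκ => ?_
  set δ : ℝ := κ / (2 * R ^ 3) with hδ
  have hδ0 : 0 < δ := by positivity
  set b : ℂ := (δ : ℂ) - π * Complex.I with hb
  have hbre : 0 < b.re := by simp [hb, hδ0]
  have hbn : π ≤ ‖b‖ := by
    have := Complex.abs_im_le_norm b
    have h2 : b.im = -π := by simp [hb]
    rwa [h2, abs_neg, abs_of_pos Real.pi_pos] at this
  have h1 := gauss_mid hbre hbn hR
  have hc1 : Continuous fun v : ℝ => Complex.exp (-b * (v : ℂ) ^ 2) := by fun_prop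
  have hc2 : Continuous fun v : ℝ => ee (v ^ 2 / 2) := by fun_prop
  have h2 : ‖∫ v in -R..R, (ee (v ^ 2 / 2) - Complex.exp (-b * (v : ℂ) ^ 2))‖ ≤
      δ * R ^ 2 * |R - -R| := by
    refine norm_integral_le_of_norm_le_const fun v hv => ?_
    rw [uIoc_of_le (by linarith)] at hv
    have e : Complex.exp (-b * (v : ℂ) ^ 2) = ee (v ^ 2 / 2) * (Real.exp (-(δ * v ^ 2)) : ℝ) := by
      unfold ee
      rw [Complex.ofReal_exp, ← Complex.exp_add]; congr 1
      rw [hb]; push_cast; ring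
    have e2 : ee (v ^ 2 / 2) - ee (v ^ 2 / 2) * (Real.exp (-(δ * v ^ 2)) : ℝ) =
        ee (v ^ 2 / 2) * ((1 - Real.exp (-(δ * v ^ 2)) : ℝ) : ℂ) := by push_cast; ring
    rw [e, e2, norm_mul, norm_ee, one_mul, Complex.norm_real, Real.norm_eq_abs]
    have h3 := Real.add_one_le_exp (-(δ * v ^ 2))
    have h4 : Real.exp (-(δ * v ^ 2)) ≤ 1 := Real.exp_le_one_iff.2 (by have := sq_nonneg v; nlinarith)
    have h5 : v ^ 2 ≤ R ^ 2 := sq_le_sq' hv.1.le hv.2
    rw [abs_of_nonneg (by linarith)]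
    nlinarith
  rw [intervalIntegral.integral_sub (hc2.intervalIntegrable _ _) (hc1.intervalIntegrable _ _)] at h2
  have h3 : δ * R ^ 2 * |R - -R| = κ := by
    rw [abs_of_pos (by linarith), hδ]; field_simp; ring
  have h4 := norm_sub_norm_le (∫ v in -R..R, ee (v ^ 2 / 2))
    (∫ v in -R..R, Complex.exp (-b * (v : ℂ) ^ 2))
  linarith

lemma grow {f f' : ℝ → ℝ} {u v c : ℝ} (huv : u ≤ v) (hf : ∀ w ∈ Icc u v, HasDerivAt f (f' w) w)
    (hc : ∀ w ∈ Icc u v, c ≤ f' w) : c * (v - u) ≤ f v - f u := by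
  rcases huv.eq_or_lt with rfl | hlt
  · simp
  obtain ⟨w, hw, hw'⟩ := exists_hasDerivAt_eq_slope f f' hlt
    (fun w hw => (hf w hw).continuousAt.continuousWithinAt) (fun w hw => hf w (Ioo_subset_Icc_self hw))
  have := hc w (Ioo_subset_Icc_self hw)
  rw [hw', le_div_iff₀ (by linarith)] at this
  exact this

lemma mvt_abs {f f' : ℝ → ℝ} {u v C : ℝ} (hf : ∀ w ∈ uIcc u v, HasDerivAt f (f' w) w)
    (hc : ∀ w ∈ uIcc u v, |f' w| ≤ C) : |f v - f u| ≤ C * |v - u| := by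
  have := (convex_uIcc u v).norm_image_sub_le_of_norm_hasDerivWithin_le (f := f) (f' := f') (C := C)
    (fun w hw => (hf w hw).hasDerivWithinAt) (fun w hw => hc w hw) left_mem_uIcc right_mem_uIcc
  simpa using this

end Vale.Agent.P110
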