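import Vale.Agent.P110.Profile

/-! A single piece: waiting, entry connector, proper sweep, exit connector, waiting. -/

namespace Vale.Agent.P110

open Complex Real MeasureTheory intervalIntegral Set

/-- The sweep integral. -/
noncomputable def JJ (Y : ℝ → ℝ) (lam x : ℝ) : ℂ := ∫ w in (0:ℝ)..1, ee (lam * (Y w - x * w))

/-- Properties of the frequency bump of a piece. -/
structure Bump (b B : ℝ → ℝ) (ℓ Λ Am : ℝ) : Prop where
  hB : ∀ u, HasDerivAt B (b u) u
  lip : ∀ u v, |b u - b v| ≤ Λ * |u - v|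
  nonneg : ∀ u, 0 ≤ b u
  le : ∀ u, b u ≤ Am
  bout : ∀ u, u ≤ 0 ∨ ℓ ≤ u → b u = 0
  Bl : ∀ u, u ≤ 0 → B u = 0
  Br : ∃ n : ℤ, ∀ u, ℓ ≤ u → B u = n

lemma sweep_int (Y ph : ℝ → ℝ) {x g A c κ : ℝ} (hg : 0 < g) (hA : A ≠ 0)
    (h : ∀ u ∈ Icc x (x + g), ph u = c + A * g * Y ((u - x) / g) - κ * (u - x)) :
    ∫ u in x..x + g, ee (ph u) = ee c * g * JJ Y (A * g) (κ / A) := by
  have h1 := intervalIntegral.integral_comp_mul_add (a := 0) (b := 1) (fun u => ee (ph u)) hg.ne' x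
  rw [mul_zero, zero_add, mul_one, add_comm g x] at h1
  have h2 : ∫ w in (0:ℝ)..1, ee (ph (g * w + x)) = ee c * JJ Y (A * g) (κ / A) := by
    unfold JJ
    rw [← intervalIntegral.integral_const_mul]
    refine intervalIntegral.integral_congr fun w hw => ?_
    rw [uIcc_of_le zero_le_one] at hw
    rw [h _ ⟨by nlinarith [hw.1], by nlinarith [hw.2]⟩, ← ee_add]
    have : (g * w + x - x) / g = w := by field_simp; ring
    rw [this]; congr 1; field_simp; ring
  rw [h2, Complex.real_smul] at h1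
  have hg' : (g : ℂ) ≠ 0 := by exact_mod_cast hg.ne'
  push_cast at h1
  field_simp at h1
  rw [← h1]; ring

lemma JJ_neg (Y : ℝ → ℝ) (lam x : ℝ) : ‖JJ Y (-lam) x‖ = ‖JJ Y lam x‖ := by
  unfold JJ
  simp_rw [neg_mul, ee_neg]
  rw [intervalIntegral.intervalIntegral_conj, Complex.norm_conj]

variable {ε ζ : ℝ} {Y Z : ℝ → ℝ} {H ϑ l0 : ℝ}

lemma Swp.conn (S : Swp ε ζ Y Z H ϑ l0) {A A1 g g' : ℝ} (hA1 : 0 < A1) (hA : A1 ≤ A) (hg : 0 < g)
    (h1 : g / 2 ≤ g') (h2 : g' ≤ g) (hl : l0 ≤ A1 * g / 2) (x : ℝ) :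
    g' * ‖JJ Y (A * g') x‖ ≤ (1 + ε + ζ) * √(g / A1) := by
  have hg' : 0 < g' := by linarith
  have hA0 : 0 < A := by linarith
  obtain ⟨amp, y, ha0, ha1, _, h⟩ := S.main x
  have h3 := h (A * g') (by nlinarith)
  have h4 : ‖(√(A * g') : ℂ) * JJ Y (A * g') x‖ ≤ 1 + ε + ζ := by
    have := norm_le_norm_add_norm_sub' ((√(A * g') : ℂ) * JJ Y (A * g') x)
      (amp * ee (ϑ + A * g' * y))
    rw [norm_mul (amp : ℂ), norm_ee, Complex.norm_real, Real.norm_eq_abs, abs_of_nonneg ha0] at this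
    unfold JJ at this ⊢
    linarith
  rw [norm_mul, Complex.norm_real, Real.norm_eq_abs, abs_of_nonneg (Real.sqrt_nonneg _)] at h4
  have h5 : g' ≤ √(g / A1) * √(A * g') := by
    rw [← Real.sqrt_mul (by positivity)]
    refine Real.le_sqrt_of_sq_le ?_
    have h6 : g / A1 * (A * g') = g * g' * (A / A1) := by ring
    have h7 : 1 ≤ A / A1 := (one_le_div hA1).2 hA
    rw [h6]; nlinarith [mul_pos hg hg']
  calc g' * ‖JJ Y (A * g') x‖ ≤ √(g / A1) * √(A * g') * ‖JJ Y (A * g') x‖ :=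
        mul_le_mul_of_nonneg_right h5 (norm_nonneg _)
    _ = √(g / A1) * (√(A * g') * ‖JJ Y (A * g') x‖) := by ring
    _ ≤ √(g / A1) * (1 + ε + ζ) := mul_le_mul_of_nonneg_left h4 (Real.sqrt_nonneg _)
    _ = _ := by ring

lemma Swp.lip' (S : Swp ε ζ Y Z H ϑ l0) {A g : ℝ} (hA : 0 ≤ A) (hg : 0 < g) (x u v : ℝ) :
    |A * Z ((u - x) / g) - A * Z ((v - x) / g)| ≤ A * H / g * |u - v| := by
  rw [← mul_sub, abs_mul, abs_of_nonneg hA]
  have h := S.lip ((u - x) / g) ((v - x) / g)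
  have e : (u - x) / g - (v - x) / g = (u - v) / g := by ring
  rw [e, abs_div, abs_of_pos hg] at h
  refine (mul_le_mul_of_nonneg_left h hA).trans (le_of_eq (by ring))

lemma Swp.deriv' (S : Swp ε ζ Y Z H ϑ l0) {g : ℝ} (hg : 0 < g) (A x u : ℝ) :
    HasDerivAt (fun u => A * g * Y ((u - x) / g)) (A * Z ((u - x) / g)) u := by
  have h := ((S.hY ((u - x) / g)).comp u (((hasDerivAt_id u).sub_const x).div_const g)).const_mul (A * g)
  refine h.congr_deriv ?_
  field_simp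

theorem Swp.piece (S : Swp ε ζ Y Z H ϑ l0) {A1 A2 g l : ℝ} (hA1 : 0 < A1) (hA2 : 0 < A2)
    (hg : 0 < g) (hl : 0 < l) (hw : 4 ≤ A1 * g) (hl0 : l0 ≤ A1 * g / 2) (Φ : ℝ) :
    ∃ b B : ℝ → ℝ, Bump b B (2 * g + l) (H * (2 * A1 / g + A2 / l + 2 * (A1 + A2) / g)) (A1 + A2) ∧
      ∀ κ : ℝ, ‖(∫ u in (0:ℝ)..2 * g + l, ee (B u - κ * u)) -
        ee (Φ - κ * g) * l * JJ Y (A2 * l) ((κ - A1) / A2)‖ ≤
          4 / A1 + 2 * ((1 + ε + ζ) * √(g / A1)) := by
  obtain ⟨w1, hw1⟩ : ∃ w1, w1 = 2 * Int.fract (A1 * g / 2 - Φ) / A1 := ⟨_, rfl⟩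
  have hw10 : 0 ≤ w1 := by rw [hw1]; have := Int.fract_nonneg (A1 * g / 2 - Φ); positivity
  have hw11 : w1 ≤ 2 / A1 := by
    rw [hw1]; exact div_le_div_of_nonneg_right (by linarith [Int.fract_lt_one (A1 * g / 2 - Φ)]) hA1.le
  have hgw : 2 / A1 ≤ g / 2 := by rw [div_le_iff₀ hA1]; linarith
  obtain ⟨n1, hn1⟩ : ∃ n1 : ℤ, A1 * (g - w1) / 2 = Φ + n1 := ⟨⌊A1 * g / 2 - Φ⌋, by
    have := Int.floor_add_fract (A1 * g / 2 - Φ)
    have h2 : A1 * w1 = 2 * Int.fract (A1 * g / 2 - Φ) := by rw [hw1]; field_simp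
    linarith⟩
  obtain ⟨C0, hC0⟩ : ∃ C0, C0 = A1 * (g - w1) / 2 + A1 * l + A2 * l / 2 := ⟨_, rfl⟩
  obtain ⟨w2, hw2⟩ : ∃ w2, w2 = 2 * Int.fract (C0 + (A1 + A2) * g / 2) / (A1 + A2) := ⟨_, rfl⟩
  have hw20 : 0 ≤ w2 := by
    rw [hw2]; have := Int.fract_nonneg (C0 + (A1 + A2) * g / 2); positivity
  have hw21 : w2 ≤ 2 / A1 := by
    rw [hw2]
    exact div_le_div₀ (by norm_num) (by linarith [Int.fract_lt_one (C0 + (A1 + A2) * g / 2)]) hA1
      (by linarith)
  obtain ⟨n2, hn2⟩ : ∃ n2 : ℤ, C0 + (A1 + A2) * (g - w2) / 2 = n2 := ⟨⌊C0 + (A1 + A2) * g / 2⌋, by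
    have := Int.floor_add_fract (C0 + (A1 + A2) * g / 2)
    have h2 : (A1 + A2) * w2 = 2 * Int.fract (C0 + (A1 + A2) * g / 2) := by rw [hw2]; field_simp
    linarith⟩
  obtain ⟨g1, hg1⟩ : ∃ g1, g1 = g - w1 := ⟨_, rfl⟩
  obtain ⟨g2, hg2⟩ : ∃ g2, g2 = g - w2 := ⟨_, rfl⟩
  rw [← hg1] at hn1 hC0
  rw [← hg2] at hn2
  have hg10 : 0 < g1 := by linarith
  have hg20 : 0 < g2 := by linarith
  have Zl : ∀ {x q u : ℝ}, 0 < q → u ≤ x → Z ((u - x) / q) = 0 := fun hq hu =>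
    S.Zl _ (div_nonpos_of_nonpos_of_nonneg (by linarith) hq.le)
  have Yl : ∀ {x q u : ℝ}, 0 < q → u ≤ x → Y ((u - x) / q) = 0 := fun hq hu =>
    S.Yl _ (div_nonpos_of_nonpos_of_nonneg (by linarith) hq.le)
  have Zr : ∀ {x q u : ℝ}, 0 < q → x + q ≤ u → Z ((u - x) / q) = 1 := fun hq hu =>
    S.Zr _ ((one_le_div hq).2 (by linarith))
  have Yr : ∀ {x q u : ℝ}, 0 < q → x + q ≤ u → ∀ A, A * q * Y ((u - x) / q) = A * (u - x - q / 2) :=
    fun hq hu A => by rw [S.Yr _ ((one_le_div hq).2 (by linarith))]; field_simp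
  set B : ℝ → ℝ := fun u => A1 * g1 * Y ((u - w1) / g1) + A2 * l * Y ((u - g) / l) -
    (A1 + A2) * g2 * Y ((u - (g + l)) / g2) with hBdef
  set b : ℝ → ℝ := fun u => A1 * Z ((u - w1) / g1) + A2 * Z ((u - g) / l) -
    (A1 + A2) * Z ((u - (g + l)) / g2) with hbdef
  have hB : ∀ u, HasDerivAt B (b u) u := fun u =>
    ((S.deriv' hg10 A1 w1 u).add (S.deriv' hl A2 g u)).sub (S.deriv' hg20 (A1 + A2) (g + l) u)
  have hH := S.Hpos
  refine ⟨b, B, ⟨hB, fun u v => ?_, fun u => ?_, fun u => ?_, fun u hu => ?_, fun u hu => ?_,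
    ⟨n2, fun u hu => ?_⟩⟩, fun κ => ?_⟩
  · have h1 := abs_le.1 (S.lip' hA1.le hg10 w1 u v)
    have h2 := abs_le.1 (S.lip' hA2.le hl g u v)
    have h3 := abs_le.1 (S.lip' (by linarith : 0 ≤ A1 + A2) hg20 (g + l) u v)
    have h4 : A1 * H / g1 ≤ H * (2 * A1 / g) := by
      have : A1 * H / g1 ≤ A1 * H / (g / 2) :=
        div_le_div_of_nonneg_left (by positivity) (by positivity) (by linarith)
      refine this.trans (le_of_eq (by field_simp))
    have h5 : (A1 + A2) * H / g2 ≤ H * (2 * (A1 + A2) / g) := by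
      have : (A1 + A2) * H / g2 ≤ (A1 + A2) * H / (g / 2) :=
        div_le_div_of_nonneg_left (by positivity) (by positivity) (by linarith)
      refine this.trans (le_of_eq (by field_simp))
    have h6 := mul_le_mul_of_nonneg_right h4 (abs_nonneg (u - v))
    have h7 := mul_le_mul_of_nonneg_right h5 (abs_nonneg (u - v))
    have e : A2 * H / l * |u - v| = H * (A2 / l) * |u - v| := by ring
    simp only [hbdef]
    rw [abs_le]; constructor <;> linarith
  · simp only [hbdef]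
    rcases le_total u (g + l) with h | h
    · rw [Zl hg20 h]
      have := S.nonneg ((u - w1) / g1); have := S.nonneg ((u - g) / l)
      rw [mul_zero, sub_zero]; positivity
    · rw [Zr hg10 (by linarith), Zr hl h]
      have := mul_le_mul_of_nonneg_left (S.le_one ((u - (g + l)) / g2)) (by linarith : 0 ≤ A1 + A2)
      linarith
  · simp only [hbdef]
    have h1 := mul_le_mul_of_nonneg_left (S.le_one ((u - w1) / g1)) hA1.le
    have h2 := mul_le_mul_of_nonneg_left (S.le_one ((u - g) / l)) hA2.le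
    have h3 := mul_nonneg (by linarith : 0 ≤ A1 + A2) (S.nonneg ((u - (g + l)) / g2))
    linarith
  · simp only [hbdef]
    rcases hu with hu | hu
    · rw [Zl hg10 (by linarith), Zl hl (by linarith), Zl hg20 (by linarith)]; ring
    · rw [Zr hg10 (by linarith), Zr hl (by linarith), Zr hg20 (by linarith)]; ring
  · simp only [hBdef]
    rw [Yl hg10 (by linarith), Yl hl (by linarith), Yl hg20 (by linarith)]; ring
  · simp only [hBdef]
    rw [Yr hg10 (by linarith), Yr hl (by linarith), Yr hg20 (by linarith), ← hn2, hC0, hg1]; ring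
  have hc : Continuous fun u => ee (B u - κ * u) := by
    have : Continuous B := continuous_iff_continuousAt.2 fun u => (hB u).continuousAt
    fun_prop
  have hi := fun a b => hc.intervalIntegrable (μ := volume) a b
  have wait : ∀ a w : ℝ, 0 ≤ w → w ≤ 2 / A1 → ‖∫ u in a..a + w, ee (B u - κ * u)‖ ≤ 2 / A1 := by
    intro a w h0 h1
    have : ‖∫ u in a..a + w, ee (B u - κ * u)‖ ≤ 1 * |a + w - a| :=
      norm_integral_le_of_norm_le_const fun w _ => by simp
    rw [add_sub_cancel_left, abs_of_nonneg h0] at this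
    linarith
  have i1 := wait 0 w1 hw10 hw11
  have i5 := wait (g + l + g2) w2 hw20 hw21
  have i2 := sweep_int Y (fun u => B u - κ * u) (x := w1) (g := g1) (A := A1) (c := -(κ * w1))
    (κ := κ) hg10 hA1.ne' (fun u hu => by
      simp only [hBdef]
      rw [Yl hl (by linarith [hu.2]), Yl hg20 (by linarith [hu.2])]; ring)
  have i3 := sweep_int Y (fun u => B u - κ * u) (x := g) (g := l) (A := A2)
    (c := Φ - κ * g + n1) (κ := κ - A1) hl hA2.ne' (fun u hu => by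
      simp only [hBdef]
      rw [Yr hg10 (by linarith [hu.1]), Yl hg20 hu.2]
      have : Φ = A1 * g1 / 2 - n1 := by linarith
      rw [this, hg1]; ring)
  have i4 := sweep_int Y (fun u => B u - κ * u) (x := g + l) (g := g2) (A := -(A1 + A2))
    (c := C0 - κ * (g + l)) (κ := κ - (A1 + A2)) hg20 (by linarith) (fun u hu => by
      simp only [hBdef]
      rw [Yr hg10 (by linarith [hu.1]), Yr hl hu.1, hC0, hg1]; ring)
  rw [ee_add_int] at i3
  have n2' : ‖∫ u in w1..w1 + g1, ee (B u - κ * u)‖ ≤ (1 + ε + ζ) * √(g / A1) := by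
    rw [i2, norm_mul, norm_mul, norm_ee, one_mul, Complex.norm_real, Real.norm_eq_abs, abs_of_pos hg10]
    exact S.conn hA1 le_rfl hg (by linarith) (by linarith) hl0 _
  have n4 : ‖∫ u in g + l..g + l + g2, ee (B u - κ * u)‖ ≤ (1 + ε + ζ) * √(g / A1) := by
    rw [i4, norm_mul, norm_mul, norm_ee, one_mul, Complex.norm_real, Real.norm_eq_abs,
      abs_of_pos hg20, neg_mul, JJ_neg]
    exact S.conn hA1 (by linarith) hg (by linarith) (by linarith) hl0 _
  have e1 : w1 + g1 = g := by linarith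
  have e2 : g + l + g2 + w2 = 2 * g + l := by linarith
  rw [zero_add] at i1
  rw [e1] at n2'
  rw [e2] at i5
  have e : (∫ u in (0:ℝ)..2 * g + l, ee (B u - κ * u)) -
      ee (Φ - κ * g) * l * JJ Y (A2 * l) ((κ - A1) / A2) =
      (∫ u in (0:ℝ)..w1, ee (B u - κ * u)) + (∫ u in w1..g, ee (B u - κ * u)) +
      (∫ u in g + l..g + l + g2, ee (B u - κ * u)) +
      ∫ u in g + l + g2..2 * g + l, ee (B u - κ * u) := by
    rw [← i3, ← integral_add_adjacent_intervals (hi 0 (g + l + g2)) (hi (g + l + g2) (2 * g + l)),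
      ← integral_add_adjacent_intervals (hi 0 (g + l)) (hi (g + l) (g + l + g2)),
      ← integral_add_adjacent_intervals (hi 0 g) (hi g (g + l)),
      ← integral_add_adjacent_intervals (hi 0 w1) (hi w1 g)]
    ring
  rw [e]
  refine (norm_add_le _ _).trans ?_
  have h1 := norm_add₃_le (a := ∫ u in (0:ℝ)..w1, ee (B u - κ * u))
    (b := ∫ u in w1..g, ee (B u - κ * u)) (c := ∫ u in g + l..g + l + g2, ee (B u - κ * u))
  have : 4 / A1 = 2 / A1 + 2 / A1 := by ring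
  linarith

end Vale.Agent.P110
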