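import Vale.Agent.P110.Sweep

/-! An explicit sweep profile. -/

namespace Vale.Agent.P110

open Complex Real MeasureTheory intervalIntegral Set

/-- The properties of the universal sweep. -/
structure Swp (ε ζ : ℝ) (Y Z : ℝ → ℝ) (H ϑ l0 : ℝ) : Prop where
  l0pos : 0 < l0
  Hpos : 0 < H
  hY : ∀ w, HasDerivAt Y (Z w) w
  lip : ∀ u v, |Z u - Z v| ≤ H * |u - v|
  nonneg : ∀ w, 0 ≤ Z w
  le_one : ∀ w, Z w ≤ 1
  Zl : ∀ w, w ≤ 0 → Z w = 0
  Yl : ∀ w, w ≤ 0 → Y w = 0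
  Zr : ∀ w, 1 ≤ w → Z w = 1
  Yr : ∀ w, 1 ≤ w → Y w = w - 1 / 2
  main : ∀ x : ℝ, ∃ amp y : ℝ, 0 ≤ amp ∧ amp ≤ 1 + ε ∧ (amp ≠ 0 → 0 < x ∧ x < 1) ∧
    ∀ lam, l0 ≤ lam → ‖(√lam : ℂ) * (∫ w in (0:ℝ)..1, ee (lam * (Y w - x * w))) -
      amp * ee (ϑ + lam * y)‖ ≤ ζ
  far : ∀ lam x m : ℝ, 0 < lam → 0 < m → (x ≤ -m ∨ 1 + m ≤ x) →
    ‖∫ w in (0:ℝ)..1, ee (lam * (Y w - x * w))‖ ≤ 2 / (lam * m)

lemma Prof.asym {Y Z D : ℝ → ℝ} {H d : ℝ} (P : Prof Y Z D H d) {e ζ A M : ℝ} (he : 0 < e)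
    (he2 : e ≤ 1 / 2) (hd : d = 1 - e) (hζ : 0 < ζ) (hA : 32 / ζ ^ 2 ≤ A) (h0 : A ≤ D 0) (h1 : A ≤ D 1)
    (hM : ∀ w ∈ Icc (0:ℝ) 1, D w ≤ M) (hM1 : 1 ≤ M) (hZ0 : Z 0 = 0) (hZ1 : Z 1 = 1) :
    ∃ ϑ l0 : ℝ, 0 < l0 ∧ ∀ x : ℝ, ∃ amp y : ℝ, 0 ≤ amp ∧ amp ≤ 1 + 4 * e ∧
      (amp ≠ 0 → 0 < x ∧ x < 1) ∧
      ∀ lam, l0 ≤ lam → ‖(√lam : ℂ) * (∫ w in (0:ℝ)..1, ee (lam * (Y w - x * w))) -
        amp * ee (ϑ + lam * y)‖ ≤ ζ := by
  have hH := P.H0
  have hA0 : 0 < A := lt_of_lt_of_le (by positivity) hA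
  set w0 : ℝ := A / (4 * H) with hw0
  have hw00 : 0 < w0 := by positivity
  set R : ℝ := 1 / e + 8 * M / ζ with hR
  have hR0 : 0 < R := by positivity
  set a : ℝ := √(A / 2) with ha
  have ha0 : 0 < a := Real.sqrt_pos.2 (by positivity)
  have ha2 : a ^ 2 = A / 2 := Real.sq_sqrt (by positivity)
  set t0 : ℝ := 32 * π * H * R ^ 4 / ζ + 2 * R / w0 + 1 / (w0 * a) with ht0
  have ht00 : 0 < t0 := by positivity
  obtain ⟨ϑ, hϑ⟩ := exists_ee (∫ v in -R..R, ee (v ^ 2 / 2))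
  have hF := fresnel hR0
  refine ⟨ϑ, t0 ^ 2, by positivity, fun x => ?_⟩
  have hlam : ∀ lam, t0 ^ 2 ≤ lam → 0 < lam ∧ t0 ≤ √lam ∧ √lam ^ 2 = lam := fun lam hl =>
    ⟨lt_of_lt_of_le (by positivity) hl, Real.le_sqrt_of_sq_le hl,
      Real.sq_sqrt (le_trans (by positivity) hl)⟩
  have hedge : ∀ p ∈ Icc (0:ℝ) 1, (p = 0 ∨ Z p ≤ x) → (p = 1 ∨ x ≤ Z p) → (p ≤ w0 ∨ 1 - w0 ≤ p) →
      ∀ lam, t0 ^ 2 ≤ lam → ‖(√lam : ℂ) * (∫ w in (0:ℝ)..1, ee (lam * (Y w - x * w))) -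
        (0 : ℝ) * ee (ϑ + lam * 0)‖ ≤ ζ := by
    intro p hp hp1 hp2 hp3 lam hl
    obtain ⟨hl0, ht, ht2⟩ := hlam lam hl
    set t := √lam
    have ht' : 0 < t := ht00.trans_le ht
    have hρ : 1 / (t * a) ≤ w0 := by
      have h3 : 1 / (w0 * a) ≤ t := by
        have : 0 ≤ 32 * π * H * R ^ 4 / ζ + 2 * R / w0 := by positivity
        linarith
      rw [div_le_iff₀ (by positivity)] at h3 ⊢
      linarith
    have hE := P.edge (lam := lam) (x := x) (p := p) (A := A / 2) (ρ := 1 / (t * a)) hl0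
      (by positivity) (by positivity) hp hp1 hp2 (fun w hw hwp => by
        have h4 := abs_le.1 (hwp.trans hρ)
        have h5 : H * (2 * w0) = A / 2 := by rw [hw0]; field_simp; ring
        rcases hp3 with hp3 | hp3
        · have h6 := abs_le.1 (P.hD w hw 0 ⟨le_rfl, zero_le_one⟩)
          have h7 : H * |w - 0| ≤ H * (2 * w0) := mul_le_mul_of_nonneg_left
            (by rw [sub_zero, abs_of_nonneg hw.1]; linarith) hH.le
          linarith
        · have h6 := abs_le.1 (P.hD w hw 1 ⟨zero_le_one, le_rfl⟩)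
          have h7 : H * |w - 1| ≤ H * (2 * w0) := mul_le_mul_of_nonneg_left
            (by rw [abs_of_nonpos (by linarith [hw.2])]; linarith) hH.le
          linarith)
    rw [Complex.ofReal_zero, zero_mul, sub_zero, norm_mul, Complex.norm_real, Real.norm_eq_abs,
      abs_of_pos ht']
    have h8 : t * (2 / (lam * (A / 2 * (1 / (t * a)))) + 2 * (1 / (t * a))) = 4 / a := by
      rw [← ha2, ← ht2]; field_simp; ring
    have h9 : 4 / a ≤ ζ := by
      rw [div_le_iff₀ ha0]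
      have h10 : (4:ℝ) ^ 2 ≤ (ζ * a) ^ 2 := by
        rw [mul_pow, ha2]
        rw [div_le_iff₀ (by positivity)] at hA
        linarith
      exact (pow_le_pow_iff_left₀ (by norm_num) (by positivity) two_ne_zero).1 h10
    calc _ ≤ t * (2 / (lam * (A / 2 * (1 / (t * a)))) + 2 * (1 / (t * a))) :=
          mul_le_mul_of_nonneg_left hE ht'.le
      _ ≤ ζ := by rw [h8]; exact h9
  by_cases hx0 : x ≤ 0
  · exact ⟨0, 0, le_rfl, by linarith, fun h => absurd rfl h,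
      hedge 0 ⟨le_rfl, zero_le_one⟩ (Or.inl rfl) (Or.inr (by linarith)) (Or.inl hw00.le)⟩
  by_cases hx1 : 1 ≤ x
  · exact ⟨0, 0, le_rfl, by linarith, fun h => absurd rfl h,
      hedge 1 ⟨zero_le_one, le_rfl⟩ (Or.inr (by linarith)) (Or.inl rfl) (Or.inr (by linarith))⟩
  push Not at hx0 hx1
  obtain ⟨p, hp, hpx⟩ : x ∈ Z '' Icc 0 1 := intermediate_value_Icc zero_le_one
    (fun w hw => (P.hZ w hw).continuousAt.continuousWithinAt) ⟨by linarith, by linarith⟩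
  by_cases hp3 : p ≤ w0 ∨ 1 - w0 ≤ p
  · exact ⟨0, 0, le_rfl, by linarith, fun h => absurd rfl h,
      hedge p hp (Or.inr hpx.le) (Or.inr hpx.ge) hp3⟩
  push Not at hp3
  have hDp : 1 - e ≤ D p := hd ▸ P.hd p hp
  set q : ℝ := √(D p) with hq
  have hq2 : q ^ 2 = D p := Real.sq_sqrt (by linarith)
  have hq1 : 1 - e ≤ q := Real.le_sqrt_of_sq_le (by nlinarith)
  have hq0 : 0 < q := by linarith
  have hqM : q ≤ M := by
    have := hM p hp
    exact (pow_le_pow_iff_left₀ hq0.le (by linarith) two_ne_zero).1 (by nlinarith)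
  refine ⟨‖∫ v in -R..R, ee (v ^ 2 / 2)‖ / q, Y p - Z p * p, by positivity, ?_,
    fun _ => ⟨hx0, hx1⟩, fun lam hl => ?_⟩
  · rw [div_le_iff₀ hq0]
    have h3 : 1 / R ≤ e := by
      rw [div_le_iff₀ hR0]
      have : e * (1 / e) = 1 := by field_simp
      have h4 : 0 ≤ e * (8 * M / ζ) := by positivity
      rw [hR]; linarith
    nlinarith
  obtain ⟨hl0, ht, ht2⟩ := hlam lam hl
  set t := √lam
  have ht' : 0 < t := ht00.trans_le ht
  have hρ : R / (t * q) ≤ w0 := by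
    have h3 : 2 * R / w0 ≤ t := by
      have : 0 ≤ 32 * π * H * R ^ 4 / ζ := by positivity
      have : 0 ≤ 1 / (w0 * a) := by positivity
      linarith
    rw [div_le_iff₀ (by positivity)] at h3 ⊢
    have : t * w0 * (1 / 2) ≤ t * w0 * q := mul_le_mul_of_nonneg_left (by linarith) (by positivity)
    linarith
  have hC := P.core (lam := lam) (p := p) (R := R) (s := t * q) (ρ := R / (t * q)) hl0 (by positivity)
    (by rw [mul_pow, ht2, hq2]) (by positivity) (by field_simp) (by linarith) (by linarith)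
  rw [← hpx]
  have e1 : (t : ℂ) * (∫ w in (0:ℝ)..1, ee (lam * (Y w - Z p * w))) -
      ((‖∫ v in -R..R, ee (v ^ 2 / 2)‖ / q : ℝ) : ℂ) * ee (ϑ + lam * (Y p - Z p * p)) =
      t * ((∫ w in (0:ℝ)..1, ee (lam * (Y w - Z p * w))) -
        ee (lam * (Y p - Z p * p)) * ((∫ v in -R..R, ee (v ^ 2 / 2)) / ((t * q : ℝ) : ℂ))) := by
    have htc : (t : ℂ) ≠ 0 := by exact_mod_cast ht'.ne'
    have hqc : (q : ℂ) ≠ 0 := by exact_mod_cast hq0.ne'
    rw [ee_add]
    generalize ‖∫ v in -R..R, ee (v ^ 2 / 2)‖ = nF at hϑ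
    rw [hϑ]; push_cast; field_simp
  rw [e1, norm_mul, Complex.norm_real, Real.norm_eq_abs, abs_of_pos ht']
  have hd0 := P.d0
  have e2 : t * (2 / (lam * (d * (R / (t * q)))) + 4 * π * lam * H * (R / (t * q)) ^ 4) =
      2 * q / (d * R) + 4 * π * H * R ^ 4 / (t * (q ^ 2) ^ 2) := by
    rw [← ht2]; field_simp
  have b1 : 2 * q / (d * R) ≤ ζ / 2 := by
    rw [div_le_iff₀ (by positivity)]
    have h3 : 8 * M ≤ ζ * R := by
      have : ζ * (8 * M / ζ) = 8 * M := by field_simp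
      have h4 : 0 ≤ ζ * (1 / e) := by positivity
      rw [hR]; linarith
    have h4 : ζ * R * (1 / 2) ≤ ζ * R * d := mul_le_mul_of_nonneg_left (by linarith) (by positivity)
    linarith
  have b2 : 4 * π * H * R ^ 4 / (t * (q ^ 2) ^ 2) ≤ ζ / 2 := by
    have h3 : 32 * π * H * R ^ 4 / ζ ≤ t := by
      have : 0 ≤ 2 * R / w0 := by positivity
      have : 0 ≤ 1 / (w0 * a) := by positivity
      linarith
    rw [div_le_iff₀ (by positivity)] at h3 ⊢
    have h4 : (1 / 2 : ℝ) ^ 2 ≤ (q ^ 2) ^ 2 := pow_le_pow_left₀ (by norm_num) (by linarith) 2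
    have h5 : t * ζ * (1 / 2 : ℝ) ^ 2 ≤ t * ζ * (q ^ 2) ^ 2 :=
      mul_le_mul_of_nonneg_left h4 (by positivity)
    linarith
  calc _ ≤ t * (2 / (lam * (d * (R / (t * q)))) + 4 * π * lam * H * (R / (t * q)) ^ 4) :=
        mul_le_mul_of_nonneg_left hC ht'.le
    _ ≤ ζ := by rw [e2]; linarith

theorem exists_swp {ε ζ : ℝ} (hε : 0 < ε) (hζ : 0 < ζ) :
    ∃ (Y Z : ℝ → ℝ) (H ϑ l0 : ℝ), Swp ε ζ Y Z H ϑ l0 := by
  set e : ℝ := min (ε / 4) (1 / 2) with he
  have he0 : 0 < e := lt_min (by linarith) (by norm_num)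
  have he1 : e ≤ ε / 4 := min_le_left _ _
  have he2 : e ≤ 1 / 2 := min_le_right _ _
  obtain ⟨K, hK⟩ := exists_nat_ge (64 / ζ ^ 2 / e)
  set Zp : ℝ → ℝ := fun w => (1 - e) * w + e / 2 * (1 - (1 - w) ^ (K + 1) + w ^ (K + 1)) with hZp
  set Dp : ℝ → ℝ := fun w => (1 - e) + e / 2 * (K + 1) * ((1 - w) ^ K + w ^ K) with hDp
  set cl : ℝ → ℝ := fun w => max 0 (min 1 w) with hcl
  have hcl1 : ∀ w, cl w ∈ Icc (0:ℝ) 1 := fun w =>
    ⟨le_max_left _ _, max_le zero_le_one (min_le_left _ _)⟩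
  have hcl2 : ∀ w ∈ Icc (0:ℝ) 1, cl w = w := fun w hw => by
    simp only [hcl]; rw [min_eq_right hw.2, max_eq_right hw.1]
  have hcl3 : ∀ u v, |cl u - cl v| ≤ |u - v| := fun u v => by
    simp only [hcl]
    refine (abs_max_sub_max_le_max _ _ _ _).trans (max_le (by simp) ?_)
    refine (abs_min_sub_min_le_max _ _ _ _).trans (max_le (by simp) le_rfl)
  have hZc : Continuous fun w => Zp (cl w) := by simp only [hZp, hcl]; fun_prop
  set Y : ℝ → ℝ := fun w => ∫ v in (0:ℝ)..w, Zp (cl v) with hYdef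
  have hY : ∀ w, HasDerivAt Y (Zp (cl w)) w := fun w => (hZc.integral_hasStrictDerivAt 0 w).hasDerivAt
  have hZ : ∀ w, HasDerivAt Zp (Dp w) w := fun w => by
    have h0 := hasDerivAt_id w
    have := (h0.const_mul (1 - e)).add
      ((((((h0.const_sub 1).pow (K + 1)).const_sub 1).add (h0.pow (K + 1)))).const_mul (e / 2))
    refine this.congr_deriv ?_
    simp only [hDp, id, Nat.add_sub_cancel]; push_cast; ring
  have hpow : ∀ u ∈ Icc (0:ℝ) 1, ∀ v ∈ Icc (0:ℝ) 1, |u ^ K - v ^ K| ≤ K * |u - v| := by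
    intro u hu v hv
    refine (abs_pow_sub_pow_le u v K).trans ?_
    have : max |u| |v| ^ (K - 1) ≤ 1 := pow_le_one₀ (le_max_of_le_left (abs_nonneg _))
      (max_le (abs_le.2 ⟨by linarith [hu.1], hu.2⟩) (abs_le.2 ⟨by linarith [hv.1], hv.2⟩))
    have h2 : 0 ≤ |u - v| * K := by positivity
    nlinarith
  have hsym : ∀ u ∈ Icc (0:ℝ) 1, 1 - u ∈ Icc (0:ℝ) 1 := fun u hu =>
    ⟨by linarith [hu.2], by linarith [hu.1]⟩
  have hc0 : 0 ≤ e / 2 * (K + 1) := by positivity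
  have hP : Prof Y Zp Dp (e * (K + 1) * K + 1) (1 - e) :=
    { hY := fun w hw => by have := hY w; rwa [hcl2 w hw] at this
      hZ := fun w _ => hZ w
      hD := fun u hu v hv => by
        have h1 := hpow u hu v hv
        have h2 := hpow _ (hsym u hu) _ (hsym v hv)
        have e1 : 1 - u - (1 - v) = -(u - v) := by ring
        rw [e1, abs_neg] at h2
        have e2 : Dp u - Dp v = e / 2 * (K + 1) * (((1 - u) ^ K - (1 - v) ^ K) + (u ^ K - v ^ K)) := by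
          simp only [hDp]; ring
        rw [e2, abs_mul, abs_of_nonneg hc0]
        have h3 := mul_le_mul_of_nonneg_left ((abs_add_le _ _).trans (add_le_add h2 h1)) hc0
        have := abs_nonneg (u - v)
        linarith
      hd := fun w hw => by
        have := pow_nonneg hw.1 K; have := pow_nonneg (hsym w hw).1 K
        simp only [hDp]; nlinarith
      d0 := by linarith
      H0 := by positivity
      cD := by simp only [hDp]; fun_prop
      cY := continuous_iff_continuousAt.2 fun w => (hY w).continuousAt }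
  have hM : ∀ w ∈ Icc (0:ℝ) 1, Dp w ≤ 1 + e * (K + 1) := fun w hw => by
    have h1 : w ^ K ≤ 1 := pow_le_one₀ hw.1 hw.2
    have h2 : (1 - w) ^ K ≤ 1 := pow_le_one₀ (hsym w hw).1 (hsym w hw).2
    have h3 := mul_le_mul_of_nonneg_left (add_le_add h2 h1) hc0
    simp only [hDp]; linarith
  have hZ0 : Zp 0 = 0 := by simp [hZp]
  have hZ1 : Zp 1 = 1 := by simp [hZp]; ring
  obtain ⟨ϑ, l0, hl0, hmain⟩ := hP.asym (e := e) (ζ := ζ) (A := e / 2 * (K + 1))
    (M := 1 + e * (K + 1)) he0 he2 rfl hζ (by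
      rw [div_le_iff₀ he0] at hK
      have : 64 / ζ ^ 2 = 2 * (32 / ζ ^ 2) := by ring
      nlinarith)
    (by have := pow_nonneg (le_refl (0:ℝ)) K; simp only [hDp, sub_zero, one_pow]; nlinarith)
    (by have := pow_nonneg (le_refl (0:ℝ)) K; simp only [hDp, sub_self, one_pow]; nlinarith)
    hM (by nlinarith) hZ0 hZ1
  have mono : ∀ u v : ℝ, 0 ≤ u → u ≤ v → v ≤ 1 → Zp u ≤ Zp v := by
    intro u v hu huv hv
    have := grow (f := Zp) (f' := Dp) (c := 0) huv (fun w _ => hZ w)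
      (fun w hw => hP.d0.le.trans (hP.hd w ⟨hu.trans hw.1, hw.2.trans hv⟩))
    linarith
  have hZl : ∀ w, w ≤ 0 → Zp (cl w) = 0 := fun w hw => by
    have : cl w = 0 := max_eq_left ((min_le_right _ _).trans hw)
    rw [this, hZ0]
  have hZr : ∀ w, 1 ≤ w → Zp (cl w) = 1 := fun w hw => by
    have : cl w = 1 := by simp only [hcl]; rw [min_eq_left hw, max_eq_right zero_le_one]
    rw [this, hZ1]
  have hY1 : Y 1 = 1 / 2 := by
    have h1 : ∫ v in (0:ℝ)..1, Zp (cl (1 - v)) = ∫ v in (0:ℝ)..1, Zp (cl v) := by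
      rw [intervalIntegral.integral_comp_sub_left (fun v => Zp (cl v))]; simp
    have h2 : ∫ v in (0:ℝ)..1, (Zp (cl (1 - v)) + Zp (cl v)) = ∫ v in (0:ℝ)..1, (1:ℝ) := by
      refine intervalIntegral.integral_congr fun v hv => ?_
      rw [uIcc_of_le zero_le_one] at hv
      simp only [hcl2 v hv, hcl2 _ (hsym v hv), hZp, sub_sub_cancel]; ring
    rw [intervalIntegral.integral_add (by apply Continuous.intervalIntegrable; fun_prop)
      (hZc.intervalIntegrable _ _), h1] at h2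
    simp only [hYdef]; simp at h2; linarith
  refine ⟨Y, fun w => Zp (cl w), 1 + e * (K + 1), ϑ, l0,
    { l0pos := hl0
      Hpos := by positivity
      hY := hY
      lip := fun u v => ?_
      nonneg := fun w => hZ0 ▸ mono 0 _ le_rfl (hcl1 w).1 (hcl1 w).2
      le_one := fun w => hZ1 ▸ mono _ 1 (hcl1 w).1 (hcl1 w).2 le_rfl
      Zl := hZl
      Yl := fun w hw => ?_
      Zr := hZr
      Yr := fun w hw => ?_
      main := fun x => ?_
      far := fun lam x m hl hm hx => ?_ }⟩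
  · have hs : uIcc (cl v) (cl u) ⊆ Icc (0:ℝ) 1 := uIcc_subset_Icc (hcl1 v) (hcl1 u)
    refine (mvt_abs (f' := Dp) (fun w _ => hZ w) (fun w hw => ?_)).trans
      (mul_le_mul_of_nonneg_left (hcl3 u v) (by positivity))
    rw [abs_of_nonneg (hP.d0.le.trans (hP.hd w (hs hw)))]; exact hM w (hs hw)
  · have : ∫ v in (0:ℝ)..w, Zp (cl v) = ∫ v in (0:ℝ)..w, (0:ℝ) := by
      refine intervalIntegral.integral_congr fun v hv => hZl v ?_
      rw [uIcc_of_ge hw] at hv; exact hv.2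
    simp only [hYdef]; rw [this]; simp
  · have h1 := intervalIntegral.integral_add_adjacent_intervals
      (hZc.intervalIntegrable (μ := volume) 0 1) (hZc.intervalIntegrable 1 w)
    have : ∫ v in (1:ℝ)..w, Zp (cl v) = ∫ v in (1:ℝ)..w, (1:ℝ) := by
      refine intervalIntegral.integral_congr fun v hv => hZr v ?_
      rw [uIcc_of_le hw] at hv; exact hv.1
    simp only [hYdef] at hY1 ⊢
    rw [← h1, hY1, this]; simp; ring
  · obtain ⟨amp, y, h1, h2, h3, h4⟩ := hmain x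
    exact ⟨amp, y, h1, by linarith, h3, h4⟩
  · rcases hx with hx | hx
    · simpa using hP.outer (x := x) (a := 0) (b := 0) hl le_rfl le_rfl zero_le_one hm (Or.inl rfl)
        (Or.inr (by linarith))
    · simpa using hP.outer (x := x) (a := 1) (b := 1) hl zero_le_one le_rfl le_rfl hm
        (Or.inr (by linarith)) (Or.inl rfl)

end Vale.Agent.P110
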