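import Mathlib

/-! A discrepancy bound of Spencer type, by the entropy method. -/

namespace Vale.Agent.P110

open Real Finset

/-- The sign attached to a Boolean. -/
def sg (b : Bool) : ℝ := if b then 1 else -1

lemma sum_exp_sg {ι : Type*} [Fintype ι] [DecidableEq ι] (v : ι → ℝ) (hv : ∀ i, |v i| ≤ 1) (l : ℝ) :
    ∑ x : ι → Bool, Real.exp (l * ∑ i, v i * sg (x i)) ≤
      2 ^ Fintype.card ι * Real.exp (l ^ 2 * Fintype.card ι / 2) := by
  have h1 : ∀ x : ι → Bool, Real.exp (l * ∑ i, v i * sg (x i)) =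
      ∏ i, Real.exp (l * (v i * sg (x i))) := by
    intro x; rw [Finset.mul_sum, Real.exp_sum]
  simp_rw [h1]
  have h2 := Finset.prod_univ_sum (fun _ : ι => (univ : Finset Bool))
    (fun i b => Real.exp (l * (v i * sg b)))
  rw [Fintype.piFinset_univ] at h2
  rw [← h2]
  have h3 : ∀ i, ∑ b : Bool, Real.exp (l * (v i * sg b)) ≤ 2 * Real.exp (l ^ 2 / 2) := by
    intro i
    have h4 := Real.cosh_le_exp_half_sq (l * v i)
    rw [Real.cosh_eq] at h4
    have h5 : Real.exp ((l * v i) ^ 2 / 2) ≤ Real.exp (l ^ 2 / 2) := by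
      apply Real.exp_le_exp.2
      have : v i ^ 2 ≤ 1 := by have := abs_le.1 (hv i); nlinarith
      have h6 := sq_nonneg l
      rw [mul_pow]; nlinarith
    simp only [Fintype.sum_bool, sg, if_true, Bool.false_eq_true, if_false, mul_one, mul_neg]
    linarith
  calc ∏ i, ∑ b : Bool, Real.exp (l * (v i * sg b)) ≤ ∏ _i : ι, 2 * Real.exp (l ^ 2 / 2) :=
        Finset.prod_le_prod (fun i _ => Finset.sum_nonneg fun _ _ => (Real.exp_pos _).le)
          fun i _ => h3 i
    _ = _ := by
        rw [Finset.prod_const, Finset.card_univ, mul_pow, ← Real.exp_nat_mul]; congr 2; ring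

lemma abs_round_le {y D l : ℝ} (hD : 0 < D) (hl : 0 < l) (hlD : 1 ≤ l * D) :
    (((round (y / (2 * D))).natAbs : ℕ) : ℝ) ≤
      (Real.exp (l * y) + Real.exp (-l * y)) * Real.exp (-(l * D)) := by
  have hc : (((round (y / (2 * D))).natAbs : ℕ) : ℝ) = |((round (y / (2 * D)) : ℤ) : ℝ)| := by
    rw [Nat.cast_natAbs, Int.cast_abs]
  rw [hc]
  by_cases h : |y| < D
  · have : round (y / (2 * D)) = 0 := by
      rw [round_eq_zero_iff]
      have := abs_lt.1 h
      constructor
      · rw [le_div_iff₀ (by positivity)]; linarith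
      · rw [div_lt_iff₀ (by positivity)]; linarith
    rw [this]; simp; positivity
  · push Not at h
    have h1 := abs_sub_round (y / (2 * D))
    have h2 : |((round (y / (2 * D)) : ℤ) : ℝ)| ≤ |y| / D := by
      have h3 : |y / (2 * D)| = |y| / D / 2 := by
        rw [abs_div, abs_of_pos (by positivity : 0 < 2 * D)]; field_simp
      have h4 : 1 ≤ |y| / D := by rw [le_div_iff₀ hD]; linarith
      have h5 := abs_sub_abs_le_abs_sub ((round (y / (2 * D)) : ℤ) : ℝ) (y / (2 * D))
      rw [abs_sub_comm] at h5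
      linarith
    have h6 : |y| / D ≤ Real.exp (l * |y|) * Real.exp (-(l * D)) := by
      rw [← Real.exp_add]
      have h4 : 1 ≤ |y| / D := by rw [le_div_iff₀ hD]; linarith
      have h7 := Real.add_one_le_exp (l * |y| + -(l * D))
      have h8 : l * |y| + -(l * D) = l * D * (|y| / D - 1) := by field_simp; ring
      have h9 : 1 * (|y| / D - 1) ≤ l * D * (|y| / D - 1) :=
        mul_le_mul_of_nonneg_right hlD (by linarith)
      linarith
    have h10 : Real.exp (l * |y|) ≤ Real.exp (l * y) + Real.exp (-l * y) := by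
      rcases abs_cases y with h' | h'
      · rw [h'.1]; linarith [Real.exp_pos (-l * y)]
      · rw [h'.1]
        have : l * -y = -l * y := by ring
        rw [this]; linarith [Real.exp_pos (l * y)]
    exact h2.trans (h6.trans (mul_le_mul_of_nonneg_right h10 (Real.exp_pos _).le))

lemma sum_pow_natAbs_le {t : ℝ} (h0 : 0 ≤ t) (h1 : t ≤ 1 / 2) (S : Finset ℤ) :
    ∑ j ∈ S, t ^ j.natAbs ≤ Real.exp (4 * t) := by
  have hg := hasSum_geometric_of_lt_one h0 (by linarith : t < 1)
  have hg2 := hg.mul_left t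
  have hs : HasSum (fun j : ℤ => t ^ j.natAbs) ((1 - t)⁻¹ + t * (1 - t)⁻¹) := by
    refine HasSum.of_nat_of_neg_add_one ?_ ?_
    · simpa using hg
    · have : (fun n : ℕ => t ^ (-((n : ℤ) + 1)).natAbs) = fun n => t * t ^ n := by
        funext n
        have : (-((n : ℤ) + 1)).natAbs = n + 1 := by omega
        rw [this, pow_succ]; ring
      rw [this]; exact hg2
  refine (sum_le_hasSum S (fun j _ => by positivity) hs).trans ?_
  have h2 : (1 - t)⁻¹ + t * (1 - t)⁻¹ ≤ 1 + 4 * t := by
    have : (1 - t)⁻¹ + t * (1 - t)⁻¹ = (1 + t) / (1 - t) := by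
      have : 1 - t ≠ 0 := by linarith
      field_simp
    rw [this, div_le_iff₀ (by linarith)]; nlinarith
  linarith [Real.add_one_le_exp (4 * t)]

lemma ball_le {ι : Type*} [Fintype ι] [DecidableEq ι] (x : ι → Bool) :
    ((univ.filter fun x' : ι → Bool =>
      10 * (univ.filter fun i => x i ≠ x' i).card ≤ Fintype.card ι).card : ℝ) ≤
      Real.exp (Fintype.card ι * (8 / 15)) := by
  set n := Fintype.card ι
  have h2 := Finset.prod_univ_sum (fun _ : ι => (univ : Finset Bool))
    (fun i b => if x i ≠ b then Real.exp (-2) else 1)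
  rw [Fintype.piFinset_univ] at h2
  have h3 : ∀ i, ∑ b : Bool, (if x i ≠ b then Real.exp (-2) else 1) = 1 + Real.exp (-2) := by
    intro i; rcases x i <;> simp [add_comm]
  simp_rw [h3] at h2
  rw [Finset.prod_const, Finset.card_univ] at h2
  have h4 : ∀ x' : ι → Bool, ∏ i, (if x i ≠ x' i then Real.exp (-2) else 1) =
      Real.exp (-2 * (univ.filter fun i => x i ≠ x' i).card) := by
    intro x'
    rw [← Finset.prod_filter, Finset.prod_const, ← Real.exp_nat_mul]; congr 1; ring
  simp_rw [h4] at h2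
  have h5 : (1 + Real.exp (-2)) ^ n ≤ Real.exp (n * (1 / 3)) := by
    rw [Real.exp_nat_mul]
    refine pow_le_pow_left₀ (by positivity) ?_ n
    have h6 : Real.exp (-2) ≤ 1 / 3 := by
      rw [Real.exp_neg, ← one_div]
      exact one_div_le_one_div_of_le (by norm_num) (by linarith [Real.add_one_le_exp 2])
    linarith [Real.add_one_le_exp (1 / 3)]
  calc _ = ∑ x' ∈ univ.filter (fun x' : ι → Bool =>
          10 * (univ.filter fun i => x i ≠ x' i).card ≤ n), (1 : ℝ) := by simp
    _ ≤ ∑ x' ∈ univ.filter (fun x' : ι → Bool =>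
          10 * (univ.filter fun i => x i ≠ x' i).card ≤ n),
          Real.exp (n * (1 / 5)) * Real.exp (-2 * (univ.filter fun i => x i ≠ x' i).card) := by
        refine Finset.sum_le_sum fun x' hx' => ?_
        rw [← Real.exp_add]
        refine Real.one_le_exp ?_
        have : (10 * (univ.filter fun i => x i ≠ x' i).card : ℝ) ≤ n := by
          exact_mod_cast (Finset.mem_filter.1 hx').2
        linarith
    _ ≤ ∑ x' : ι → Bool,
          Real.exp (n * (1 / 5)) * Real.exp (-2 * (univ.filter fun i => x i ≠ x' i).card) :=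
        Finset.sum_le_sum_of_subset_of_nonneg (Finset.filter_subset _ _) fun _ _ _ => by positivity
    _ = Real.exp (n * (1 / 5)) * (1 + Real.exp (-2)) ^ n := by rw [← Finset.mul_sum, h2]
    _ ≤ Real.exp (n * (1 / 5)) * Real.exp (n * (1 / 3)) :=
        mul_le_mul_of_nonneg_left h5 (by positivity)
    _ = _ := by rw [← Real.exp_add]; congr 1; ring

lemma jensen_exp {X : Type*} [Fintype X] [Nonempty X] (g : X → ℝ) (μ : ℝ)
    (h : Fintype.card X * μ ≤ ∑ x, g x) : Fintype.card X * Real.exp μ ≤ ∑ x, Real.exp (g x) := by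
  have h1 : ∀ x, Real.exp μ * (g x - μ + 1) ≤ Real.exp (g x) := fun x => by
    have := Real.add_one_le_exp (g x - μ)
    have h2 : Real.exp (g x) = Real.exp μ * Real.exp (g x - μ) := by
      rw [← Real.exp_add]; congr 1; ring
    rw [h2]; exact mul_le_mul_of_nonneg_left this (Real.exp_pos _).le
  refine le_trans ?_ (Finset.sum_le_sum fun x _ => h1 x)
  rw [← Finset.mul_sum, Finset.sum_add_distrib, Finset.sum_sub_distrib]
  simp only [Finset.sum_const, Finset.card_univ, nsmul_eq_mul, mul_one]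
  have := Real.exp_pos μ
  nlinarith

lemma half_colour {ι ρ : Type*} [Fintype ι] [DecidableEq ι] [Fintype ρ] [DecidableEq ρ]
    (v : ρ → ι → ℝ) (hv : ∀ r i, |v r i| ≤ 1) (hn : 0 < Fintype.card ι)
    (hnm : Fintype.card ι ≤ Fintype.card ρ) :
    ∃ x x' : ι → Bool, Fintype.card ι < 10 * (univ.filter fun i => x i ≠ x' i).card ∧
      ∀ r, |∑ i, v r i * sg (x i) - ∑ i, v r i * sg (x' i)| ≤
        2 * (20 * √√(Fintype.card ι * Fintype.card ρ)) := by
  set n := Fintype.card ι with hndef
  set m := Fintype.card ρ with hmdef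
  have hn' : (0 : ℝ) < n := by exact_mod_cast hn
  have hnm' : (n : ℝ) ≤ m := by exact_mod_cast hnm
  set g : ℝ := √√(n * m) with hg
  have hg0 : 0 < g := Real.sqrt_pos.2 (Real.sqrt_pos.2 (by nlinarith))
  have hg4 : g ^ 4 = n * m := by
    have h1 : g ^ 2 = √(n * m) := Real.sq_sqrt (Real.sqrt_nonneg _)
    have h2 : √(n * m) ^ 2 = (n * m : ℝ) := Real.sq_sqrt (by positivity)
    rw [← h2, ← h1]; ring
  set s : ℝ := √n with hs
  have hs0 : 0 < s := Real.sqrt_pos.2 hn'
  have hs2 : s ^ 2 = n := Real.sq_sqrt hn'.le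
  have hsg : s ≤ g := by
    refine (pow_le_pow_iff_left₀ hs0.le hg0.le (by norm_num : 4 ≠ 0)).1 ?_
    have : s ^ 4 = n * n := by rw [← hs2]; ring
    rw [this, hg4]; nlinarith
  set D : ℝ := 20 * g with hD
  have hD0 : 0 < D := by positivity
  set l : ℝ := 1 / s with hl
  have hl0 : 0 < l := by positivity
  have hlD : 1 ≤ l * D := by
    rw [hl, hD, one_div, inv_mul_eq_div, le_div_iff₀ hs0]; linarith
  set t : ℝ := n / (100 * m) with ht
  have hm0 : (0 : ℝ) < m := hn'.trans_le hnm'
  have ht0 : 0 < t := by positivity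
  have ht1 : t ≤ 1 / 2 := by rw [ht, div_le_iff₀ (by positivity)]; linarith
  set y : (ι → Bool) → ρ → ℝ := fun x r => ∑ i, v r i * sg (x i) with hy
  set b : (ι → Bool) → ρ → ℤ := fun x r => round (y x r / (2 * D)) with hb
  by_contra hcon
  push Not at hcon
  have hclose : ∀ x x', b x = b x' → 10 * (univ.filter fun i => x i ≠ x' i).card ≤ n := by
    intro x x' hbx
    by_contra hlt
    obtain ⟨r, hr⟩ := hcon x x' (by omega)
    have h1 := abs_le.1 (abs_sub_round (y x r / (2 * D)))
    have h2 := abs_le.1 (abs_sub_round (y x' r / (2 * D)))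
    have h3 : round (y x r / (2 * D)) = round (y x' r / (2 * D)) := congrFun hbx r
    rw [h3] at h1
    have h4 : |y x r / (2 * D) - y x' r / (2 * D)| ≤ 1 := abs_le.2 ⟨by linarith, by linarith⟩
    rw [← sub_div, abs_div, abs_of_pos (by positivity : 0 < 2 * D), div_le_one (by positivity)] at h4
    exact absurd h4 (not_le.2 hr)
  set S : Finset ℤ := univ.image fun p : (ι → Bool) × ρ => b p.1 p.2 with hS
  set W : (ρ → ℤ) → ℝ := fun β => ∏ r, t ^ (β r).natAbs with hW
  have hW0 : ∀ β, 0 ≤ W β := fun β => Finset.prod_nonneg fun _ _ => by positivity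
  have hup : ∑ x, W (b x) ≤ Real.exp (n * (8 / 15)) * Real.exp (n / 25) := by
    rw [← Finset.sum_fiberwise_of_maps_to (s := univ) (t := Fintype.piFinset fun _ : ρ => S) (g := b)
      (fun x _ => Fintype.mem_piFinset.2 fun r => Finset.mem_image.2 ⟨(x, r), Finset.mem_univ _, rfl⟩)]
    have h1 : ∀ β ∈ Fintype.piFinset fun _ : ρ => S,
        ∑ x ∈ univ.filter (fun x => b x = β), W (b x) ≤ Real.exp (n * (8 / 15)) * W β := by
      intro β _
      rw [Finset.sum_congr rfl (g := fun _ => W β) fun x hx => by rw [(Finset.mem_filter.1 hx).2]]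
      rw [Finset.sum_const, nsmul_eq_mul]
      refine mul_le_mul_of_nonneg_right ?_ (hW0 β)
      rcases (univ.filter fun x => b x = β).eq_empty_or_nonempty with he | ⟨x0, hx0⟩
      · rw [he]; simp; positivity
      · refine le_trans ?_ (ball_le x0)
        refine Nat.cast_le.2 (Finset.card_le_card fun x hx => Finset.mem_filter.2 ⟨Finset.mem_univ _,
          hclose x0 x ((Finset.mem_filter.1 hx0).2.trans (Finset.mem_filter.1 hx).2.symm)⟩)
    refine (Finset.sum_le_sum h1).trans ?_
    rw [← Finset.mul_sum]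
    refine mul_le_mul_of_nonneg_left ?_ (by positivity)
    rw [← Finset.prod_univ_sum (fun _ : ρ => S) (fun _ j => t ^ j.natAbs)]
    calc ∏ _r : ρ, ∑ j ∈ S, t ^ j.natAbs ≤ ∏ _r : ρ, Real.exp (4 * t) :=
          Finset.prod_le_prod (fun _ _ => Finset.sum_nonneg fun _ _ => by positivity)
            fun _ _ => sum_pow_natAbs_le ht0.le ht1 S
      _ = _ := by
          rw [Finset.prod_const, Finset.card_univ, ← Real.exp_nat_mul]; congr 1
          rw [← hmdef, ht]; field_simp; ring
  have hE : Real.exp (-(l * D)) ≤ (n / m) ^ 2 / 20000 := by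
    have h1 := Real.pow_div_factorial_le_exp (l * D) (by positivity) 8
    have h2 : (l * D) ^ 8 = 20 ^ 8 * (m / n) ^ 2 := by
      have : (l * D) ^ 8 = 20 ^ 8 * (g ^ 4) ^ 2 / (s ^ 2) ^ 4 := by rw [hl, hD]; field_simp
      rw [this, hg4, hs2]; field_simp
    rw [h2] at h1
    have h3 : (Nat.factorial 8 : ℝ) = 40320 := by norm_num [Nat.factorial]
    rw [h3] at h1
    rw [Real.exp_neg, inv_le_comm₀ (Real.exp_pos _) (by positivity)]
    refine le_trans ?_ h1
    have : ((n / m : ℝ) ^ 2 / 20000 : ℝ)⁻¹ = 20000 * ((m : ℝ) / n) ^ 2 := by field_simp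
    rw [this]
    have : (0 : ℝ) ≤ (m / n) ^ 2 := by positivity
    linarith
  have hmom : ∀ r, ∑ x, (((b x r).natAbs : ℕ) : ℝ) ≤ 2 ^ n * (4 * ((n / m) ^ 2 / 20000)) := by
    intro r
    have h1 := sum_exp_sg (v r) (hv r) l
    have h2 := sum_exp_sg (v r) (hv r) (-l)
    have h3 : l ^ 2 * n / 2 = 1 / 2 := by rw [hl, ← hs2]; field_simp
    rw [neg_sq] at h2
    rw [← hndef, h3] at h1 h2
    have h4 : Real.exp (1 / 2) ≤ 2 := by
      have := Real.add_one_le_exp (-(1 / 2))
      have h5 : Real.exp (1 / 2) * Real.exp (-(1 / 2)) = 1 := by rw [← Real.exp_add]; simp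
      nlinarith [Real.exp_pos (1 / 2)]
    refine (Finset.sum_le_sum fun x _ => abs_round_le hD0 hl0 hlD).trans ?_
    rw [← Finset.sum_mul, Finset.sum_add_distrib]
    have h5 : (2:ℝ) ^ n * Real.exp (1 / 2) ≤ 2 ^ n * 2 := mul_le_mul_of_nonneg_left h4 (by positivity)
    calc _ ≤ (2 ^ n * 4) * ((n / m : ℝ) ^ 2 / 20000) :=
          mul_le_mul (by simp only [hy]; linarith) hE (by positivity) (by positivity)
      _ = _ := by ring
  have hlow : (2:ℝ) ^ n * Real.exp (-(n / 50)) ≤ ∑ x, W (b x) := by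
    have hcard : (Fintype.card (ι → Bool) : ℝ) = 2 ^ n := by simp [hndef]
    have h1 : ∀ x, W (b x) = Real.exp (Real.log t * ∑ r, (((b x r).natAbs : ℕ) : ℝ)) := by
      intro x
      rw [Finset.mul_sum, Real.exp_sum]
      refine Finset.prod_congr rfl fun r _ => ?_
      rw [mul_comm, Real.exp_nat_mul, Real.exp_log ht0]
    simp_rw [h1]
    rw [← hcard]
    refine jensen_exp _ _ ?_
    rw [← Finset.mul_sum, Finset.sum_comm, hcard]
    have h2 : ∑ r, ∑ x, (((b x r).natAbs : ℕ) : ℝ) ≤ m * (2 ^ n * (4 * ((n / m) ^ 2 / 20000))) := by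
      refine (Finset.sum_le_sum fun r _ => hmom r).trans ?_
      rw [Finset.sum_const, Finset.card_univ, nsmul_eq_mul]
    have h3 : -(100 * m / n) ≤ Real.log t := by
      have := Real.one_sub_inv_le_log_of_pos ht0
      have h4 : t⁻¹ = 100 * m / n := by rw [ht]; field_simp
      linarith
    have h4 : 0 ≤ ∑ r, ∑ x, (((b x r).natAbs : ℕ) : ℝ) := by positivity
    have h5 := mul_le_mul_of_nonneg_right h3 h4
    have h6 := mul_le_mul_of_nonneg_left h2 (by positivity : (0:ℝ) ≤ 100 * m / n)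
    have h7 : 100 * m / n * (m * (2 ^ n * (4 * ((n / m : ℝ) ^ 2 / 20000)))) = 2 ^ n * (n / 50) := by
      field_simp; ring
    linarith
  have h2n : (2:ℝ) ^ n = Real.exp (n * Real.log 2) := by
    rw [Real.exp_nat_mul, Real.exp_log two_pos]
  have := hlow.trans hup
  rw [h2n, ← Real.exp_add, ← Real.exp_add, Real.exp_le_exp] at this
  have h8 := Real.log_two_gt_d9
  nlinarith

/-- Discrepancy bound. -/
theorem spencer {ι ρ : Type*} [DecidableEq ι] [Fintype ρ] [DecidableEq ρ]
    (v : ρ → ι → ℝ) (hv : ∀ r i, |v r i| ≤ 1) (s : Finset ι) (hs : s.card ≤ Fintype.card ρ) :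
    ∃ χ : ι → ℝ, (∀ i, χ i = 1 ∨ χ i = -1) ∧
      ∀ r, |∑ i ∈ s, v r i * χ i| ≤ 800 * √√(s.card * Fintype.card ρ) := by
  induction s using Finset.strongInduction with
  | H s ih =>
  rcases s.eq_empty_or_nonempty with rfl | hne
  · exact ⟨fun _ => 1, fun _ => Or.inl rfl, fun r => by simp⟩
  obtain ⟨x, x', hd, hx⟩ := half_colour (ι := s) (fun r i => v r i) (fun r i => hv r i)
    (by simpa using hne) (by simpa using hs)
  rw [Fintype.card_coe] at hd hx
  set s' : Finset ι := (univ.filter fun i : s => x i = x' i).map (Function.Embedding.subtype _)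
    with hs'
  have hc : s'.card + (univ.filter fun i : s => x i ≠ x' i).card = s.card := by
    rw [hs', Finset.card_map, Finset.card_filter_add_card_filter_not, Finset.card_univ,
      Fintype.card_coe]
  have hsub : s' ⊆ s := fun i hi => by
    obtain ⟨j, _, rfl⟩ := Finset.mem_map.1 hi; exact j.2
  have hpos := hne.card_pos
  obtain ⟨χ, hχ1, hχ2⟩ := ih s' (Finset.ssubset_iff_subset_ne.2 ⟨hsub, fun h => by
    rw [h] at hc; omega⟩) ((Finset.card_le_card hsub).trans hs)
  refine ⟨fun i => if h : i ∈ s then (if x ⟨i, h⟩ = x' ⟨i, h⟩ then χ i else sg (x ⟨i, h⟩)) else 1,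
    fun i => ?_, fun r => ?_⟩
  · dsimp only
    split_ifs with h1 h2
    · exact hχ1 i
    · rcases x ⟨i, h1⟩ <;> simp [sg]
    · exact Or.inl rfl
  have e1 : ∑ i ∈ s, v r i * (if h : i ∈ s then
      (if x ⟨i, h⟩ = x' ⟨i, h⟩ then χ i else sg (x ⟨i, h⟩)) else 1) =
      ∑ i ∈ s', v r i * χ i + (∑ i : s, v r i * sg (x i) - ∑ i : s, v r i * sg (x' i)) / 2 := by
    rw [hs', Finset.sum_map, Finset.sum_filter, ← Finset.sum_sub_distrib, Finset.sum_div,
      ← Finset.sum_add_distrib, ← Finset.sum_coe_sort s]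
    refine Finset.sum_congr rfl fun i _ => ?_
    rw [dif_pos i.2]
    simp only [Subtype.coe_eta, Function.Embedding.subtype_apply]
    rcases x i <;> rcases x' i <;> simp [sg]
    ring
  rw [e1]
  have h1 := hχ2 r
  have h2 := hx r
  have h3 : √√(s'.card * Fintype.card ρ) ≤ 39 / 40 * √√(s.card * Fintype.card ρ) := by
    have h4 : (10 * s'.card : ℝ) ≤ 9 * s.card := by exact_mod_cast (by omega : 10 * s'.card ≤ 9 * s.card)
    have h5 : (0:ℝ) ≤ Fintype.card ρ := by positivity
    rw [Real.sqrt_le_left (by positivity), mul_pow, Real.sq_sqrt (Real.sqrt_nonneg _),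
      Real.sqrt_le_left (by positivity), mul_pow, Real.sq_sqrt (by positivity)]
    have h6 : (0:ℝ) ≤ s.card * Fintype.card ρ := by positivity
    nlinarith
  refine (abs_add_le _ _).trans ?_
  rw [abs_div, abs_two]
  linarith

end Vale.Agent.P110
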