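import Vale.Agent.P110.Osc

/-! The universal sweep and its stationary phase estimate. -/

namespace Vale.Agent.P110

open Complex Real MeasureTheory intervalIntegral Set

/-- A sweep profile on the unit interval. -/
structure Prof (Y Z D : ℝ → ℝ) (H d : ℝ) : Prop where
  hY : ∀ w ∈ Icc (0:ℝ) 1, HasDerivAt Y (Z w) w
  hZ : ∀ w ∈ Icc (0:ℝ) 1, HasDerivAt Z (D w) w
  hD : ∀ u ∈ Icc (0:ℝ) 1, ∀ v ∈ Icc (0:ℝ) 1, |D u - D v| ≤ H * |u - v|
  hd : ∀ w ∈ Icc (0:ℝ) 1, d ≤ D w
  d0 : 0 < d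
  H0 : 0 < H
  cD : Continuous D
  cY : Continuous Y

variable {Y Z D : ℝ → ℝ} {H d : ℝ}

lemma Prof.outer (P : Prof Y Z D H d) {lam x a b m : ℝ} (hl : 0 < lam) (ha : 0 ≤ a) (hab : a ≤ b)
    (hb : b ≤ 1) (hm : 0 < m) (h1 : a = 0 ∨ Z a - x ≤ -m) (h2 : b = 1 ∨ m ≤ Z b - x) :
    ‖(∫ w in (0:ℝ)..1, ee (lam * (Y w - x * w))) - ∫ w in a..b, ee (lam * (Y w - x * w))‖ ≤
      2 / (lam * m) := by
  have hc : Continuous fun w => ee (lam * (Y w - x * w)) := by have := P.cY; fun_prop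
  have key : ∀ u v : ℝ, 0 ≤ u → u ≤ v → v ≤ 1 → (∀ w ∈ Icc u v, m ≤ |Z w - x|) →
      ‖∫ w in u..v, ee (lam * (Y w - x * w))‖ ≤ 1 / (lam * m) := by
    intro u v hu huv hv hw
    have hs : ∀ w ∈ Icc u v, w ∈ Icc (0:ℝ) 1 := fun w hw => ⟨hu.trans hw.1, hw.2.trans hv⟩
    refine fdt (h := fun w => lam * (Z w - x)) (h' := fun w => lam * D w) huv (by positivity)
      (fun w hw => ?_) (fun w hw => ?_) (by have := P.cD; fun_prop) (fun w hw => ?_) (fun w hw' => ?_)
    · have := ((P.hY w (hs w hw)).sub ((hasDerivAt_id w).const_mul x)).const_mul lam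
      exact this.congr_deriv (by ring)
    · exact ((P.hZ w (hs w hw)).sub_const x).const_mul lam
    · exact mul_nonneg hl.le (P.d0.le.trans (P.hd w (hs w hw)))
    · rw [abs_mul, abs_of_pos hl]; exact mul_le_mul_of_nonneg_left (hw w hw') hl.le
  have mono : ∀ u v, 0 ≤ u → u ≤ v → v ≤ 1 → Z u ≤ Z v := by
    intro u v hu huv hv
    have := grow (f := Z) (f' := D) (c := 0) huv
      (fun w hw => P.hZ w ⟨hu.trans hw.1, hw.2.trans hv⟩)
      (fun w hw => P.d0.le.trans (P.hd w ⟨hu.trans hw.1, hw.2.trans hv⟩))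
    linarith
  have hpos : 0 ≤ 1 / (lam * m) := by positivity
  have hL : ‖∫ w in (0:ℝ)..a, ee (lam * (Y w - x * w))‖ ≤ 1 / (lam * m) := by
    rcases h1 with rfl | h1
    · simpa using hpos
    · refine key 0 a le_rfl ha (hab.trans hb) fun w hw => ?_
      have := mono w a hw.1 hw.2 (hab.trans hb)
      exact le_abs.2 (Or.inr (by linarith))
  have hR : ‖∫ w in b..1, ee (lam * (Y w - x * w))‖ ≤ 1 / (lam * m) := by
    rcases h2 with rfl | h2
    · simpa using hpos
    · refine key b 1 (ha.trans hab) hb le_rfl fun w hw => ?_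
      have := mono b w (ha.trans hab) hw.1 hw.2
      exact le_abs.2 (Or.inl (by linarith))
  have e1 := intervalIntegral.integral_add_adjacent_intervals (hc.intervalIntegrable (μ := volume) 0 a)
    (hc.intervalIntegrable a b)
  have e2 := intervalIntegral.integral_add_adjacent_intervals (hc.intervalIntegrable (μ := volume) 0 b)
    (hc.intervalIntegrable b 1)
  have e : (∫ w in (0:ℝ)..1, ee (lam * (Y w - x * w))) - ∫ w in a..b, ee (lam * (Y w - x * w)) =
      (∫ w in (0:ℝ)..a, ee (lam * (Y w - x * w))) + ∫ w in b..1, ee (lam * (Y w - x * w)) := by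
    rw [← e2, ← e1]; ring
  rw [e]
  refine (norm_add_le _ _).trans ?_
  have : 2 / (lam * m) = 1 / (lam * m) + 1 / (lam * m) := by ring
  linarith

lemma Prof.taylor1 (P : Prof Y Z D H d) {p w : ℝ} (hp : p ∈ Icc (0:ℝ) 1) (hw : w ∈ Icc (0:ℝ) 1) :
    |Z w - Z p - D p * (w - p)| ≤ H * |w - p| ^ 2 := by
  have hs : uIcc p w ⊆ Icc (0:ℝ) 1 := uIcc_subset_Icc hp hw
  have := mvt_abs (f := fun s => Z s - D p * (s - p)) (f' := fun s => D s - D p) (u := p) (v := w)
    (C := H * |w - p|) (fun s hs' => by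
      have := (P.hZ s (hs hs')).sub (((hasDerivAt_id s).sub_const p).const_mul (D p))
      exact this.congr_deriv (by ring))
    (fun s hs' => (P.hD s (hs hs') p hp).trans
      (mul_le_mul_of_nonneg_left (abs_sub_left_of_mem_uIcc hs') P.H0.le))
  have e : Z w - Z p - D p * (w - p) = Z w - D p * (w - p) - (Z p - D p * (p - p)) := by ring
  rw [e]; refine this.trans (le_of_eq (by ring))

lemma Prof.taylor2 (P : Prof Y Z D H d) {p w : ℝ} (hp : p ∈ Icc (0:ℝ) 1) (hw : w ∈ Icc (0:ℝ) 1) :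
    |Y w - Y p - Z p * (w - p) - D p * (w - p) ^ 2 / 2| ≤ H * |w - p| ^ 3 := by
  have hs : uIcc p w ⊆ Icc (0:ℝ) 1 := uIcc_subset_Icc hp hw
  have := mvt_abs (f := fun s => Y s - Z p * (s - p) - D p * (s - p) ^ 2 / 2)
    (f' := fun s => Z s - Z p - D p * (s - p)) (u := p) (v := w)
    (C := H * |w - p| ^ 2) (fun s hs' => by
      have h0 := (hasDerivAt_id s).sub_const p
      have := ((P.hY s (hs hs')).sub (h0.const_mul (Z p))).sub
        (((h0.pow 2).const_mul (D p)).div_const 2)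
      refine this.congr_deriv ?_
      simp only [id]; ring)
    (fun s hs' => (P.taylor1 hp (hs hs')).trans
      (mul_le_mul_of_nonneg_left (pow_le_pow_left₀ (abs_nonneg _)
        (abs_sub_left_of_mem_uIcc hs') 2) P.H0.le))
  have e : Y w - Y p - Z p * (w - p) - D p * (w - p) ^ 2 / 2 =
      Y w - Z p * (w - p) - D p * (w - p) ^ 2 / 2 -
        (Y p - Z p * (p - p) - D p * (p - p) ^ 2 / 2) := by ring
  rw [e]; refine this.trans (le_of_eq (by ring))

lemma Prof.core (P : Prof Y Z D H d) {lam p R s ρ : ℝ} (hl : 0 < lam) (hs : 0 < s)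
    (hs2 : s ^ 2 = lam * D p) (hρ : 0 < ρ) (hR : s * ρ = R) (h1 : ρ ≤ p) (h2 : p + ρ ≤ 1) :
    ‖(∫ w in (0:ℝ)..1, ee (lam * (Y w - Z p * w))) -
      ee (lam * (Y p - Z p * p)) * ((∫ v in -R..R, ee (v ^ 2 / 2)) / s)‖ ≤
      2 / (lam * (d * ρ)) + 4 * π * lam * H * ρ ^ 4 := by
  have hp : p ∈ Icc (0:ℝ) 1 := ⟨by linarith, by linarith⟩
  have hd0 := P.d0
  have g1 : d * (p - (p - ρ)) ≤ Z p - Z (p - ρ) := grow (f' := D) (by linarith)
    (fun w hw => P.hZ w ⟨by linarith [hw.1], by linarith [hw.2]⟩)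
    (fun w hw => P.hd w ⟨by linarith [hw.1], by linarith [hw.2]⟩)
  have g2 : d * (p + ρ - p) ≤ Z (p + ρ) - Z p := grow (f' := D) (by linarith)
    (fun w hw => P.hZ w ⟨by linarith [hw.1], by linarith [hw.2]⟩)
    (fun w hw => P.hd w ⟨by linarith [hw.1], by linarith [hw.2]⟩)
  have ho := P.outer (lam := lam) (x := Z p) (a := p - ρ) (b := p + ρ) (m := d * ρ) hl (by linarith)
    (by linarith) h2 (by positivity) (Or.inr (by linarith)) (Or.inr (by linarith))
  have hc : Continuous fun w => ee (lam * (Y w - Z p * w)) := by have := P.cY; fun_prop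
  have hc2 : Continuous fun w => ee (lam * (Y p - Z p * p)) * ee ((s * w - s * p) ^ 2 / 2) := by
    fun_prop
  have e1 : ee (lam * (Y p - Z p * p)) * ((∫ v in -R..R, ee (v ^ 2 / 2)) / s) =
      ∫ w in p - ρ..p + ρ, ee (lam * (Y p - Z p * p)) * ee ((s * w - s * p) ^ 2 / 2) := by
    rw [intervalIntegral.integral_const_mul,
      intervalIntegral.integral_comp_mul_sub (fun v => ee (v ^ 2 / 2)) hs.ne' (s * p)]
    have a1 : s * (p - ρ) - s * p = -R := by rw [← hR]; ring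
    have a2 : s * (p + ρ) - s * p = R := by rw [← hR]; ring
    rw [a1, a2, Complex.real_smul]; push_cast; ring
  have hm : ‖∫ w in p - ρ..p + ρ, (ee (lam * (Y w - Z p * w)) -
      ee (lam * (Y p - Z p * p)) * ee ((s * w - s * p) ^ 2 / 2))‖ ≤
      2 * π * (lam * (H * ρ ^ 3)) * |p + ρ - (p - ρ)| := by
    refine norm_integral_le_of_norm_le_const fun w hw => ?_
    rw [uIoc_of_le (by linarith)] at hw
    rw [← ee_add]
    refine (norm_ee_sub _ _).trans (mul_le_mul_of_nonneg_left ?_ (by positivity))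
    have e : lam * (Y w - Z p * w) - (lam * (Y p - Z p * p) + (s * w - s * p) ^ 2 / 2) =
        lam * (Y w - Y p - Z p * (w - p) - D p * (w - p) ^ 2 / 2) := by
      have : (s * w - s * p) ^ 2 = lam * D p * (w - p) ^ 2 := by rw [← hs2]; ring
      rw [this]; ring
    rw [e, abs_mul, abs_of_pos hl]
    refine mul_le_mul_of_nonneg_left ((P.taylor2 hp ⟨by linarith [hw.1], by linarith [hw.2]⟩).trans
      (mul_le_mul_of_nonneg_left (pow_le_pow_left₀ (abs_nonneg _) ?_ 3) P.H0.le)) hl.le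
    exact abs_le.2 ⟨by linarith [hw.1], by linarith [hw.2]⟩
  rw [intervalIntegral.integral_sub (hc.intervalIntegrable _ _) (hc2.intervalIntegrable _ _),
    ← e1, abs_of_pos (by linarith)] at hm
  have := norm_sub_le_norm_sub_add_norm_sub (∫ w in (0:ℝ)..1, ee (lam * (Y w - Z p * w)))
    (∫ w in p - ρ..p + ρ, ee (lam * (Y w - Z p * w)))
    (ee (lam * (Y p - Z p * p)) * ((∫ v in -R..R, ee (v ^ 2 / 2)) / s))
  have e3 : 2 * π * (lam * (H * ρ ^ 3)) * (p + ρ - (p - ρ)) = 4 * π * lam * H * ρ ^ 4 := by ring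
  linarith

lemma Prof.edge (P : Prof Y Z D H d) {lam x p A ρ : ℝ} (hl : 0 < lam) (hA : 0 < A) (hρ : 0 < ρ)
    (hp : p ∈ Icc (0:ℝ) 1) (h1 : p = 0 ∨ Z p ≤ x) (h2 : p = 1 ∨ x ≤ Z p)
    (hD : ∀ w ∈ Icc (0:ℝ) 1, |w - p| ≤ ρ → A ≤ D w) :
    ‖∫ w in (0:ℝ)..1, ee (lam * (Y w - x * w))‖ ≤ 2 / (lam * (A * ρ)) + 2 * ρ := by
  have ha0 : 0 ≤ max 0 (p - ρ) := le_max_left _ _
  have hap : max 0 (p - ρ) ≤ p := max_le hp.1 (by linarith)
  have hb1 : min 1 (p + ρ) ≤ 1 := min_le_left _ _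
  have hpb : p ≤ min 1 (p + ρ) := le_min hp.2 (by linarith)
  have ho := P.outer (lam := lam) (x := x) (a := max 0 (p - ρ)) (b := min 1 (p + ρ)) (m := A * ρ) hl
    ha0 (hap.trans hpb) hb1 (by positivity) (by
      rcases le_total (p - ρ) 0 with h | h
      · left; exact max_eq_left h
      · right
        rw [max_eq_right h]
        have g : A * (p - (p - ρ)) ≤ Z p - Z (p - ρ) := grow (f' := D) (by linarith)
          (fun w hw => P.hZ w ⟨by linarith [hw.1], by linarith [hw.2, hp.2]⟩)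
          (fun w hw => hD w ⟨by linarith [hw.1], by linarith [hw.2, hp.2]⟩
            (abs_le.2 ⟨by linarith [hw.1], by linarith [hw.2]⟩))
        rcases h1 with h1 | h1
        · linarith
        · linarith) (by
      rcases le_total 1 (p + ρ) with h | h
      · left; exact min_eq_left h
      · right
        rw [min_eq_right h]
        have g : A * (p + ρ - p) ≤ Z (p + ρ) - Z p := grow (f' := D) (by linarith)
          (fun w hw => P.hZ w ⟨by linarith [hw.1, hp.1], by linarith [hw.2]⟩)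
          (fun w hw => hD w ⟨by linarith [hw.1, hp.1], by linarith [hw.2]⟩
            (abs_le.2 ⟨by linarith [hw.1], by linarith [hw.2]⟩))
        rcases h2 with h2 | h2
        · linarith
        · linarith)
  have hm : ‖∫ w in max 0 (p - ρ)..min 1 (p + ρ), ee (lam * (Y w - x * w))‖ ≤
      1 * |min 1 (p + ρ) - max 0 (p - ρ)| :=
    norm_integral_le_of_norm_le_const fun w _ => by simp
  have h3 : |min 1 (p + ρ) - max 0 (p - ρ)| ≤ 2 * ρ := by
    rw [abs_of_nonneg (by linarith)]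
    have := min_le_right 1 (p + ρ); have := le_max_right 0 (p - ρ); linarith
  have := norm_le_norm_add_norm_sub' (∫ w in (0:ℝ)..1, ee (lam * (Y w - x * w)))
    (∫ w in max 0 (p - ρ)..min 1 (p + ρ), ee (lam * (Y w - x * w)))
  linarith

end Vale.Agent.P110
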